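import Vale.Agent.P277Z.Oka.All
import Vale.Agent.P277.A.Dim

/-!
# P277: the singular locus of a complex space of pure dimension is analytic
-/

open Filter Topology Set
open Vale.Agent.P277 Vale.Agent.P272.K Vale.Agent.P277Z.Oka

noncomputable section

namespace Vale.Agent.P277Z.Glc

namespace S44

/-- a choice of coordinates -/
def sel {ι : Type} {r : ℕ} (σ : Fin r → Option ι) : (ι → ℂ) →L[ℂ] Cm r :=
  ContinuousLinearMap.pi fun a => (σ a).elim 0 ContinuousLinearMap.proj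

theorem exists_sel {ι W : Type} [NormedAddCommGroup W] [NormedSpace ℂ W] [FiniteDimensional ℂ W]
    {r : ℕ} (hr : Module.finrank ℂ W ≤ r) (T : W →L[ℂ] ι → ℂ) :
    ∃ σ : Fin r → Option ι, ∀ v, sel σ (T v) = 0 → T v = 0 := by
  let f : ι → Module.Dual ℂ W := fun i => (LinearMap.proj i).comp (T : W →ₗ[ℂ] ι → ℂ)
  obtain ⟨κ, a, -, h1, h2⟩ := exists_linearIndependent' ℂ f
  have := h2.finite_of_isNoetherian
  have := Fintype.ofFinite κ
  obtain ⟨e⟩ : Nonempty (κ ↪ Fin r) := Function.Embedding.nonempty_of_card_le (by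
    rw [Fintype.card_fin]
    exact h2.fintype_card_le_finrank.trans (Subspace.dual_finrank_eq.trans_le hr))
  refine ⟨Function.extend e (fun k => some (a k)) fun _ => none, fun v hv => funext fun i => ?_⟩
  have h3 : Submodule.span ℂ (range (f ∘ a)) ≤ LinearMap.ker (Module.Dual.eval ℂ W v) := by
    refine Submodule.span_le.2 ?_
    rintro _ ⟨k, rfl⟩
    have := congrFun hv (e k)
    simp only [sel, ContinuousLinearMap.pi_apply, e.injective.extend_apply] at this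
    exact this
  exact h3 (h1 ▸ Submodule.subset_span (mem_range_self i) : f i ∈ _)

theorem ana_det {E : Type} [NormedAddCommGroup E] [NormedSpace ℂ E] {N : ℕ}
    {D : E → Cm N →L[ℂ] Cm N} {z : E} (h : AnalyticAt ℂ D z) :
    AnalyticAt ℂ (fun z => (D z).det) z := by
  have e : ∀ z, (D z).det = ∑ σ : Equiv.Perm (Fin N), (Equiv.Perm.sign σ : ℤ) *
      ∏ i, D z (Pi.single i 1) (σ i) := fun z => by
    rw [ContinuousLinearMap.det, ← LinearMap.det_toMatrix', Matrix.det_apply']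
    simp [LinearMap.toMatrix'_apply]
  simp only [e]
  refine Finset.analyticAt_fun_sum _ fun σ _ => analyticAt_const.fun_mul
    (Finset.analyticAt_fun_prod _ fun i _ => ?_)
  exact (((ContinuousLinearMap.proj (R := ℂ) (φ := fun _ : Fin N => ℂ) (σ i)).comp
    (ContinuousLinearMap.apply ℂ (Cm N) (Pi.single i 1))).analyticAt _).comp h

theorem left_inv {N : ℕ} {Φ : Cm N → Cm N} {z : Cm N} (h : AnalyticAt ℂ Φ z)
    (hd : (fderiv ℂ Φ z).det ≠ 0) :
    ∃ Ψ : Cm N → Cm N, AnalyticAt ℂ Ψ (Φ z) ∧ ∀ᶠ y in 𝓝 z, Ψ (Φ y) = y := by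
  have h1 : HasFDerivAt Φ ((fderiv ℂ Φ z).toContinuousLinearEquivOfDetNeZero hd :
      Cm N →L[ℂ] Cm N) z := by
    rw [ContinuousLinearMap.coe_toContinuousLinearEquivOfDetNeZero]
    exact h.differentiableAt.hasFDerivAt
  have h2 : ContDiffAt ℂ ⊤ Φ z := h.contDiffAt
  exact ⟨_, (h2.to_localInverse h1 (by simp)).analyticAt,
    (h2.hasStrictFDerivAt' h1 (by simp)).eventually_left_inverse⟩

theorem inj_of {E F : Type} [NormedAddCommGroup E] [NormedSpace ℂ E] [NormedAddCommGroup F]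
    [NormedSpace ℂ F] {f : E → F} {g : F → E} {u : E} (hf : AnalyticAt ℂ f u)
    (hg : AnalyticAt ℂ g (f u)) (h : ∀ᶠ w in 𝓝 u, g (f w) = w) {v : E}
    (hv : fderiv ℂ f u v = 0) : v = 0 := by
  have h1 := (hg.differentiableAt.hasFDerivAt.comp u hf.differentiableAt.hasFDerivAt).unique
    ((hasFDerivAt_id u).congr_of_eventuallyEq h)
  have h2 := congrArg (fun L => L v) h1
  simpa [hv] using h2.symm

variable {X : CSp} {N k n : ℕ} {V : Set X.pt} {Ω : Set (Cm N)} {h : Fin k → Cm N → ℂ}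
  {φ : X.pt → Cm N}

theorem push (M : IsModel X.Hol V Ω h φ) {y : X.pt} (hy : y ∈ V) {P : Cm N → Prop}
    (hP : ∀ᶠ y' in 𝓝 y, P (φ y')) : ∀ᶠ z in 𝓝 (φ y), z ∈ φ '' V → P z :=
  (Csp.push M hy hP).mono fun _ h ⟨y', hy', e⟩ => e ▸ h y' hy' e

/-- the parametrisation near a regular point -/
theorem param (M : IsModel X.Hol V Ω h φ) {y : X.pt} (hy : y ∈ V) (hr : IsReg n X y) :
    ∃ (u : Cm n) (ψ : Cm n → Cm N) (G : Cm N → Cm n), AnalyticAt ℂ ψ u ∧ ψ u = φ y ∧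
      AnalyticAt ℂ G (φ y) ∧ G (φ y) = u ∧ (∀ᶠ w in 𝓝 u, G (ψ w) = w ∧ ψ w ∈ φ '' V) ∧
      ∀ᶠ z in 𝓝 (φ y), z ∈ φ '' V → ψ (G z) = z := by
  obtain ⟨V₁, Ω₁, h₁, φ₁, hy₁, M₁⟩ := hr
  choose ψ hψ e using fun a => (M₁.hol y hy₁ _).1 (M.isCoord.hol a y hy)
  choose G hG e' using fun b => (M.hol y hy _).1 (M₁.isCoord.hol b y hy₁)
  have h1 : ∀ᶠ y' in 𝓝 y, y' ∈ V ∧ (fun a => ψ a (φ₁ y')) = φ y' ∧
      (fun b => G b (φ y')) = φ₁ y' := by
    filter_upwards [M.isOpen.mem_nhds hy, eventually_all.2 e, eventually_all.2 e'] with y' a b c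
    exact ⟨a, funext fun i => (b i).symm, funext fun i => (c i).symm⟩
  have hΩ : φ₁ y ∈ Ω₁ := (M₁.image ▸ mem_image_of_mem φ₁ hy₁ :
    φ₁ y ∈ {z ∈ Ω₁ | ∀ i, h₁ i z = 0}).1
  refine ⟨φ₁ y, fun w a => ψ a w, fun z b => G b z, AnalyticAt.pi hψ, h1.self_of_nhds.2.1,
    AnalyticAt.pi hG, h1.self_of_nhds.2.2, ?_, push M hy (h1.mono fun y' a => ?_)⟩
  · filter_upwards [Csp.push M₁ hy₁ h1, M₁.isOpen'.mem_nhds hΩ] with w a b
    obtain ⟨y', hy', rfl⟩ : w ∈ φ₁ '' V₁ := M₁.image ▸ ⟨b, fun i => i.elim0⟩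
    obtain ⟨c, d, e⟩ := a y' hy' rfl
    rw [d]
    exact ⟨e, y', c, rfl⟩
  · exact (congrArg (fun w a => ψ a w) a.2.2).trans a.2.1

/-- a criterion for regular points -/
theorem isReg_of (M : IsModel X.Hol V Ω h φ) {y : X.pt} (hy : y ∈ V) {P : Cm N → Cm n}
    (hP : ∀ z, AnalyticAt ℂ P z) {s : Cm n → Cm N} (hs : AnalyticAt ℂ s (P (φ y)))
    (h1 : ∀ᶠ z in 𝓝 (φ y), z ∈ φ '' V → s (P z) = z)
    (h2 : ∀ᶠ w in 𝓝 (P (φ y)), s w ∈ φ '' V ∧ P (s w) = w) : IsReg n X y := by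
  have hc : ∀ x ∈ V, ContinuousAt (fun x => P (φ x)) x := fun x hx =>
    (hP _).continuousAt.comp (M.continuousAt hx)
  obtain ⟨B, hB, hBo, hyB⟩ := eventually_nhds_iff.1 (hs.eventually_analyticAt.and h2)
  obtain ⟨W, hW, hWo, hyW⟩ := eventually_nhds_iff.1 ((M.isOpen.eventually_mem hy).and
    (((M.continuousAt hy).eventually h1).and ((hc y hy).eventually_mem (hBo.mem_nhds hyB))))
  have h3 : ∀ x ∈ W, s (P (φ x)) = φ x := fun x hx => (hW x hx).2.1 ⟨x, (hW x hx).1, rfl⟩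
  refine ⟨W, (fun x => P (φ x)) '' W, Fin.elim0, fun x => P (φ x), hyW, hWo, ?_, fun i => i.elim0,
    Set.ext fun z => ⟨fun hz => ⟨hz, fun i => i.elim0⟩, fun hz => hz.1⟩, ?_, fun x hx f => ?_⟩
  · refine isOpen_iff_eventually.2 ?_
    rintro _ ⟨x, hx, rfl⟩
    have h4 := Csp.push M (hW x hx).1 (hWo.eventually_mem hx)
    rw [← h3 x hx] at h4
    filter_upwards [(hB _ (hW x hx).2.2).1.continuousAt.eventually h4,
      hBo.mem_nhds (hW x hx).2.2] with w a b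
    obtain ⟨⟨y', c, d⟩, e⟩ := (hB w b).2
    exact ⟨y', a y' c d, by simp only [d, e]⟩
  · have h4 : Continuous (W.domRestrict fun x => P (φ x)) :=
      continuousOn_iff_continuous_domRestrict.1 fun x hx => (hc x (hW x hx).1).continuousWithinAt
    have h5 : IsEmbedding (B.domRestrict s ∘ fun x : W => (⟨P (φ x), (hW x x.2).2.2⟩ : B)) := by
      have := M.emb.comp (IsEmbedding.inclusion (show W ⊆ V from fun x hx => (hW x hx).1))
      convert this using 1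
      exact funext fun x => h3 x x.2
    exact IsEmbedding.subtypeVal.comp (IsEmbedding.of_comp (h4.subtype_mk _)
      (continuousOn_iff_continuous_domRestrict.1 fun w hw =>
        (hB w hw).1.continuousAt.continuousWithinAt) h5)
  · rw [M.hol x (hW x hx).1]
    refine ⟨fun ⟨G, hG, e⟩ => ⟨G ∘ s, hG.comp_of_eq (hB _ (hW x hx).2.2).1 (h3 x hx), ?_⟩,
      fun ⟨G, hG, e⟩ => ⟨G ∘ P, hG.comp (hP _), e⟩⟩
    filter_upwards [e, hWo.mem_nhds hx] with x' a b
    simp only [a, Function.comp, h3 x' b]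

variable {m : ℕ}

/-- the equations together with some coordinates -/
def Γ (g : Fin m → Cm N → ℂ) (τ : Fin n → Option (Fin N)) (z : Cm N) : Fin m ⊕ Fin n → ℂ :=
  Sum.elim (fun l => g l z) (sel τ z)

theorem ana_elim {E : Type} [NormedAddCommGroup E] [NormedSpace ℂ E] {a : E → Cm m}
    {b : E → Cm n} {z : E} (ha : AnalyticAt ℂ a z) (hb : AnalyticAt ℂ b z) :
    AnalyticAt ℂ (fun z => Sum.elim (a z) (b z)) z := by
  refine AnalyticAt.pi ?_
  rintro (l | j)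
  exacts [analyticAt_pi_iff.1 ha l, analyticAt_pi_iff.1 hb j]

theorem ana_Γ {g : Fin m → Cm N → ℂ} {z : Cm N} (hg : ∀ l, AnalyticAt ℂ (g l) z)
    (τ : Fin n → Option (Fin N)) : AnalyticAt ℂ (Γ g τ) z :=
  ana_elim (AnalyticAt.pi hg) ((sel τ).analyticAt z)

/-- the minors -/
def J (g : Fin m → Cm N → ℂ) (c : (Fin n → Option (Fin N)) × (Fin N → Option (Fin m ⊕ Fin n)))
    (z : Cm N) : ℂ := (fderiv ℂ (fun z => sel c.2 (Γ g c.1 z)) z).det

theorem minor_of_reg (M : IsModel X.Hol V Ω h φ) {y : X.pt} (hy : y ∈ V) {g : Fin m → Cm N → ℂ}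
    (hg : ∀ l, AnalyticAt ℂ (g l) (φ y)) (h0 : ∀ l, g l (φ y) = 0)
    (hI : ∀ f, AnalyticAt ℂ f (φ y) → Van (φ y) (φ '' V) f → In (φ y) g f) (hr : IsReg n X y) :
    ∃ c, J (n := n) g c (φ y) ≠ 0 := by
  obtain ⟨u, ψ, G, hψ, e, hG, e', -, h2⟩ := param M hy hr
  obtain ⟨τ, hτ⟩ := exists_sel (r := n) (by simp) (fderiv ℂ ψ u)
  have hΓ := (ana_Γ hg τ).differentiableAt.hasFDerivAt
  obtain ⟨σ, hσ⟩ := exists_sel (r := N) (by simp) (fderiv ℂ (Γ g τ) (φ y))
  refine ⟨(τ, σ), fun h3 => ?_⟩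
  obtain ⟨v, hv, hv0⟩ := (Submodule.ne_bot_iff _).1 (LinearMap.det_eq_zero_iff_ker_ne_bot.1 h3)
  have h4 : fderiv ℂ (Γ g τ) (φ y) v = 0 := hσ v (by
    have := ((sel σ).hasFDerivAt.comp _ hΓ).fderiv
    exact (congrArg (fun L : Cm N →L[ℂ] Cm N => L v) this).symm.trans hv)
  have h5 : ∀ i, fderiv ℂ (fun z => Γ g τ z i) (φ y) v = 0 := fun i => by
    rw [(hasFDerivAt_pi'.1 hΓ i).fderiv]
    exact congrFun h4 i
  have h6 : sel τ v = 0 := funext fun j => by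
    have := h5 (.inr j)
    rwa [show (fun z => Γ g τ z (.inr j)) = ((ContinuousLinearMap.proj j).comp (sel τ) :
      Cm N →L[ℂ] ℂ) from rfl, ContinuousLinearMap.fderiv] at this
  have hd : HasFDerivAt (fun z => z - ψ (G z)) (ContinuousLinearMap.id ℂ _ -
      (fderiv ℂ ψ u).comp (fderiv ℂ G (φ y))) (φ y) :=
    (hasFDerivAt_id _).sub (HasFDerivAt.comp (φ y) (e'.symm ▸ hψ.differentiableAt.hasFDerivAt)
      hG.differentiableAt.hasFDerivAt)
  have h7 : v = fderiv ℂ ψ u (fderiv ℂ G (φ y) v) := funext fun a => by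
    obtain ⟨c, hc, e1⟩ := hI (fun z => (z - ψ (G z)) a)
      (analyticAt_pi_iff.1 (analyticAt_id.sub (hψ.comp_of_eq hG e')) a)
      (h2.mono fun z b hz => by simp only [b hz, sub_self, Pi.zero_apply])
    have e2 := (hasFDerivAt_pi'.1 hd a).unique ((HasFDerivAt.fun_sum fun l _ =>
      (hc l).differentiableAt.hasFDerivAt.mul (hg l).differentiableAt.hasFDerivAt
        ).congr_of_eventuallyEq e1)
    have e3 := congrArg (fun L => L v) e2
    have e4 : ∀ l, fderiv ℂ (g l) (φ y) v = 0 := fun l => h5 (.inl l)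
    simpa [h0, e4, sub_eq_zero] using e3
  exact hv0 (h7.trans (hτ _ (h7 ▸ h6)))

theorem reg_of_minor (hD : Dense {x | IsReg n X x}) (M : IsModel X.Hol V Ω h φ) {y : X.pt}
    (hy : y ∈ V) {g : Fin m → Cm N → ℂ} (hg : ∀ l, AnalyticAt ℂ (g l) (φ y))
    (hZ : ∀ᶠ z in 𝓝 (φ y), z ∈ φ '' V ↔ z ∈ Zs g) {c} (hc : J (n := n) g c (φ y) ≠ 0) :
    IsReg n X y := by
  obtain ⟨τ, σ⟩ := c
  obtain ⟨Ψ, hΨ, e⟩ := left_inv (((sel σ).analyticAt _).comp (ana_Γ hg τ)) hc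
  let i : Cm n → Fin m ⊕ Fin n → ℂ := fun w => Sum.elim 0 w
  have hi : ∀ w, AnalyticAt ℂ i w := fun w => ana_elim analyticAt_const analyticAt_id
  let s : Cm n → Cm N := fun w => Ψ (sel σ (i w))
  have h1 : ∀ᶠ z in 𝓝 (φ y), z ∈ φ '' V → Γ g τ z = i (sel τ z) ∧ s (sel τ z) = z := by
    filter_upwards [e, hZ] with z a b hz
    have : Γ g τ z = i (sel τ z) := congrArg (Sum.elim · (sel τ z)) (funext (b.1 hz))
    exact ⟨this, by simpa only [Function.comp, this] using a⟩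
  obtain ⟨e1, e2⟩ := h1.self_of_nhds ⟨y, hy, rfl⟩
  have hs : AnalyticAt ℂ s (sel τ (φ y)) :=
    hΨ.comp_of_eq (((sel σ).analyticAt _).comp (hi _)) (congrArg (sel σ) e1.symm)
  obtain ⟨r, hr, hB⟩ := Metric.eventually_nhds_iff_ball.1 (hs.eventually_analyticAt.and
    ((ana_Γ hg τ).comp_of_eq hs e2).eventually_analyticAt)
  obtain ⟨y', ⟨a1, a2, a3⟩, a4⟩ := mem_closure_iff_nhds.1 (hD y) _
    ((M.isOpen.eventually_mem hy).and (((M.continuousAt hy).eventually h1.eventually_nhds).and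
      (((sel τ).continuous.continuousAt.comp (M.continuousAt hy)).eventually_mem
        (Metric.ball_mem_nhds _ hr))))
  obtain ⟨u, ψ, G, hψ, b1, hG, -, b2, -⟩ := param M a1 a4
  have b3 : ∀ᶠ w in 𝓝 u, Γ g τ (ψ w) = i (sel τ (ψ w)) ∧ s (sel τ (ψ w)) = ψ w := by
    filter_upwards [hψ.continuousAt.eventually (b1.symm ▸ a2), b2] with w a b using a b.2
  have hf : AnalyticAt ℂ (fun w => sel τ (ψ w)) u := ((sel τ).analyticAt _).comp hψ
  have a5 : sel τ (ψ u) ∈ Metric.ball (sel τ (φ y)) r := b1.symm ▸ a3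
  have b4 := hf.hasStrictFDerivAt.map_nhds_eq_of_surj (LinearMap.range_eq_top.2
    (LinearMap.injective_iff_surjective.1 ((injective_iff_map_eq_zero _).2 fun v hv =>
      inj_of (g := G ∘ s) hf (hG.comp_of_eq (hB _ a5).1 (b3.self_of_nhds.2.trans b1))
        (by filter_upwards [b2, b3] with w a b using (congrArg G b.2).trans a.1) hv)))
  have b5 := AnalyticOnNhd.eqOn_of_preconnected_of_eventuallyEq (fun w hw => (hB w hw).2)
    (fun w _ => hi w) (convex_ball _ _).isPreconnected a5 (by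
      rw [← b4]
      exact b3.mono fun w a => (congrArg (Γ g τ) a.2).trans a.1)
  refine isReg_of M hy (sel τ).analyticAt hs (h1.mono fun z a hz => (a hz).2) ?_
  filter_upwards [hs.continuousAt.eventually (e2.symm ▸ hZ), Metric.ball_mem_nhds _ hr] with w a b
  exact ⟨a.2 fun l => congrFun (b5 b) (.inl l), funext fun j => congrFun (b5 b) (.inr j)⟩

end S44

open S44 in
/-- the singular locus is analytic -/
theorem sing_an {X : CSp} {n : ℕ} (hD : Dense {x | IsReg n X x}) :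
    IsAn X univ {x | ¬ IsReg n X x} := by
  intro x _
  obtain ⟨N, k, V, Ω, h, φ, hx, M⟩ := X.model x
  obtain ⟨m, g, hg, h1, h2⟩ := carX_all X univ univ (fun _ _ => ⟨0, Fin.elim0, fun i => i.elim0,
    .of_forall fun _ => ⟨fun _ i => i.elim0, fun _ => trivial⟩⟩) V Ω h φ M x ⟨hx, trivial⟩
  rw [inter_univ] at h1 h2
  let e := Fintype.equivFin ((Fin n → Option (Fin N)) × (Fin N → Option (Fin m ⊕ Fin n)))
  refine ⟨_, fun i y => J g (e.symm i) (φ y), fun i => (M.hol x hx _).2 ⟨J g (e.symm i),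
    ana_det (((sel (e.symm i).2).analyticAt _).comp (ana_Γ hg _)).fderiv, .rfl⟩, ?_⟩
  filter_upwards [M.isOpen.mem_nhds hx, (M.continuousAt hx).eventually (h1.eventually_nhds.and
    (h2.and (eventually_all.2 fun l => (hg l).eventually_analyticAt)))] with y hy a
  refine ⟨fun b i => by_contra fun c => b (reg_of_minor hD M hy a.2.2 a.1 c), fun b c => ?_⟩
  obtain ⟨d, hd⟩ := minor_of_reg M hy a.2.2 (a.1.self_of_nhds.1 ⟨y, hy, rfl⟩) a.2.1 c
  exact hd (by simpa using b (e d))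

end Vale.Agent.P277Z.Glc
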