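import Vale.Agent.P277.HD.Klt
import Vale.Agent.P277.A.Emb

/-!
# P277, block GLC: the statements about spaces and flips (no resolution data)

See `notes/P277_glc.md`.
-/

open scoped Manifold ContDiff Topology
open Vale.Agent.P277 Vale.Agent.P277.HD
open Vale.Agent.P272.K Vale.Agent.P285.H281.FD Set Filter

noncomputable section

namespace Vale.Agent.P277Z.Glc

/-- `j` is an isomorphism of the open set `O` of `X` onto an open set of `X'`. -/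
structure LocIso (X X' : CSp) (O : Set X.pt) (j : X.pt → X'.pt) : Prop where
  isOpen : IsOpen O
  cont : ContinuousOn j O
  inj : InjOn j O
  openMap : ∀ U ⊆ O, IsOpen U → IsOpen (j '' U)
  hol : ∀ x ∈ O, ∀ g : X'.pt → ℂ, X'.Hol g (j x) ↔ X.Hol (g ∘ j) x

/-- `q : Y → X` is holomorphic, onto, and an isomorphism over the complement of the closed set `N`. -/
structure IsoOff (Y X : CSp) (q : Y.pt → X.pt) (N : Set X.pt) : Prop where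
  hol : ∀ y, HolMap Y X q y
  surj : Function.Surjective q
  closed : IsClosed N
  iso : LocIso Y X (q ⁻¹' Nᶜ) q

/-- (SURG) surgery: transplant a modification along `N`. -/
def StSurg : Prop :=
  ∀ (Y X X' : CSp) (q : Y.pt → X.pt) (N O : Set X.pt) (j : X.pt → X'.pt), IsoOff Y X q N → N ⊆ O →
    LocIso X X' O j →
    ∃ (Y' : CSp) (q' : Y'.pt → X'.pt) (j' : Y.pt → Y'.pt), IsoOff Y' X' q' (j '' N) ∧
      LocIso Y Y' (q ⁻¹' O) j' ∧ j' '' (q ⁻¹' O) = q' ⁻¹' (j '' O) ∧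
      ∀ y, q y ∈ O → q' (j' y) = j (q y)

/-- the line bundle `P` is trivial over the open set `V` -/
def TrivOn (Y : CSp) (V : Set Y.pt) (P : Bd Y.pt) : Prop :=
  ∃ τ : P.ι → Y.pt → ℂ, IsSecx Y V P τ ∧ ∀ i, ∀ y ∈ V, y ∈ P.U i → τ i y ≠ 0

/-- the family `q^* L 0, …, q^* L (k - 1), P` -/
def liftFam {k : ℕ} {Y X : Type} (q : Y → X) (L : Fin k → Bd X) (P : Bd Y) : Fin (k + 1) → Bd Y :=
  Fin.snoc (α := fun _ => Bd Y) (fun e => pull q (L e)) P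

/-- (LIFT1) a flip away from `N` lifts to a modification along `N`. -/
def StLift1 : Prop :=
  ∀ (k : ℕ) (X Z X' : CSp) (f : X.pt → Z.pt) (f' : X'.pt → Z.pt) (A : Set Z.pt)
    (L : Fin k → Bd X.pt) (L' : Fin k → Bd X'.pt) (c c' : Fin k → ℕ) (ρ : Fin k → ℝ),
    (∀ e, 1 ≤ c e) → (∀ e, 1 ≤ c' e) → IsFlipR X Z X' f f' A L L' c c' ρ →
    ∀ (Y : CSp) (q : Y.pt → X.pt) (N : Set X.pt) (P : Bd Y.pt) (ε : ℝ), IsNormal 4 Y →
      IsoOff Y X q N → (∀ x ∈ N, f x ∉ Amin f) → IsLBx Y P → TrivOn Y (q ⁻¹' Nᶜ) P →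
      ∃ (Z₁ Y' : CSp) (F : Y.pt → Z₁.pt) (F' : Y'.pt → Z₁.pt) (A₁ : Set Z₁.pt) (q' : Y'.pt → X'.pt)
        (P' : Bd Y'.pt), IsoOff Y' X' q' (f' ⁻¹' (f '' N)) ∧ IsLBx Y' P' ∧
        TrivOn Y' (q' ⁻¹' (f' ⁻¹' (f '' N))ᶜ) P' ∧
        IsFlipR Y Z₁ Y' F F' A₁ (liftFam q L P) (liftFam q' L' P')
          (Fin.snoc (α := fun _ => ℕ) c 1) (Fin.snoc (α := fun _ => ℕ) c' 1)
          (Fin.snoc (α := fun _ => ℝ) ρ ε)

/-- a step which is an isomorphism -/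
structure IsStep0 {k : ℕ} (X Z X' : CSp) (f : X.pt → Z.pt) (f' : X'.pt → Z.pt)
    (L : Fin k → Bd X.pt) (L' : Fin k → Bd X'.pt) (c c' : Fin k → ℕ) : Prop where
  normal : IsNormal 4 X
  normal' : IsNormal 4 X'
  small : IsSmall X Z f ∅
  small' : IsSmall X' Z f' ∅
  lb : ∀ e, IsLBx X (L e)
  lb' : ∀ e, IsLBx X' (L' e)
  iso : ∀ e, ∃ p q : ℕ, 1 ≤ p ∧ 1 ≤ q ∧ c e * p = c' e * q ∧
    ∃ t, IsIso f f' ∅ ((L e).pow p) ((L' e).pow q) t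

/-- an infinite sequence of flips of `∑ e, ρ e • D e` -/
structure Seq (k : ℕ) (ρ : Fin k → ℝ) where
  X : ℕ → CSp
  Z : ℕ → CSp
  f : ∀ j, (X j).pt → (Z j).pt
  f' : ∀ j, (X (j + 1)).pt → (Z j).pt
  A : ∀ j, Set (Z j).pt
  L : ∀ j, Fin k → Bd (X j).pt
  c : ℕ → Fin k → ℕ
  hc : ∀ j e, 1 ≤ c j e
  flip : ∀ j, IsFlipR (X j) (Z j) (X (j + 1)) (f j) (f' j) (A j) (L j) (L (j + 1)) (c j)
    (c (j + 1)) ρ

/-- there is an infinite sequence of flips which starts with `(X₀, L₀, c₀)` -/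
def HasSeq {k : ℕ} (ρ : Fin k → ℝ) (X₀ : CSp) (L₀ : Fin k → Bd X₀.pt) (c₀ : Fin k → ℕ) : Prop :=
  ∃ S : Seq k ρ, (⟨S.X 0, S.L 0⟩ : Σ X : CSp, Fin k → Bd X.pt) = ⟨X₀, L₀⟩ ∧ S.c 0 = c₀

/-- (SKIP) drop the steps which are isomorphisms. -/
def StSkip : Prop :=
  ∀ (k : ℕ) (ρ : Fin k → ℝ) (X Z : ℕ → CSp) (f : ∀ j, (X j).pt → (Z j).pt)
    (f' : ∀ j, (X (j + 1)).pt → (Z j).pt) (A : ∀ j, Set (Z j).pt) (L : ∀ j, Fin k → Bd (X j).pt)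
    (c : ℕ → Fin k → ℕ) (J : Set ℕ), (∀ j e, 1 ≤ c j e) → 0 ∈ J → J.Infinite →
    (∀ j ∈ J, IsFlipR (X j) (Z j) (X (j + 1)) (f j) (f' j) (A j) (L j) (L (j + 1)) (c j)
      (c (j + 1)) ρ) →
    (∀ j ∉ J, IsStep0 (X j) (Z j) (X (j + 1)) (f j) (f' j) (L j) (L (j + 1)) (c j) (c (j + 1))) →
    HasSeq ρ (X 0) (L 0) (c 0)

/-- the family with the new generators `D' a = ∑ e, R a e • D e` -/
def regen {k k' : ℕ} {X : Type} (R : Fin k' → Fin k → ℕ) (L : Fin k → Bd X) (c : Fin k → ℕ) :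
    Fin k' → Bd X :=
  fun a => HD.Bd.lin L fun e => ((R a e * ((∏ e', c e') / c e) : ℕ) : ℤ)

/-- (REGEN) change of the generators. -/
def StRegen : Prop :=
  ∀ (k k' : ℕ) (R : Fin k' → Fin k → ℕ) (x : Fin k' → ℝ) (X Z X' : CSp) (f : X.pt → Z.pt)
    (f' : X'.pt → Z.pt) (A : Set Z.pt) (L : Fin k → Bd X.pt) (L' : Fin k → Bd X'.pt)
    (c c' : Fin k → ℕ), (∀ e, 1 ≤ c e) → (∀ e, 1 ≤ c' e) →
    IsFlipR X Z X' f f' A L L' c c' (fun e => ∑ a, x a * R a e) →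
    IsFlipR X Z X' f f' A (regen R L c) (regen R L' c') (fun _ => ∏ e, c e) (fun _ => ∏ e, c' e) x

/-- (RATC) a point with positive coordinates is a positive combination of integral points with
positive coordinates which satisfy the same rational linear equations. -/
def StRatC : Prop :=
  ∀ (k b : ℕ) (ρ : Fin k → ℝ) (u : Fin b → Fin k → ℚ), (∀ e, 0 < ρ e) →
    (∀ i, ∑ e, (u i e : ℝ) * ρ e = 0) →
    ∃ (k' : ℕ) (R : Fin k' → Fin k → ℕ) (x : Fin k' → ℝ), (∀ a, 0 < x a) ∧ (∀ a e, 1 ≤ R a e) ∧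
      (∀ a i, ∑ e, u i e * R a e = 0) ∧ ∀ e, ρ e = ∑ a, x a * R a e

/-- `ν : V → X` is the normalisation of its image, an isomorphism onto the image off `B`. -/
structure IsNorm (V X : CSp) (ν : V.pt → X.pt) (B : Set X.pt) : Prop where
  normal : IsNormal 4 V
  hol : ∀ v, HolMap V X ν v
  fin : ∀ x, (ν ⁻¹' {x}).Finite
  an : IsAn X univ B
  dense : Dense (ν ⁻¹' Bᶜ)
  inj : ∀ v v', ν v ∉ B → ν v' = ν v → v' = v
  iso : ∀ v g, ν v ∉ B → V.Hol g v → ∃ h, X.Hol h (ν v) ∧ g =ᶠ[𝓝 v] h ∘ ν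

/-- (NLIFT) maps of normal spaces lift to the normalisation. -/
def StNLift : Prop :=
  ∀ (V X V' : CSp) (ν : V.pt → X.pt) (B : Set X.pt) (h : V'.pt → X.pt), IsNorm V X ν B →
    IsNormal 4 V' → (∀ v, HolMap V' X h v) → range h ⊆ range ν → Dense (h ⁻¹' Bᶜ) →
    ∃ g : V'.pt → V.pt, (∀ v, HolMap V' V g v) ∧ ∀ v, ν (g v) = h v

/-- (FINAMP) the pull back of a relatively ample line bundle by a finite map. -/
def StFinAmp : Prop :=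
  ∀ (V X Z V₁ : CSp) (ν : V.pt → X.pt) (B : Set X.pt) (f : X.pt → Z.pt) (F : V.pt → V₁.pt)
    (ν₁ : V₁.pt → Z.pt) (L : Bd X.pt), IsNorm V X ν B → (∀ x, HolMap X Z f x) →
    (∀ v, HolMap V V₁ F v) → (∀ v, HolMap V₁ Z ν₁ v) → (∀ v, ν₁ (F v) = f (ν v)) → IsLBx X L →
    RelAmple X Z f L → RelAmple V V₁ F (pull ν L)

/-- (LAT2) the lattice lemma for the thresholds. -/
def StLat2 : Prop :=
  ∀ (J T : Type) [Fintype J] [Fintype T] [Nonempty J] (I : J → J → ℤ) (k : J → ℤ) (c A : J → ℝ)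
    (β : T → ℝ) (l : T → J → ℕ), (∀ a b, I a b = I b a) → (∀ a b, a ≠ b → 0 ≤ I a b) →
    (∀ a, 0 ≤ c a) → (∀ b, ∑ a, c a * I a b < 0) → (∀ a, -2 ≤ k a + I a a) → (∀ t, 0 ≤ β t) →
    (∀ a, (k a : ℝ) + ∑ t, β t * l t a + ∑ b, (1 - A b) * I b a = 0) →
    (∃ (a : J) (r : T → ℕ), A a = 2 - ∑ t, r t * β t) ∨
    ∃ (n : J → ℕ) (r : T → ℕ) (z : ℤ), (∃ a, n a ≠ 0) ∧ (∀ a, n a ≠ 0 → A a ≤ 1) ∧ z ≤ 2 ∧
      ∑ a, n a * A a + ∑ t, r t * β t = z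

end Vale.Agent.P277Z.Glc
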