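import Vale.Agent.P277Z.Glc.Api
import Vale.Agent.P277Z.Val.KB
import Vale.Agent.P277Z.St.First

/-!
# P277, block GLC: a projective log resolution of a model is a modification
-/

open scoped Manifold ContDiff Topology
open Vale.Agent.P277 hiding Amin IsFlipR
open Vale.Agent.P277.HD Vale.Agent.P277.PH
open Vale.Agent.P272.K Vale.Agent.P285.H281.FD Set Filter

noncomputable section

namespace Vale.Agent.P277Z.Glc

namespace MdP

open Val

variable {V' V : Lg} {π : V'.W → V.W} {new : Finset (Fin V'.r)} {y : V'.W}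
  {e' : Chart 4 V'.W} {e : Chart 4 V.W}

theorem hol (h : Res V' V.X π new) (he' : At e' y) (he : At e (π y)) :
    AnalyticAt ℂ (fun z => e (π (e'.symm z))) (e' y) :=
  analyticAt_pi_iff.2 fun i => h.hol y (fun x : V.W => e x i) (holF_chart he i) e' he'

/-- off the new components the Jacobian does not vanish -/
theorem det (h : Res V' V.X π new) (hy : y ∉ ⋃ l ∈ new, V'.G l) (he' : At e' y)
    (he : At e (π y)) : jac π e' e y ≠ 0 := by
  refine (locIso_of_inv (θ := fun w => e' (h.emb.inv y (e.symm w))) (hol h he' he) ?_ ?_).2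
  · rw [e'.left_inv he'.2]
    exact analyticAt_pi_iff.2 fun i => h.emb.hol_chart y hy he' i e he
  · filter_upwards [PH.ev_symm he'.2 ((h.emb.isOpen.eventually_mem hy).and
      (h.cont.continuousAt.eventually (e.open_source.eventually_mem he.2))),
      e'.open_target.mem_nhds (e'.map_source he'.2)] with z e1 e2
    rw [e.left_inv e1.2, h.emb.inv_apply y e1.1, e'.right_inv e2]

theorem hom0 (h : Res V' V.X π new) (hp : ∀ y, π y ∈ V.E → y ∈ V'.E) : Hom0 V' V π :=
  ⟨h.cont, fun _ _ _ => hol h, hp, fun _ hy _ _ => det h fun k => hy (Lf.sub_E V' new k)⟩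

/-- on the new components the Jacobian vanishes -/
theorem not_new (h : Res V' V.X π new) (he' : At e' y) (he : At e (π y)) {l : Fin V'.r}
    (hy : y ∈ V'.G l) (hj : jac π e' e y ≠ 0) : l ∉ new := by
  intro hl
  have hc := crd_chart he
  have h1 : Val.HolM 4 4 π y := ⟨h.cont.continuousAt, h.hol y⟩
  obtain ⟨ξ, h2⟩ := U.crd_pull h1 (crd_chart he') hc ⟨hol h he' he, hj⟩
  have h3 : ∀ᶠ z in 𝓝 (π y), HolMap V.X V'.X (fun z => ξ (e z)) z := by
    filter_upwards [hc.eventually, hc.cont.eventually h2.an.eventually] with z a b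
    exact ⟨b.1.comp a.cont, fun g hg => a.holF (b.hol hg)⟩
  have h4 : DimLe V'.X 2 ((fun z => ξ (e z)) ''
      (π '' V'.G l ∩ {z | HolMap V.X V'.X (fun z => ξ (e z)) z})) :=
    (((exc_iff V' V.X π new h l).1 hl).mono inter_subset_left).image fun _ hz => hz.2
  obtain ⟨x, ⟨a, b⟩, c, d⟩ := ((U.not_thin hy (H60.Z.thinM_iff.2 h4)).and_eventually
    (h2.left.and (h.cont.continuousAt.eventually h3))).exists
  exact b ⟨π x, ⟨⟨x, a, rfl⟩, d⟩, c⟩

theorem zero_iff (h : Res V' V.X π new) {J : Fin V'.r → ℕ}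
    (hJ : ∀ y (e' : Chart 4 V'.W) (e : Chart 4 V.W), At e' y → At e (π y) →
      Val.Mon V' y (jac π e' e) J) (l : Fin V'.r) : J l = 0 ↔ l ∉ new := by
  obtain ⟨y₀, hy₀⟩ := (V'.conn l).nonempty
  obtain ⟨y, h1, h2⟩ := (Lg.freq1 hy₀).exists
  have he' := at_chartAt (n := 4) y
  have he := at_chartAt (n := 4) (π y)
  obtain ⟨ζ, hζ⟩ := V'.exEq y
  obtain ⟨u, -, b, c⟩ := hJ y _ _ he' he ζ hζ
  have h3 := hζ.iff.self_of_nhds
  refine ⟨fun k => not_new h he' he h1 ?_, fun k => by_contra fun k' => det h (fun a => ?_) he' he ?_⟩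
  · rw [c.self_of_nhds]
    refine mul_ne_zero b (Finset.prod_ne_zero_iff.2 fun j _ => ?_)
    by_cases hj : j = l
    · rw [hj, k, pow_zero]
      exact one_ne_zero
    · exact pow_ne_zero _ fun a => h2 j hj ((h3 j).1 a)
  · obtain ⟨j, a1, a2⟩ := mem_iUnion₂.1 a
    exact h2 j (fun e => k (e ▸ a1)) a2
  · rw [c.self_of_nhds, Finset.prod_eq_zero (Finset.mem_univ l)
      (by rw [(h3 l).2 h1, zero_pow k']), mul_zero]

end MdP

/-- (MD) -/
theorem md_of (hKR : GH.StKR) (hKP : GH.StKProj) (hKM : GH.StKMan) : StMd := by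
  intro V V' π new h hp
  obtain ⟨χ, hχ⟩ := Val.kb_of hKR hKP hKM V' V.lg π new V.χ V.kahler h
  have : ConnectedSpace V.lg.X.pt := V.conn
  have : ConnectedSpace V'.W := St.Fst.conn (Val.nx V.lg V.conn.toNonempty) h
  let U : Mf 4 :=
    { T := V'.W, χ := χ, kahler := hχ, r := V'.r, G := V'.G, connG := V'.conn, snc := V'.snc }
  obtain ⟨o, ho⟩ := (MdP.hom0 h hp).exists_tot
  obtain ⟨J, hJ⟩ := (MdP.hom0 h hp).exists_jac
  refine ⟨U, ⟨π, ⟨h.cont, h.hol⟩, h.surj, o, J, fun y l ζ hζ => ?_,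
    fun y e' e he' he => ((mon_iff_val (V := U)).1 (hJ y e' e he' he)).2,
    fun y hy y' => h.inj y y' fun k => hy (Val.Lf.sub_E V' new k)⟩, new, rfl,
    MdP.zero_iff h hJ⟩
  obtain ⟨ζ', h'⟩ := V.exEq (π y)
  obtain ⟨u, a, b, c⟩ := (h' l).unit hζ
  exact ((mon_iff_val (V := U)).1 (ho y ζ' h' l)).2.unit (h.hol y u a) b
    ((h.cont.continuousAt.eventually c).mono fun _ k _ => k)

end Vale.Agent.P277Z.Glc
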