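import Vale.Agent.P277Z.Glc.BIso

/-!
# P277, block GLC: local isomorphisms, transport of models and of normality
-/

open scoped Manifold ContDiff Topology
open Vale.Agent.P277 Vale.Agent.P277.HD
open Vale.Agent.P272.K Vale.Agent.P285.H281.FD Set Filter

noncomputable section

namespace Vale.Agent.P277Z.Glc

/-- `LocIso` for spaces which are not yet known to be complex spaces -/
structure RIso {B A : Type} [TopologicalSpace B] [TopologicalSpace A] (HB : (B → ℂ) → B → Prop)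
    (HA : (A → ℂ) → A → Prop) (W : Set B) (ψ : B → A) : Prop where
  isOpen : IsOpen W
  cont : ContinuousOn ψ W
  inj : InjOn ψ W
  openMap : ∀ U ⊆ W, IsOpen U → IsOpen (ψ '' U)
  hol : ∀ x ∈ W, ∀ g : A → ℂ, HA g (ψ x) ↔ HB (g ∘ ψ) x

section raw
variable {B A : Type} [TopologicalSpace B] [TopologicalSpace A] {HB : (B → ℂ) → B → Prop}
  {HA : (A → ℂ) → A → Prop} {W : Set B} {ψ : B → A}

theorem map_nhds_of_open (hW : IsOpen W) (hc : ContinuousOn ψ W)
    (ho : ∀ U ⊆ W, IsOpen U → IsOpen (ψ '' U)) {x : B} (hx : x ∈ W) :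
    map ψ (𝓝 x) = 𝓝 (ψ x) := by
  refine le_antisymm (hc.continuousAt (hW.mem_nhds hx)) fun s hs => ?_
  obtain ⟨U, hU, hUo, hxU⟩ := mem_nhds_iff.1 (inter_mem hs (hW.mem_nhds hx))
  refine mem_of_superset ((ho U (fun z hz => (hU hz).2) hUo).mem_nhds ⟨x, hxU, rfl⟩) ?_
  rintro _ ⟨z, hz, rfl⟩
  exact (hU hz).1

theorem isModel_mono {V V' : Set B} {N k : ℕ} {Ω : Set (Cm N)} {h : Fin k → Cm N → ℂ}
    {φ : B → Cm N} (hM : IsModel HB V Ω h φ) (hV' : IsOpen V') (hVV : V' ⊆ V) :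
    ∃ Ω', IsModel HB V' Ω' h φ := by
  obtain ⟨T, hT, hT'⟩ := hM.emb.isInducing.isOpen_iff.1 (hV'.preimage continuous_subtype_val)
  have key : ∀ x ∈ V, φ x ∈ T ↔ x ∈ V' := fun x hx => Set.ext_iff.1 hT' ⟨x, hx⟩
  refine ⟨Ω ∩ T, hV', hM.isOpen'.inter hT, fun i z hz => hM.holo i z hz.1, ?_, ?_,
    fun x hx => hM.hol x (hVV hx)⟩
  · ext z
    constructor
    · rintro ⟨x, hx, rfl⟩
      have h1 : φ x ∈ {z ∈ Ω | ∀ i, h i z = 0} := hM.image ▸ mem_image_of_mem φ (hVV hx)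
      exact ⟨⟨h1.1, (key x (hVV hx)).2 hx⟩, h1.2⟩
    · rintro ⟨⟨h1, h2⟩, h3⟩
      have h4 : z ∈ φ '' V := hM.image ▸ ⟨h1, h3⟩
      obtain ⟨x, hx, rfl⟩ := h4
      exact ⟨x, (key x hx).1 h2, rfl⟩
  · exact hM.emb.comp (Topology.IsEmbedding.inclusion hVV)

theorem RIso.model (H : RIso HB HA W ψ) {V : Set B} {N k : ℕ} {Ω : Set (Cm N)}
    {h : Fin k → Cm N → ℂ} {φ : B → Cm N} (hM : IsModel HB V Ω h φ) {b : B} (hb : b ∈ W)
    (hbV : b ∈ V) : ∃ (V' : Set A) (Ω' : Set (Cm N)) (φ' : A → Cm N),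
      ψ b ∈ V' ∧ IsModel HA V' Ω' h φ' := by
  obtain ⟨Ω', hM'⟩ := isModel_mono hM (H.isOpen.inter hM.isOpen) inter_subset_right
  have : Nonempty B := ⟨b⟩
  set σ := Function.invFunOn ψ W with hσ
  have hl : ∀ x ∈ W, σ (ψ x) = x := fun x hx => H.inj.leftInvOn_invFunOn hx
  have hsub : W ∩ V ⊆ W := inter_subset_left
  refine ⟨ψ '' (W ∩ V), Ω', φ ∘ σ, ⟨b, ⟨hb, hbV⟩, rfl⟩, H.openMap _ hsub hM'.isOpen, hM'.isOpen',
    hM'.holo, ?_, ?_, ?_⟩
  · rw [← hM'.image, ← image_comp]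
    exact image_congr fun x hx => by simp only [Function.comp, hl x hx.1]
  · let e : ↥(W ∩ V) ≃ ↥(ψ '' (W ∩ V)) := Equiv.Set.imageOfInjOn ψ _ (H.inj.mono hsub)
    have hc : Continuous e :=
      Continuous.subtype_mk (continuousOn_iff_continuous_domRestrict.1 (H.cont.mono hsub)) _
    have ho : IsOpenMap e := by
      intro U hU
      have h1 : IsOpen (ψ '' (Subtype.val '' U)) :=
        H.openMap _ (by rintro _ ⟨x, -, rfl⟩; exact x.2.1)
          (hM'.isOpen.isOpenMap_subtype_val U hU)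
      have h2 : e '' U = Subtype.val ⁻¹' (ψ '' (Subtype.val '' U)) := by
        ext w
        constructor
        · rintro ⟨x, hx, rfl⟩
          exact ⟨x, ⟨x, hx, rfl⟩, rfl⟩
        · rintro ⟨_, ⟨x, hx, rfl⟩, hw⟩
          exact ⟨x, hx, Subtype.ext hw⟩
      rw [h2]
      exact h1.preimage continuous_subtype_val
    let e' := e.toHomeomorphOfContinuousOpen hc ho
    have h3 : (ψ '' (W ∩ V)).domRestrict (φ ∘ σ) = (W ∩ V).domRestrict φ ∘ e'.symm := by
      funext w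
      obtain ⟨x, rfl⟩ := e'.surjective w
      rw [Function.comp_apply, e'.symm_apply_apply]
      exact congrArg φ (hl x x.2.1)
    rw [h3]
    exact hM'.emb.comp e'.symm.isEmbedding
  · rintro _ ⟨x, hx, rfl⟩ f
    have h1 : ∀ᶠ y in 𝓝 x, σ (ψ y) = y := by
      filter_upwards [H.isOpen.mem_nhds hx.1] with y hy using hl y hy
    rw [H.hol x hx.1, hM'.hol x hx, Function.comp_apply, hl x hx.1,
      ← map_nhds_of_open H.isOpen H.cont H.openMap hx.1]
    refine exists_congr fun g => and_congr_right fun _ => ?_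
    rw [eventuallyEq_map]
    refine eventually_congr ?_
    filter_upwards [h1] with y hy
    simp only [Function.comp, hy]

end raw

variable {X X' Y Z : CSp} {O : Set X.pt} {j : X.pt → X'.pt}

theorem LocIso.rIso (H : LocIso X X' O j) : RIso X.Hol X'.Hol O j :=
  ⟨H.isOpen, H.cont, H.inj, H.openMap, H.hol⟩

theorem LocIso.map_nhds (H : LocIso X X' O j) {x : X.pt} (hx : x ∈ O) :
    map j (𝓝 x) = 𝓝 (j x) := map_nhds_of_open H.isOpen H.cont H.openMap hx

theorem LocIso.isOpen_image (H : LocIso X X' O j) : IsOpen (j '' O) :=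
  H.openMap O Subset.rfl H.isOpen

theorem LocIso.holMap (H : LocIso X X' O j) {x : X.pt} (hx : x ∈ O) : HolMap X X' j x :=
  ⟨H.cont.continuousAt (H.isOpen.mem_nhds hx), fun g hg => (H.hol x hx g).1 hg⟩

theorem LocIso.mono (H : LocIso X X' O j) {O' : Set X.pt} (hO' : IsOpen O') (h : O' ⊆ O) :
    LocIso X X' O' j :=
  ⟨hO', H.cont.mono h, H.inj.mono h, fun U hU => H.openMap U (hU.trans h),
    fun x hx => H.hol x (h hx)⟩

theorem LocIso.isReg (H : LocIso X X' O j) {x : X.pt} (hx : x ∈ O) {n : ℕ} (h : IsReg n X x) :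
    IsReg n X' (j x) := by
  obtain ⟨V, Ω, h, φ, hV, hM⟩ := h
  obtain ⟨V', Ω', φ', h1, h2⟩ := H.rIso.model hM hx hV
  exact ⟨V', Ω', h, φ', h1, h2⟩

/-- a left inverse is a local isomorphism on the image -/
theorem LocIso.symm (H : LocIso X X' O j) {σ : X'.pt → X.pt} (hl : ∀ x ∈ O, σ (j x) = x) :
    LocIso X' X (j '' O) σ where
  isOpen := H.isOpen_image
  cont := by
    rintro _ ⟨x, hx, rfl⟩
    refine ContinuousAt.continuousWithinAt ?_
    rw [ContinuousAt, hl x hx, ← H.map_nhds hx, tendsto_map'_iff]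
    refine Tendsto.congr' ?_ tendsto_id
    filter_upwards [H.isOpen.mem_nhds hx] with z hz using (hl z hz).symm
  inj := by
    rintro _ ⟨x, hx, rfl⟩ _ ⟨x', hx', rfl⟩ e
    rw [hl x hx, hl x' hx'] at e
    rw [e]
  openMap U hU hUo := by
    have : σ '' U = O ∩ j ⁻¹' U := by
      ext x
      constructor
      · rintro ⟨z, hz, rfl⟩
        obtain ⟨x, hx, rfl⟩ := hU hz
        rw [hl x hx]
        exact ⟨hx, hz⟩
      · rintro ⟨h1, h2⟩
        exact ⟨j x, h2, hl x h1⟩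
    rw [this]
    exact H.cont.isOpen_inter_preimage H.isOpen hUo
  hol := by
    rintro _ ⟨x, hx, rfl⟩ g
    rw [H.hol x hx, hl x hx]
    refine hol_congr_iff ?_
    filter_upwards [H.isOpen.mem_nhds hx] with z hz
    simp only [Function.comp, hl z hz]

theorem LocIso.exists_inv (H : LocIso X X' O j) [Nonempty X.pt] :
    ∃ σ : X'.pt → X.pt, (∀ x ∈ O, σ (j x) = x) ∧ LocIso X' X (j '' O) σ :=
  ⟨_, fun _ hx => H.inj.leftInvOn_invFunOn hx, H.symm fun _ hx => H.inj.leftInvOn_invFunOn hx⟩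

theorem LocIso.comp {O' : Set X'.pt} {j' : X'.pt → Y.pt} (H' : LocIso X' Y O' j')
    (H : LocIso X X' O j) (h : MapsTo j O O') : LocIso X Y O (j' ∘ j) where
  isOpen := H.isOpen
  cont := H'.cont.comp H.cont h
  inj := H'.inj.comp H.inj h
  openMap U hU hUo := by
    rw [image_comp]
    exact H'.openMap _ (by rintro _ ⟨x, hx, rfl⟩; exact h (hU hx)) (H.openMap U hU hUo)
  hol x hx g := (H'.hol _ (h hx) g).trans (H.hol x hx _)

theorem LocIso.congr (H : LocIso X X' O j) {j' : X.pt → X'.pt} (h : ∀ x ∈ O, j' x = j x) :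
    LocIso X X' O j' where
  isOpen := H.isOpen
  cont := H.cont.congr h
  inj x hx x' hx' e := H.inj hx hx' (by rw [← h x hx, ← h x' hx', e])
  openMap U hU hUo := by
    rw [image_congr fun x hx => h x (hU hx)]
    exact H.openMap U hU hUo
  hol x hx g := by
    rw [h x hx, H.hol x hx]
    refine hol_congr_iff ?_
    filter_upwards [H.isOpen.mem_nhds hx] with z hz
    simp only [Function.comp, h z hz]

theorem holMap_congr {f f' : X.pt → Z.pt} {x : X.pt} (hf : HolMap X Z f x) (h : f' =ᶠ[𝓝 x] f) :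
    HolMap X Z f' x :=
  ⟨hf.1.congr h.symm, fun g hg => hol_congr (hf.2 g (h.self_of_nhds ▸ hg)) (h.fun_comp g)⟩

theorem locIso_of_small {f : X.pt → Z.pt} {A : Set Z.pt} (h : IsSmall X Z f A) :
    LocIso X Z (f ⁻¹' Aᶜ) f where
  isOpen := h.isClosed.isOpen_compl.preimage h.cont
  cont := h.cont.continuousOn
  inj x hx x' _ e := (h.inj x x' hx e.symm).symm
  openMap _ hU hUo := h.isOpen_image hUo hU
  hol _ hx _ := (h.hol_comp_iff hx).symm

theorem IsoOff.cont {q : Y.pt → X.pt} {N : Set X.pt} (h : IsoOff Y X q N) : Continuous q :=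
  continuous_iff_continuousAt.2 fun y => (h.hol y).1

/-- the inverse of `q` off `N` -/
theorem IsoOff.exists_sec {q : Y.pt → X.pt} {N : Set X.pt} (h : IsoOff Y X q N) :
    ∃ σ : X.pt → Y.pt, (∀ x, q (σ x) = x) ∧ (∀ y, q y ∉ N → σ (q y) = y) ∧ LocIso X Y Nᶜ σ := by
  have h1 : ∀ x, q (Function.surjInv h.surj x) = x := Function.surjInv_eq h.surj
  have h2 : ∀ y, q y ∉ N → Function.surjInv h.surj (q y) = y := fun y hy =>
    h.iso.inj (by change q _ ∉ N; rwa [h1]) hy (h1 _)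
  refine ⟨_, h1, h2, ?_⟩
  have h3 := h.iso.symm h2
  rwa [image_preimage_eq _ h.surj] at h3

/-- normality is a local property -/
theorem isNormal_of_cover [Nonempty Y.pt]
    (h : ∀ y : Y.pt, ∃ (B : CSp) (W : Set B.pt) (ψ : B.pt → Y.pt), IsNormal 4 B ∧ LocIso B Y W ψ ∧
      y ∈ ψ '' W) : IsNormal 4 Y := by
  choose B W ψ hB hψ hy using h
  have hinv : ∀ y, ∃ σ : Y.pt → (B y).pt, (∀ x ∈ W y, σ (ψ y x) = x) ∧
      LocIso Y (B y) (ψ y '' W y) σ := fun y =>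
    have : Nonempty (B y).pt := ⟨(hy y).choose⟩
    (hψ y).exists_inv
  choose σ hl hσ using hinv
  have hd : Dense {x | IsReg 4 Y x} := by
    intro y
    obtain ⟨b, hb, e⟩ := hy y
    have h1 : ∃ᶠ b' in 𝓝 b, IsReg 4 (B y) b' := mem_closure_iff_frequently.1 ((hB y).dense b)
    rw [mem_closure_iff_frequently, ← e, ← (hψ y).map_nhds hb, frequently_map]
    exact (h1.and_eventually ((hψ y).isOpen.mem_nhds hb)).mono fun b' hb' =>
      (hψ y).isReg hb'.2 hb'.1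
  refine ⟨hd, ?_, ?_⟩
  · obtain ⟨t, ht⟩ := isCompact_univ.elim_finite_subcover (fun y => ψ y '' W y)
      (fun y => (hψ y).isOpen_image) fun y _ => mem_iUnion.2 ⟨y, hy y⟩
    refine (dimLe_biUnion t.countable_toSet
      (T := fun y => ψ y '' ({b | ¬ IsReg 4 (B y) b} ∩ W y)) fun y _ =>
      ((hB y).sing.mono inter_subset_left).image fun b hb => (hψ y).holMap hb.2).mono ?_
    intro x hx
    obtain ⟨y, hyt, b, hb, rfl⟩ : ∃ y ∈ t, x ∈ ψ y '' W y := by simpa using ht (mem_univ x)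
    exact mem_biUnion hyt ⟨b, ⟨fun hr => hx ((hψ y).isReg hb hr), hb⟩, rfl⟩
  · intro V E hV hE hdim f hf
    have hdE : Dense (V ∩ E)ᶜ := dense_compl_of_dimLe (by norm_num) hd hdim
    have loc : ∀ y, ∃ g : Y.pt → ℂ, (∀ x ∈ V ∩ ψ y '' W y, Y.Hol g x) ∧
        ∀ x ∈ V ∩ ψ y '' W y, x ∉ E → g x = f x := by
      intro y
      obtain ⟨g, hg, hg'⟩ := (hB y).ext (W y ∩ ψ y ⁻¹' V) (ψ y ⁻¹' E)
        ((hψ y).cont.isOpen_inter_preimage (hψ y).isOpen hV) (by
          intro b hb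
          obtain ⟨k, u, hu, hu'⟩ := hE _ hb.2
          exact ⟨k, fun i => u i ∘ ψ y, fun i => ((hψ y).holMap hb.1).2 _ (hu i),
            ((hψ y).holMap hb.1).1.eventually hu'⟩)
        (((hdim.mono (inter_subset_left (t := ψ y '' W y))).image
          fun x hx => (hσ y).holMap hx.2).mono
          fun b hb => ⟨ψ y b, ⟨⟨hb.1.2, hb.2⟩, b, hb.1.1, rfl⟩, hl y b hb.1.1⟩) (f ∘ ψ y)
        fun b hb => ((hψ y).holMap hb.1.1).2 _ (hf _ ⟨hb.1.2, hb.2⟩)
      refine ⟨g ∘ σ y, ?_, ?_⟩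
      · rintro _ ⟨hx, b, hb, rfl⟩
        exact ((hσ y).holMap ⟨b, hb, rfl⟩).2 _ (by rw [hl y b hb]; exact hg b ⟨hb, hx⟩)
      · rintro _ ⟨hx, b, hb, rfl⟩ hxE
        rw [Function.comp_apply, hl y b hb]
        exact hg' b ⟨⟨hb, hx⟩, hxE⟩
    choose g hg hg' using loc
    refine ⟨fun y => g y y, fun x hx => hol_congr (hg x x ⟨hx, hy x⟩) ?_,
      fun x hx => hg' x x ⟨hx.1, hy x⟩ hx.2⟩
    have ho : ∀ y, IsOpen (V ∩ ψ y '' W y) := fun y => hV.inter (hψ y).isOpen_image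
    filter_upwards [(ho x).mem_nhds ⟨hx, hy x⟩] with y hy'
    refine (eventuallyEq_of_dense hdE (hg y y ⟨hy'.1, hy y⟩) (hg x y hy') ?_).self_of_nhds
    filter_upwards [(ho x).mem_nhds hy', (ho y).mem_nhds ⟨hy'.1, hy y⟩] with z h1 h2 h3
    have h4 : z ∉ E := fun h5 => h3 ⟨h1.1, h5⟩
    rw [hg' y z h2 h4, hg' x z h1 h4]

end Vale.Agent.P277Z.Glc
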