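import Vale.Agent.P277Z.Glc.Sk0

/-!
# P277, block GLC: isomorphisms of line bundles, transport of `RelAmple`
-/

open scoped Manifold ContDiff Topology
open Vale.Agent.P277 Vale.Agent.P277.HD
open Vale.Agent.P272.K Vale.Agent.P285.H281.FD Set Filter

noncomputable section

namespace Vale.Agent.P277Z.Glc

variable {X Y Z : CSp}

theorem hol_zpow {f : X.pt → ℂ} {x : X.pt} (hf : X.Hol f x) (h : f x ≠ 0) (n : ℤ) :
    X.Hol (fun y => f y ^ n) x := by
  rcases n with n | n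
  · simpa using hol_pow hf n
  · simpa [zpow_negSucc] using hol_inv (hol_pow hf (n + 1)) (pow_ne_zero _ h)

theorem holMap_comp {W : CSp} {f : X.pt → Y.pt} {g : Y.pt → W.pt} {x : X.pt}
    (hg : HolMap Y W g (f x)) (hf : HolMap X Y f x) : HolMap X W (g ∘ f) x :=
  ⟨hg.1.comp hf.1, fun k hk => hf.2 _ (hg.2 k hk)⟩

theorem lb_self {L : Bd X.pt} (h : IsLBx X L) {i : L.ι} {x : X.pt} (hx : x ∈ L.U i) :
    L.g i i x = 1 := by
  have h1 := h.cocycle i i i x hx hx hx
  have h2 := h.ne_zero i i x hx hx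
  exact mul_left_cancel₀ h2 (by rw [h1, mul_one])

theorem lb_symm {L : Bd X.pt} (h : IsLBx X L) {i j : L.ι} {x : X.pt} (hi : x ∈ L.U i)
    (hj : x ∈ L.U j) : L.g i j x * L.g j i x = 1 := by
  rw [h.cocycle i j i x hi hj hi, lb_self h hi]

theorem lb_pow {L : Bd X.pt} (h : IsLBx X L) (k : ℕ) : IsLBx X (L.pow k) where
  isOpen := h.isOpen
  cover := h.cover
  holo i j x hi hj := hol_pow (h.holo i j x hi hj) k
  ne_zero i j x hi hj := pow_ne_zero _ (h.ne_zero i j x hi hj)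
  cocycle i j l x hi hj hl := by
    change L.g i j x ^ k * L.g j l x ^ k = L.g i l x ^ k
    rw [← mul_pow, h.cocycle i j l x hi hj hl]

theorem lb_lin {k : ℕ} {L : Fin k → Bd X.pt} (h : ∀ e, IsLBx X (L e)) (n : Fin k → ℤ) :
    IsLBx X (HD.Bd.lin L n) where
  isOpen i := by
    have : (HD.Bd.lin L n).U i = ⋂ e, (L e).U (i e) := by
      ext x; simp [HD.Bd.lin]
    rw [this]
    exact isOpen_iInter_of_finite fun e => (h e).isOpen _
  cover x := by
    choose i hi using fun e => (h e).cover x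
    exact ⟨i, hi⟩
  holo i j x hi hj := hol_prod Finset.univ fun e _ =>
    hol_zpow ((h e).holo _ _ x (hi e) (hj e)) ((h e).ne_zero _ _ x (hi e) (hj e)) _
  ne_zero i j x hi hj := by
    change (∏ e, (L e).g (i e) (j e) x ^ n e) ≠ 0
    exact Finset.prod_ne_zero_iff.2 fun e _ =>
      zpow_ne_zero _ ((h e).ne_zero _ _ x (hi e) (hj e))
  cocycle i j l x hi hj hl := by
    change (∏ e, (L e).g (i e) (j e) x ^ n e) * ∏ e, (L e).g (j e) (l e) x ^ n e =
      ∏ e, (L e).g (i e) (l e) x ^ n e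
    rw [← Finset.prod_mul_distrib]
    refine Finset.prod_congr rfl fun e _ => ?_
    rw [← mul_zpow, (h e).cocycle _ _ _ x (hi e) (hj e) (hl e)]

theorem lb_pull {L : Bd X.pt} (h : IsLBx X L) {φ : Y.pt → X.pt} (hφ : ∀ y, HolMap Y X φ y) :
    IsLBx Y (pull φ L) where
  isOpen i := (h.isOpen i).preimage (continuous_iff_continuousAt.2 fun y => (hφ y).1)
  cover y := h.cover (φ y)
  holo i j y hi hj := (hφ y).2 _ (h.holo i j _ hi hj)
  ne_zero i j _ hi hj := h.ne_zero i j _ hi hj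
  cocycle i j l _ hi hj hl := h.cocycle i j l _ hi hj hl

/-- `τ` is an isomorphism of the line bundles `M` and `M'` on `Y`. -/
structure BIso (Y : CSp) (M M' : Bd Y.pt) (τ : M.ι → M'.ι → Y.pt → ℂ) : Prop where
  holo : ∀ y i j, y ∈ M.U i → y ∈ M'.U j → Y.Hol (τ i j) y ∧ τ i j y ≠ 0
  change : ∀ y i i₁ j j₁, y ∈ M.U i → y ∈ M.U i₁ → y ∈ M'.U j → y ∈ M'.U j₁ →
    τ i₁ j₁ y = M.g i i₁ y * τ i j y * M'.g j₁ j y

/-- transport of `RelAmple` along an isomorphism of line bundles -/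
theorem BIso.relAmple {M M' : Bd Y.pt} {τ : M.ι → M'.ι → Y.pt → ℂ} (h : BIso Y M M' τ)
    (hM : IsLBx Y M) (hM' : IsLBx Y M') {F : Y.pt → Z.pt} (hF : Continuous F)
    (ha : RelAmple Y Z F M) : RelAmple Y Z F M' := by
  intro z
  obtain ⟨V, k, N, s, hV, hz, hk, hs, h1, h2, h3⟩ := ha z
  choose J hJ using hM.cover
  have key : ∀ l i j y, F y ∈ V → y ∈ M.U i → y ∈ M'.U j →
      s l (J y) y * τ (J y) j y ^ k = s l i y * τ i j y ^ k := by
    intro l i j y hy hi hj
    have e1 := (hs l).change i (J y) y hy hi (hJ y)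
    have e2 := h.change y i (J y) j j hi (hJ y) hj hj
    rw [lb_self hM' hj, mul_one] at e2
    change s l i y = M.g i (J y) y ^ k * s l (J y) y at e1
    rw [e1, e2, mul_pow]
    ring
  have keyE : ∀ l i j y, F y ∈ V → y ∈ M.U i → y ∈ M'.U j →
      (fun y => s l (J y) y * τ (J y) j y ^ k) =ᶠ[𝓝 y] fun y => s l i y * τ i j y ^ k := by
    intro l i j y hy hi hj
    filter_upwards [(hV.preimage hF).mem_nhds hy, (hM.isOpen i).mem_nhds hi,
      (hM'.isOpen j).mem_nhds hj] with y' a b c using key l i j y' a b c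
  refine ⟨V, k, N, fun l j y => s l (J y) y * τ (J y) j y ^ k, hV, hz, hk, fun l => ⟨?_, ?_⟩,
    ?_, ?_, ?_⟩
  · intro j y hy hj
    exact hol_congr (hol_mul ((hs l).holo (J y) y hy (hJ y))
      (hol_pow (h.holo y _ _ (hJ y) hj).1 k)) (keyE l (J y) j y hy (hJ y) hj)
  · intro j j' y hy hj hj'
    have e2 := h.change y (J y) (J y) j' j (hJ y) (hJ y) hj' hj
    rw [lb_self hM (hJ y), one_mul] at e2
    change s l (J y) y * τ (J y) j y ^ k = M'.g j j' y ^ k * (s l (J y) y * τ (J y) j' y ^ k)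
    rw [e2, mul_pow]
    ring
  · intro y j hy hj
    obtain ⟨l, hl⟩ := h1 y (J y) hy (hJ y)
    exact ⟨l, mul_ne_zero hl (pow_ne_zero _ (h.holo y _ _ (hJ y) hj).2)⟩
  · intro y y' j j' hy hyy hne hj hj'
    obtain ⟨l, m, hlm⟩ := h2 y y' (J y) (J y') hy hyy hne (hJ y) (hJ y')
    refine ⟨l, m, fun he => hlm ?_⟩
    have a := pow_ne_zero k (h.holo y _ _ (hJ y) hj).2
    have b := pow_ne_zero k (h.holo y' _ _ (hJ y') hj').2
    refine mul_right_cancel₀ (mul_ne_zero a b) ?_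
    linear_combination he
  · intro y j l hy hj hl g hg
    obtain ⟨K, u, G, hu, hG, hg'⟩ := h3 y (J y) l hy (hJ y) (left_ne_zero_of_mul hl) g hg
    have hτ : ∀ᶠ y' in 𝓝 y, τ (J y) j y' ≠ 0 := by
      filter_upwards [(hM.isOpen _).mem_nhds (hJ y), (hM'.isOpen j).mem_nhds hj] with y' a b
        using (h.holo y' _ _ a b).2
    have hq : ∀ᶠ y' in 𝓝 y, (fun m => s m (J y') y' * τ (J y') j y' ^ k /
        (s l (J y') y' * τ (J y') j y' ^ k)) = fun m => s m (J y) y' / s l (J y) y' := by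
      filter_upwards [hτ, eventually_all.2 fun m => keyE m (J y) j y hy (hJ y) hj] with y' a b
      funext m
      rw [b m, b l, mul_div_mul_right _ _ (pow_ne_zero _ a)]
    refine ⟨K, u, G, hu, ?_, ?_⟩
    · rw [hq.self_of_nhds]; exact hG
    · filter_upwards [hq, hg'] with y' a b
      rw [a]; exact b

/-- a line bundle is relatively ample if a power is -/
theorem relAmple_of_pow {M : Bd Y.pt} {F : Y.pt → Z.pt} {Q : ℕ} (hQ : 1 ≤ Q)
    (ha : RelAmple Y Z F (M.pow Q)) : RelAmple Y Z F M := by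
  intro z
  obtain ⟨V, k, N, s, hV, hz, hk, hs, h1, h2, h3⟩ := ha z
  refine ⟨V, Q * k, N, s, hV, hz, Nat.mul_pos hQ hk, fun l => ⟨(hs l).holo, ?_⟩, h1, h2, h3⟩
  intro i j y hy hi hj
  have := (hs l).change i j y hy hi hj
  change s l i y = (M.g i j y ^ Q) ^ k * s l j y at this
  change s l i y = M.g i j y ^ (Q * k) * s l j y
  rw [pow_mul]; exact this

/-- `φ : Y → X` is an isomorphism with inverse `ψ`. -/
structure SpIso (Y X : CSp) (φ : Y.pt → X.pt) (ψ : X.pt → Y.pt) : Prop where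
  hol : ∀ y, HolMap Y X φ y
  hol' : ∀ x, HolMap X Y ψ x
  left : ∀ y, ψ (φ y) = y
  right : ∀ x, φ (ψ x) = x

theorem SpIso.cont {φ : Y.pt → X.pt} {ψ : X.pt → Y.pt} (h : SpIso Y X φ ψ) : Continuous φ :=
  continuous_iff_continuousAt.2 fun y => (h.hol y).1

theorem SpIso.inj {φ : Y.pt → X.pt} {ψ : X.pt → Y.pt} (h : SpIso Y X φ ψ) :
    Function.Injective φ := fun y y' e => by rw [← h.left y, e, h.left]

theorem SpIso.hol_inv {φ : Y.pt → X.pt} {ψ : X.pt → Y.pt} (h : SpIso Y X φ ψ) {y : Y.pt}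
    {g : Y.pt → ℂ} (hg : Y.Hol g y) : X.Hol (g ∘ ψ) (φ y) :=
  (h.hol' (φ y)).2 g (by rwa [h.left])

/-- transport of `RelAmple` along an isomorphism of spaces -/
theorem SpIso.relAmple {φ : Y.pt → X.pt} {ψ : X.pt → Y.pt} (h : SpIso Y X φ ψ) {M : Bd X.pt}
    {f : X.pt → Z.pt} (ha : RelAmple X Z f M) : RelAmple Y Z (f ∘ φ) (pull φ M) := by
  intro z
  obtain ⟨V, k, N, s, hV, hz, hk, hs, h1, h2, h3⟩ := ha z
  refine ⟨V, k, N, fun l i y => s l i (φ y), hV, hz, hk, fun l => ⟨?_, ?_⟩, ?_, ?_, ?_⟩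
  · intro i y hy hi
    exact (h.hol y).2 _ ((hs l).holo i _ hy hi)
  · intro i j y hy hi hj
    exact (hs l).change i j _ hy hi hj
  · intro y i hy hi
    exact h1 _ i hy hi
  · intro y y' i j hy hyy hne hi hj
    exact h2 _ _ i j hy hyy (fun e => hne (h.inj e)) hi hj
  · intro y i l hy hi hl g hg
    obtain ⟨K, u, G, hu, hG, hg'⟩ := h3 _ i l hy hi hl _ (h.hol_inv hg)
    refine ⟨K, u, G, hu, hG, ?_⟩
    filter_upwards [(h.hol y).1.eventually hg'] with y' a
    simpa only [Function.comp, h.left] using a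

theorem SpIso.isSmall {φ : Y.pt → X.pt} {ψ : X.pt → Y.pt} (h : SpIso Y X φ ψ) {f : X.pt → Z.pt}
    {A : Set Z.pt} (hf : IsSmall X Z f A) : IsSmall Y Z (f ∘ φ) A where
  cont := hf.cont.comp h.cont
  holo y g hg := (h.hol y).2 _ (hf.holo _ g hg)
  surj := hf.surj.comp fun x => ⟨ψ x, h.right x⟩
  an := hf.an
  dim := (hf.dim.image (f := ψ) fun x _ => h.hol' x).mono fun y hy => ⟨φ y, hy, h.left y⟩
  inj y y' hy e := h.inj (hf.inj _ _ hy e)
  iso y g hy hg := by
    obtain ⟨k, hk, hk'⟩ := hf.iso _ _ hy (h.hol_inv hg)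
    refine ⟨k, hk, ?_⟩
    filter_upwards [(h.hol y).1.eventually hk'] with y' a
    simpa only [Function.comp, h.left] using a

/-- two small maps with empty exceptional set give an isomorphism -/
theorem spIso_of_small {g : X.pt → Z.pt} {g' : Y.pt → Z.pt} (h : IsSmall X Z g ∅)
    (h' : IsSmall Y Z g' ∅) : SpIso Y X (h.sec ∘ g') (h'.sec ∘ g) where
  hol y := holMap_comp (h.holMap_sec (notMem_empty _)) (h'.holMap y)
  hol' x := holMap_comp (h'.holMap_sec (notMem_empty _)) (h.holMap x)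
  left y := by
    simp only [Function.comp, h.sec_eq]
    exact h'.sec_apply (notMem_empty _)
  right x := by
    simp only [Function.comp, h'.sec_eq]
    exact h.sec_apply (notMem_empty _)

end Vale.Agent.P277Z.Glc
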