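import Mathlib

/-!
# P277 GLC: the lattice lemma LAT and discrete coefficient sets

`J` = compact curves of a surface slice, `q a b` their intersection numbers, `k a = K · a`,
`s a = S · a`, `L a` = (other components and nef part) `· a`, `b a` = coefficient of `a`.
-/

open Finset

namespace P277Z.Glc

variable {ι : Type*}

/-- maximum principle for a negative definite configuration -/
theorem nonneg_of_neg (J : Finset ι) (q : ι → ι → ℝ) (_hs : ∀ a ∈ J, ∀ b ∈ J, q a b = q b a)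
    (hq : ∀ a ∈ J, ∀ b ∈ J, a ≠ b → 0 ≤ q a b) (c : ι → ℝ) (hc : ∀ a ∈ J, 0 < c a)
    (hneg : ∀ a ∈ J, ∑ b ∈ J, c b * q b a < 0) (x : ι → ℝ)
    (hx : ∀ a ∈ J, ∑ b ∈ J, x b * q b a ≤ 0) : ∀ a ∈ J, 0 ≤ x a := by
  intro a ha
  obtain ⟨a0, ha0, hmin⟩ := J.exists_min_image (fun a => x a / c a) ⟨a, ha⟩
  by_contra hneg'
  push Not at hneg'
  set t := x a0 / c a0 with ht
  have ht0 : t < 0 := lt_of_le_of_lt (hmin a ha) (div_neg_of_neg_of_pos hneg' (hc a ha))
  have h1 : ∑ b ∈ J, t * (c b * q b a0) ≤ ∑ b ∈ J, x b * q b a0 := by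
    refine sum_le_sum fun b hb => ?_
    by_cases hba : b = a0
    · subst hba
      have : x b = t * c b := by rw [ht]; field_simp [(hc b hb).ne']
      rw [this]; ring_nf; exact le_refl _
    · have h2 : t * c b ≤ x b := by
        have := hmin b hb
        rwa [le_div_iff₀ (hc b hb)] at this
      have := mul_le_mul_of_nonneg_right h2 (hq b hb a0 ha0 hba)
      linarith [mul_assoc t (c b) (q b a0)]
  rw [← mul_sum] at h1
  have := mul_pos_of_neg_of_neg ht0 (hneg a0 ha0)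
  linarith [hx a0 ha0]

theorem diag_neg (J : Finset ι) (q : ι → ι → ℤ)
    (hq : ∀ a ∈ J, ∀ b ∈ J, a ≠ b → 0 ≤ q a b) (c : ι → ℝ) (hc : ∀ a ∈ J, 0 < c a)
    (hneg : ∀ a ∈ J, ∑ b ∈ J, c b * q b a < 0) : ∀ a ∈ J, q a a < 0 := by
  intro a ha
  by_contra h
  push Not at h
  have : 0 ≤ ∑ b ∈ J, c b * (q b a : ℝ) := by
    refine sum_nonneg fun b hb => mul_nonneg (hc b hb).le ?_
    by_cases hba : b = a
    · subst hba; exact_mod_cast h
    · exact_mod_cast hq b hb a ha hba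
  linarith [hneg a ha]

/-- the chain lemma: no `(-1)`-curve -/
theorem chain (P : AddSubmonoid ℝ) (hP : ∀ r ∈ P, 0 ≤ r) (q : ι → ι → ℤ) (k : ι → ℤ)
    (L b : ι → ℝ) (J : Finset ι) :
    (∀ a ∈ J, ∀ b ∈ J, q a b = q b a) → (∀ a ∈ J, ∀ b ∈ J, a ≠ b → 0 ≤ q a b) →
    (∀ a ∈ J, q a a < 0) → (∀ a ∈ J, 0 ≤ k a) → (∀ a ∈ J, -2 ≤ k a + q a a) →
    (∀ a ∈ J, L a ∈ P) → (∀ a ∈ J, 0 ≤ b a) →
    ∀ (s : ι → ℤ) (θ : ℝ), (∀ a ∈ J, 0 ≤ s a) → θ ≤ 1 →
    (∀ a ∈ J, k a + θ * s a + L a + ∑ e ∈ J, b e * q e a = 0) →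
    ∑ a ∈ J, b a * s a < θ →
    ∃ m m' : ℕ, m' < m ∧ ∃ r ∈ P, m * (1 - ∑ a ∈ J, b a * s a) = m' * (1 - θ) + 1 - r := by
  classical
  induction J using Finset.strongInduction with
  | H J ih =>
  intro hs hq hd hk hg hL hb s θ hs0 hθ heq hH
  by_cases h0 : ∀ a ∈ J, s a = 0
  · refine ⟨1, 0, one_pos, 0, P.zero_mem, ?_⟩
    rw [sum_eq_zero fun a ha => by rw [h0 a ha]; simp]
    simp
  push Not at h0
  obtain ⟨a, ha, hsa⟩ := h0
  have hterm : ∀ e ∈ J, 0 ≤ b e * (s e : ℝ) := fun e he =>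
    mul_nonneg (hb e he) (by exact_mod_cast hs0 e he)
  have hθ0 : 0 < θ := lt_of_le_of_lt (sum_nonneg hterm) hH
  -- the equation at `x`, with the diagonal term split off
  have hsplit : ∀ x ∈ J, (k x : ℝ) + θ * s x + L x + ∑ e ∈ J.erase x, b e * q e x
      = b x * (-q x x : ℤ) := by
    intro x hx
    have := heq x hx
    rw [← add_sum_erase J _ hx] at this
    push_cast
    linarith
  have hrest : ∀ x ∈ J, 0 ≤ ∑ e ∈ J.erase x, b e * (q e x : ℝ) := fun x hx =>
    sum_nonneg fun e he => mul_nonneg (hb e (mem_of_mem_erase he))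
      (by exact_mod_cast hq e (mem_of_mem_erase he) x hx (ne_of_mem_erase he))
  -- every curve meeting `S` has coefficient in `[θ/2, θ)` and self intersection `≤ -2`
  have key : ∀ x ∈ J, s x ≠ 0 → θ / 2 ≤ b x ∧ b x < θ ∧ q x x ≤ -2 := by
    intro x hx hsx
    have hs1 : (1 : ℝ) ≤ s x := by
      have := hs0 x hx
      exact_mod_cast (by omega : (1 : ℤ) ≤ s x)
    have h1 : b x * s x < θ := lt_of_le_of_lt (single_le_sum hterm hx) hH
    have h2 : b x < θ := lt_of_le_of_lt (by nlinarith [hb x hx]) h1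
    have h3 := hsplit x hx
    have h4 := hrest x hx
    have h5 := hP _ (hL x hx)
    have h6 : θ ≤ θ * s x := by nlinarith
    have hq2 : q x x ≤ -2 := by
      by_contra hcon
      have h7 : q x x = -1 := by have := hd x hx; omega
      rw [h7] at h3
      have h8 : (0 : ℝ) ≤ k x := by exact_mod_cast hk x hx
      norm_num at h3
      linarith
    refine ⟨?_, h2, hq2⟩
    have h9 : ((-q x x : ℤ) : ℝ) - 2 ≤ k x := by
      have := hg x hx
      exact_mod_cast (by omega : -q x x - 2 ≤ k x)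
    have h10 : (2 : ℝ) ≤ ((-q x x : ℤ) : ℝ) := by exact_mod_cast (by omega : (2 : ℤ) ≤ -q x x)
    by_contra hcon
    push Not at hcon
    nlinarith
  obtain ⟨hb1, hb2, hq2⟩ := key a ha hsa
  have hsa1 : s a = 1 := by
    by_contra hcon
    have h2 : (2 : ℝ) ≤ s a := by
      have := hs0 a ha
      exact_mod_cast (by omega : (2 : ℤ) ≤ s a)
    have := single_le_sum hterm ha
    nlinarith
  have hsz : ∀ e ∈ J.erase a, s e = 0 := by
    intro e he
    by_contra hcon
    have he' := mem_of_mem_erase he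
    obtain ⟨h1, -, -⟩ := key e he' hcon
    have hs1 : (1 : ℝ) ≤ s e := by
      have := hs0 e he'
      exact_mod_cast (by omega : (1 : ℤ) ≤ s e)
    have h2 : b e * s e ≤ ∑ x ∈ J.erase a, b x * (s x : ℝ) :=
      single_le_sum (fun x hx => hterm x (mem_of_mem_erase hx)) he
    rw [← add_sum_erase J _ ha, hsa1] at hH
    have h3 : θ / 2 ≤ b e * s e := by nlinarith
    push_cast at hH
    linarith
  have hsum : ∑ x ∈ J, b x * (s x : ℝ) = b a := by
    rw [← add_sum_erase J _ ha, hsa1, sum_eq_zero fun e he => by rw [hsz e he]; simp]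
    simp
  have h3 := hsplit a ha
  have h4 := hrest a ha
  have h5 := hP _ (hL a ha)
  rw [hsa1] at h3
  have h10 : (2 : ℝ) ≤ ((-q a a : ℤ) : ℝ) := by exact_mod_cast (by omega : (2 : ℤ) ≤ -q a a)
  have hg0 : k a = -q a a - 2 := by
    by_contra hcon
    have h9 : ((-q a a : ℤ) : ℝ) - 1 ≤ k a := by
      have := hg a ha
      exact_mod_cast (by omega : -q a a - 1 ≤ k a)
    push_cast at h3 h9 h10
    nlinarith
  have hg1 : (k a : ℝ) = ((-q a a : ℤ) : ℝ) - 2 := by rw [hg0]; push_cast; ring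
  have hsub : ∀ e ∈ J.erase a, e ∈ J := fun e he => mem_of_mem_erase he
  obtain ⟨n, n', hn, r, hr, hE⟩ := ih (J.erase a) (erase_ssubset ha)
    (fun x hx y hy => hs x (hsub x hx) y (hsub y hy))
    (fun x hx y hy => hq x (hsub x hx) y (hsub y hy)) (fun x hx => hd x (hsub x hx))
    (fun x hx => hk x (hsub x hx)) (fun x hx => hg x (hsub x hx)) (fun x hx => hL x (hsub x hx))
    (fun x hx => hb x (hsub x hx)) (fun x => q x a) (b a)
    (fun x hx => hq x (hsub x hx) a ha (ne_of_mem_erase hx)) (by linarith)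
    (fun x hx => by
      have := heq x (hsub x hx)
      rw [← add_sum_erase J _ ha, hsz x hx, hs a ha x (hsub x hx)] at this
      push_cast at this
      linarith)
    (by
      rw [hg1] at h3
      push_cast at h3 h10 ⊢
      nlinarith)
  obtain ⟨e, he⟩ : ∃ e : ℕ, (e : ℤ) = -q a a := ⟨(-q a a).toNat, by omega⟩
  have he2 : 2 ≤ e := by omega
  have hle : n' ≤ n * e := by nlinarith
  refine ⟨n * e - n', n, ?_, r + n • L a, P.add_mem hr (P.nsmul_mem (hL a ha) n), ?_⟩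
  · have : n * 2 ≤ n * e := Nat.mul_le_mul_left n he2
    omega
  · rw [hsum, Nat.cast_sub hle, nsmul_eq_mul]
    rw [hg1, ← he] at h3
    push_cast at h3 ⊢
    linear_combination hE + (n : ℝ) * h3

/-- **LAT**. -/
theorem lat (P : AddSubmonoid ℝ) (hP : ∀ r ∈ P, 0 ≤ r) (h1 : (1 : ℝ) ∈ P) (c b : ι → ℝ)
    (J : Finset ι) :
    ∀ (q : ι → ι → ℤ) (k s : ι → ℤ) (L : ι → ℝ) (Λ : ℝ),
    (∀ a ∈ J, ∀ b ∈ J, q a b = q b a) → (∀ a ∈ J, ∀ b ∈ J, a ≠ b → 0 ≤ q a b) →
    (∀ a ∈ J, 0 < c a) → (∀ a ∈ J, ∑ e ∈ J, c e * q e a < 0) →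
    (∀ a ∈ J, -2 ≤ k a + q a a) → (∀ a ∈ J, 0 ≤ s a) → (∀ a ∈ J, L a ∈ P) → Λ ∈ P →
    (∀ a ∈ J, k a + s a + L a + ∑ e ∈ J, b e * q e a = 0) →
    ∑ a ∈ J, b a * s a + Λ < 1 →
    ∃ m : ℕ, 1 ≤ m ∧ ∃ r ∈ P, m * (1 - (∑ a ∈ J, b a * s a + Λ)) = 1 - r := by
  classical
  induction J using Finset.strongInduction with
  | H J ih =>
  intro q k s L Λ hs hq hc hneg hg hs0 hL hΛ heq hΦ
  have hd := diag_neg J q hq c hc hneg
  by_cases hk : ∀ a ∈ J, 0 ≤ k a
  · have hb : ∀ a ∈ J, 0 ≤ b a := by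
      refine nonneg_of_neg J (fun a e => (q a e : ℝ))
        (fun x hx y hy => by exact_mod_cast hs x hx y hy)
        (fun x hx y hy h => by exact_mod_cast hq x hx y hy h) c hc hneg b fun a ha => ?_
      have h2 : (0 : ℝ) ≤ k a := by exact_mod_cast hk a ha
      have h3 : (0 : ℝ) ≤ s a := by exact_mod_cast hs0 a ha
      linarith [heq a ha, hP _ (hL a ha)]
    obtain ⟨m, m', hm, r, hr, hE⟩ := chain P hP q k L b J hs hq hd hk hg hL hb s 1 hs0 le_rfl
      (fun a ha => by simpa using heq a ha) (by linarith [hP _ hΛ])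
    refine ⟨m, by omega, r + m • Λ, P.add_mem hr (P.nsmul_mem hΛ m), ?_⟩
    rw [nsmul_eq_mul]
    linear_combination hE
  push Not at hk
  obtain ⟨C, hC, hkC⟩ := hk
  have hkC1 : k C = -1 := by have := hd C hC; have := hg C hC; omega
  have hqC1 : q C C = -1 := by have := hd C hC; have := hg C hC; omega
  have hsub : ∀ e ∈ J.erase C, e ∈ J := fun e he => mem_of_mem_erase he
  have hqC : ∀ e ∈ J.erase C, 0 ≤ q e C := fun e he =>
    hq e (hsub e he) C hC (ne_of_mem_erase he)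
  have hzmem : ∀ (z : ℤ) (r : ℝ), 0 ≤ z → r ∈ P → (z : ℝ) * r ∈ P := by
    intro z r hz hr
    obtain ⟨n, rfl⟩ := Int.eq_ofNat_of_zero_le hz
    simpa using P.nsmul_mem hr n
  have hEC := heq C hC
  rw [← add_sum_erase J _ hC, hkC1, hqC1] at hEC
  have hΦ' : ∑ a ∈ J.erase C, b a * ((s a + s C * q a C : ℤ) : ℝ) +
      (Λ + ((s C * (s C - 1) : ℤ) : ℝ) * 1 + (s C : ℝ) * L C) = ∑ a ∈ J, b a * s a + Λ := by
    rw [← add_sum_erase J _ hC]
    have : ∑ a ∈ J.erase C, b a * ((s a + s C * q a C : ℤ) : ℝ) =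
        ∑ a ∈ J.erase C, b a * s a + (s C : ℝ) * ∑ a ∈ J.erase C, b a * q a C := by
      rw [mul_sum, ← sum_add_distrib]
      refine sum_congr rfl fun a _ => ?_
      push_cast; ring
    rw [this]
    push_cast at hEC ⊢
    linear_combination (s C : ℝ) * hEC
  have hsplit : ∀ (x : ι → ℝ) (a : ι), ∑ e ∈ J.erase C, x e * ((q e a + q e C * q a C : ℤ) : ℝ) =
      ∑ e ∈ J.erase C, x e * q e a + (q a C : ℝ) * ∑ e ∈ J.erase C, x e * q e C := by
    intro x a
    rw [mul_sum, ← sum_add_distrib]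
    refine sum_congr rfl fun e _ => ?_
    push_cast; ring
  have := ih (J.erase C) (erase_ssubset hC) (fun x y => q x y + q x C * q y C)
    (fun x => k x - q x C) (fun x => s x + s C * q x C) (fun x => L x + (q x C : ℝ) * L C)
    (Λ + ((s C * (s C - 1) : ℤ) : ℝ) * 1 + (s C : ℝ) * L C)
    (fun x hx y hy => by rw [hs x (hsub x hx) y (hsub y hy)]; ring)
    (fun x hx y hy h => add_nonneg (hq x (hsub x hx) y (hsub y hy) h)
      (mul_nonneg (hqC x hx) (hqC y hy)))
    (fun x hx => hc x (hsub x hx))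
    (fun a ha => by
      rw [hsplit]
      have h2 := hneg a (hsub a ha)
      have h3 := hneg C hC
      rw [← add_sum_erase J _ hC] at h2 h3
      rw [hqC1] at h3
      rw [hs C hC a (hsub a ha)] at h2
      have h4 : (0 : ℝ) ≤ q a C := by exact_mod_cast hqC a ha
      push_cast at h3
      nlinarith)
    (fun a ha => by
      have h2 := hg a (hsub a ha)
      have h3 := hqC a ha
      nlinarith [mul_self_nonneg (q a C - 1), mul_self_nonneg (q a C), sq_nonneg (2 * q a C - 1),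
        (show 0 ≤ q a C * (q a C - 1) by
          rcases eq_or_lt_of_le h3 with h | h
          · rw [← h]; simp
          · exact mul_nonneg h3 (by omega))])
    (fun a ha => add_nonneg (hs0 a (hsub a ha)) (mul_nonneg (hs0 C hC) (hqC a ha)))
    (fun a ha => P.add_mem (hL a (hsub a ha)) (hzmem _ _ (hqC a ha) (hL C hC)))
    (P.add_mem (P.add_mem hΛ (hzmem _ _ (by
        have h3 := hs0 C hC
        rcases eq_or_lt_of_le h3 with h | h
        · rw [← h]; simp
        · exact mul_nonneg h3 (by omega)) h1)) (hzmem _ _ (hs0 C hC) (hL C hC)))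
    (fun a ha => by
      rw [hsplit]
      have h2 := heq a (hsub a ha)
      rw [← add_sum_erase J _ hC, hs C hC a (hsub a ha)] at h2
      push_cast at hEC ⊢
      linear_combination h2 + (q a C : ℝ) * hEC)
    (by rw [hΦ']; exact hΦ)
  rwa [hΦ'] at this

/-- a set of nonnegative reals that is finite below `1 - ε` for every `ε > 0` -/
def Disc (B : Set ℝ) : Prop := (∀ x ∈ B, 0 ≤ x) ∧ ∀ ε > 0, {x ∈ B | x ≤ 1 - ε}.Finite

/-- the coefficients of a different -/
def step (B : Set ℝ) : Set ℝ :=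
  {x | x = 1 ∨ ∃ m : ℕ, 1 ≤ m ∧ ∃ r ∈ AddSubmonoid.closure (insert 1 B), r < 1 ∧ m * (1 - x) = 1 - r}

theorem Disc.of_finite {B : Set ℝ} (hB : B.Finite) (h : ∀ x ∈ B, 0 ≤ x) : Disc B :=
  ⟨h, fun _ _ => hB.subset fun _ hx => hx.1⟩

theorem Disc.mono {B B' : Set ℝ} (h : Disc B) (hs : B' ⊆ B) : Disc B' :=
  ⟨fun x hx => h.1 x (hs hx), fun ε hε => (h.2 ε hε).subset fun _ hx => ⟨hs hx.1, hx.2⟩⟩

theorem Disc.union {B B' : Set ℝ} (h : Disc B) (h' : Disc B') : Disc (B ∪ B') :=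
  ⟨fun x hx => hx.elim (h.1 x) (h'.1 x), fun ε hε => ((h.2 ε hε).union (h'.2 ε hε)).subset
    fun _ hx => hx.1.elim (fun h => Or.inl ⟨h, hx.2⟩) fun h => Or.inr ⟨h, hx.2⟩⟩

theorem Disc.insert_one {B : Set ℝ} (h : Disc B) : Disc (insert 1 B) :=
  (Disc.of_finite (Set.finite_singleton 1) (by simp)).union h

theorem closure_nonneg {B : Set ℝ} (h : ∀ x ∈ B, 0 ≤ x) :
    ∀ r ∈ AddSubmonoid.closure B, 0 ≤ r := by
  intro r hr
  induction hr using AddSubmonoid.closure_induction with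
  | mem x hx => exact h x hx
  | zero => exact le_rfl
  | add x y _ _ hx hy => exact add_nonneg hx hy

theorem closure_finite (F : Finset ℝ) (hF : ∀ x ∈ F, 0 ≤ x) (R : ℝ) :
    {r ∈ (AddSubmonoid.closure (F : Set ℝ) : Set ℝ) | r ≤ R}.Finite := by
  classical
  induction F using Finset.induction_on with
  | empty => exact (Set.finite_singleton (0 : ℝ)).subset fun x hx => by simpa using hx.1
  | insert a F ha ih =>
    have ih := ih fun x hx => hF x (mem_insert_of_mem hx)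
    have ha0 := hF a (mem_insert_self _ _)
    have hn := closure_nonneg (B := (F : Set ℝ)) fun x hx => hF x (mem_insert_of_mem hx)
    refine (((Set.finite_Iic ⌈R / a⌉₊).prod ih).image fun p => (p.1 : ℝ) * a + p.2).subset ?_
    rintro r ⟨hr, hR⟩
    rw [coe_insert, Set.insert_eq, AddSubmonoid.closure_union, SetLike.mem_coe,
      AddSubmonoid.mem_sup] at hr
    obtain ⟨y, hy, z, hz, rfl⟩ := hr
    obtain ⟨n, rfl⟩ := AddSubmonoid.mem_closure_singleton.1 hy
    rw [nsmul_eq_mul] at hR ⊢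
    have hz0 := hn z hz
    rcases eq_or_lt_of_le ha0 with h | h
    · refine ⟨(0, z), ⟨by simp, hz, ?_⟩, ?_⟩
      · rw [← h] at hR; simpa using hR
      · rw [← h]; simp
    · refine ⟨(n, z), ⟨?_, hz, ?_⟩, rfl⟩
      · have : (n : ℝ) ≤ R / a := by rw [le_div_iff₀ h]; linarith
        exact_mod_cast this.trans (Nat.le_ceil _)
      · have : 0 ≤ (n : ℝ) * a := by positivity
        change z ≤ R
        linarith

theorem Disc.closure {B : Set ℝ} (h : Disc B) : Disc (AddSubmonoid.closure B : Set ℝ) := by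
  refine ⟨closure_nonneg h.1, fun ε hε => ?_⟩
  have hF := h.2 ε hε
  refine (closure_finite hF.toFinset (fun x hx => h.1 x (hF.mem_toFinset.1 hx).1)
    (1 - ε)).subset ?_
  rintro r ⟨hr, hR⟩
  refine ⟨?_, hR⟩
  rw [SetLike.mem_coe] at hr ⊢
  induction hr using AddSubmonoid.closure_induction with
  | mem x hx => exact AddSubmonoid.subset_closure (by simpa using ⟨hx, hR⟩)
  | zero => exact AddSubmonoid.zero_mem _
  | add x y hx hy ihx ihy =>
    have h1 := closure_nonneg h.1 x hx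
    have h2 := closure_nonneg h.1 y hy
    exact AddSubmonoid.add_mem _ (ihx (by linarith)) (ihy (by linarith))

theorem step_le_one {B : Set ℝ} {x : ℝ} (hx : x ∈ step B) : x ≤ 1 := by
  rcases hx with rfl | ⟨m, hm, r, -, hr, hE⟩
  · exact le_rfl
  · have : (1 : ℝ) ≤ m := by exact_mod_cast hm
    by_contra hcon
    push Not at hcon
    nlinarith

theorem Disc.step {B : Set ℝ} (h : Disc B) : Disc (step B) := by
  have hc := h.insert_one.closure
  constructor
  · rintro x (rfl | ⟨m, hm, r, hr, hr1, hE⟩)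
    · exact zero_le_one
    · have h1 : (1 : ℝ) ≤ m := by exact_mod_cast hm
      have h2 := hc.1 r hr
      by_contra hcon
      push Not at hcon
      nlinarith
  · intro ε hε
    refine (((Set.finite_Iic ⌈1 / ε⌉₊).prod (hc.2 ε hε)).image
      fun p => 1 - (1 - p.2) / (p.1 : ℝ)).subset ?_
    rintro x ⟨rfl | ⟨m, hm, r, hr, hr1, hE⟩, hx⟩
    · linarith
    · have h1 : (1 : ℝ) ≤ m := by exact_mod_cast hm
      have h2 := hc.1 r hr
      refine ⟨(m, r), ⟨?_, hr, ?_⟩, ?_⟩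
      · have : (m : ℝ) ≤ 1 / ε := by rw [le_div_iff₀ hε]; nlinarith
        exact_mod_cast this.trans (Nat.le_ceil _)
      · change r ≤ 1 - ε
        nlinarith
      · change 1 - (1 - r) / (m : ℝ) = x
        rw [← hE]; field_simp; ring

theorem zero_mem_step (B : Set ℝ) : (0 : ℝ) ∈ step B :=
  Or.inr ⟨1, le_rfl, 0, AddSubmonoid.zero_mem _, one_pos, by simp⟩

theorem mem_step_of_mem {B : Set ℝ} {x : ℝ} (hx : x ∈ B) (h1 : x ≤ 1) : x ∈ step B := by
  rcases eq_or_lt_of_le h1 with h | h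
  · exact Or.inl h
  · exact Or.inr ⟨1, le_rfl, x, AddSubmonoid.subset_closure (Or.inr hx), h, by simp⟩

/-- **LAT**, in the form used on a slice: `S` meets exactly one compact curve `j`, once. -/
theorem lat_step [DecidableEq ι] {B : Set ℝ} (hB : ∀ x ∈ B, 0 ≤ x) (J : Finset ι)
    (q : ι → ι → ℤ) (k : ι → ℤ) (L c b : ι → ℝ)
    (hs : ∀ a ∈ J, ∀ b ∈ J, q a b = q b a) (hq : ∀ a ∈ J, ∀ b ∈ J, a ≠ b → 0 ≤ q a b)
    (hc : ∀ a ∈ J, 0 < c a) (hneg : ∀ a ∈ J, ∑ e ∈ J, c e * q e a < 0)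
    (hg : ∀ a ∈ J, -2 ≤ k a + q a a) (hL : ∀ a ∈ J, L a ∈ AddSubmonoid.closure (insert 1 B))
    (j : ι) (hj : j ∈ J)
    (heq : ∀ a ∈ J, k a + (if a = j then 1 else 0) + L a + ∑ e ∈ J, b e * q e a = 0)
    (hb : b j ≤ 1) : b j ∈ step B := by
  rcases eq_or_lt_of_le hb with h | h
  · exact Or.inl h
  have hsum : ∑ a ∈ J, b a * ((if a = j then 1 else 0 : ℤ) : ℝ) + 0 = b j := by
    simp [hj]
  obtain ⟨m, hm, r, hr, hE⟩ := lat (AddSubmonoid.closure (insert 1 B))
    (closure_nonneg (by rintro x (rfl | hx); exacts [zero_le_one, hB x hx]))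
    (AddSubmonoid.subset_closure (Or.inl rfl)) c b J q k (fun a => if a = j then 1 else 0) L 0
    hs hq hc hneg hg (fun a _ => by split_ifs <;> simp) hL (AddSubmonoid.zero_mem _)
    (fun a ha => by simpa using heq a ha) (by rw [hsum]; exact h)
  rw [hsum] at hE
  have h1 : (1 : ℝ) ≤ m := by exact_mod_cast hm
  exact Or.inr ⟨m, hm, r, hr, by nlinarith, hE⟩

end P277Z.Glc
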