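import Vale.Agent.P277Z.Glc.Defs
import Vale.Agent.P277Z.Val.Man
import Vale.Agent.P272.K.QN.H705.Pull
import Vale.Agent.P299.H956.D1.RJac

/-!
# P277, GLC: pull back of line bundles, sections, metrics and nef line bundles
-/

set_option linter.unusedSectionVars false

open scoped Manifold ContDiff Topology ComplexOrder
open Vale.Agent.P272.K Vale.Agent.P285.H281.FD Vale.Agent.P277 Set Filter
open Vale.Agent.P277.HD (pull)
open Vale.Agent.P277.PH (HolF at_chartAt)
open Vale.Agent.P272.K.QN (jm pb pl loc pb_apply isSemi_pb posSemidefR loc_apply nhds_loc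
  loc_contDiffAt)

noncomputable section

namespace Vale.Agent.P277Z.Glc

variable {n m : ℕ} {X Y : Type} [TopologicalSpace X] [ChartedSpace (Cm n) X]
  [IsManifold 𝓘(ℂ, Cm n) ω X] [TopologicalSpace Y] [ChartedSpace (Cm m) Y]
  [IsManifold 𝓘(ℂ, Cm m) ω Y] {π : X → Y} {A : Bd Y}

theorem HolM.contMDiff (h : HolM n m π) : ContMDiff 𝓘(ℂ, Cm n) 𝓘(ℂ, Cm m) ω π := by
  intro y
  rw [contMDiffAt_iff]
  refine ⟨h.1.continuousAt, ContDiffAt.contDiffWithinAt (AnalyticAt.contDiffAt ?_)⟩
  exact analyticAt_pi_iff.2 fun i =>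
    h.2 y _ (Val.holF_chart (at_chartAt (π y)) i) _ (at_chartAt y)

theorem HolM.lb (h : HolM n m π) (hA : IsLB m A) : IsLB n (pull π A) where
  isOpen i := (hA.isOpen i).preimage h.1
  cover x := hA.cover (π x)
  holo i j e x he hi hj :=
    (h.2 x (A.g i j) (fun c hc => (hA.holo i j c _ hc hi hj).analyticAt) e he).contDiffAt
  ne_zero i j x hi hj := hA.ne_zero i j (π x) hi hj
  cocycle i j k x hi hj hk := hA.cocycle i j k (π x) hi hj hk

theorem HolM.sec (h : HolM n m π) {s : A.ι → Y → ℂ} (hs : IsSec m A s) :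
    IsSec n (pull π A) fun i x => s i (π x) where
  holo i e x he hi := (h.2 x (s i) (fun c hc => (hs.holo i c _ hc hi).analyticAt) e he).contDiffAt
  change i j x hi hj := hs.change i j (π x) hi hj

theorem HolX.lb {Z : CSp} {p : X → Z.pt} (h : HolX n Z p) {L : Bd Z.pt} (hL : IsLBx Z L) :
    IsLB n (pull p L) where
  isOpen i := (hL.isOpen i).preimage h.1
  cover x := hL.cover (p x)
  holo i j e x he hi hj := (h.2 x (L.g i j) (hL.holo i j _ hi hj) e he).contDiffAt
  ne_zero i j x hi hj := hL.ne_zero i j (p x) hi hj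
  cocycle i j k x hi hj hk := hL.cocycle i j k (p x) hi hj hk

theorem HolX.comp {Z : CSp} {p : Y → Z.pt} (h : HolX m Z p) (hπ : HolM n m π) :
    HolX n Z fun x => p (π x) :=
  ⟨h.1.comp hπ.1, fun x g hg => hπ.2 x _ (h.2 _ g hg)⟩

theorem comp_loc {E : Type} (u : Y → E) (hπ : Continuous π) {e : Chart n X} {e' : Chart m Y} {x : X}
    (hx : At e x) (hx' : At e' (π x)) :
    (fun z => u (π (e.symm z))) =ᶠ[𝓝 (e x)] fun z => (fun y => u (e'.symm y)) (loc π e e' z) := by
  filter_upwards [nhds_loc hπ hx hx'] with z hz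
  unfold loc
  rw [hz.2.2.left_inv]

theorem HolM.met (h : HolM n m π) {ψ : A.ι → Y → ℝ} (hψ : IsMet m A ψ) :
    IsMet n (pull π A) fun j x => ψ j (π x) where
  smooth i e x he hi := by
    have h1 := hψ.smooth i _ (π x) (at_chartAt (π x)) hi
    rw [← loc_apply (F := π) he] at h1
    exact (h1.comp (e x) (((loc_contDiffAt h.contMDiff he (at_chartAt (π x))).restrict_scalars
      ℝ).of_le le_top)).congr_of_eventuallyEq (comp_loc (fun y => ψ i y) h.1 he (at_chartAt (π x)))
  change i j x hi hj := hψ.change i j (π x) hi hj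

theorem HolM.curv (h : HolM n m π) {u : Y → ℝ} {e : Chart n X} {e' : Chart m Y} {x : X}
    (hx : At e x) (hx' : At e' (π x)) (hu : ContDiffAt ℝ 2 (fun y => u (e'.symm y)) (e' (π x))) :
    cHess (fun z => u (π (e.symm z))) (e x) = (jm (loc π e e') (e x)).transpose *
      cHess (fun y => u (e'.symm y)) (e' (π x)) * (jm (loc π e e') (e x)).map (starRingEnd ℂ) := by
  rw [cHess_congr (comp_loc u h.1 hx hx')]
  have h1 := P299.H956.cHess_compR (f := fun y => u (e'.symm y)) (τ := loc π e e') (z := e x)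
    (by rw [loc_apply hx]; exact hu) (loc_contDiffAt h.contMDiff hx hx')
  rw [h1, loc_apply hx]
  rfl

variable {χ : Chart m Y → Cm m → Matrix (Fin m) (Fin m) ℂ}

theorem HolM.nef_pb (h : HolM n m π) (hχ : IsHermitian χ) (hA : Nef χ A) :
    Nef (n := n) (X := X) (pb π χ) (pull π A) := by
  intro δ hδ
  obtain ⟨ψ, h1, h2⟩ := hA δ hδ
  refine ⟨fun j x => ψ j (π x), h.met h1, fun i e x he hi => ?_⟩
  have he' := at_chartAt (n := m) (π x)
  have h3 := posSemidefR (h2 i _ _ he' hi) (jm (loc π e (chartAt (Cm m) (π x))) (e x))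
  rw [h.curv (u := ψ i) he he' ((h1.smooth i _ _ he' hi).of_le (by norm_cast)),
    pb_apply h.contMDiff hχ he he', pl, loc_apply he]
  simpa only [Matrix.mul_add, Matrix.add_mul, Matrix.mul_smul, Matrix.smul_mul] using h3

/-- the pull back of a nef line bundle is nef -/
theorem HolM.nef [CompactSpace X] (h : HolM n m π) (hχ : IsHermitian χ)
    {χ' : Chart n X → Cm n → Matrix (Fin n) (Fin n) ℂ} (hχ' : IsHermitian χ') (hA : Nef χ A) :
    Nef χ' (pull π A) := by
  have hS := isSemi_pb h.contMDiff hχ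
  have h1 : IsHermitian (fun e z => χ' e z + pb π χ e z : Chart n X → _) := by
    refine ⟨fun e x he i j => (hχ'.smooth e x he i j).add (hS.smooth e x he i j),
      fun e x he => (hχ'.posDef e x he).add_posSemidef (hS.pos e x he), fun e e' x he he' => ?_⟩
    rw [Matrix.mul_add, Matrix.add_mul, ← hχ'.change e e' x he he', ← hS.change e e' x he he']
  obtain ⟨C, hC, h2⟩ := exists_comparison hχ' h1
  intro δ hδ
  obtain ⟨ψ, h3, h4⟩ := h.nef_pb hχ hA (δ / C) (div_pos hδ hC)
  refine ⟨ψ, h3, fun i e x he hi => ?_⟩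
  have h5 := (h4 i e x he hi).add (((h2 e x he).add (hχ'.posDef e x he).posSemidef).smul
    (Complex.zero_le_real.2 (div_pos hδ hC).le))
  have h6 : ((δ / C : ℝ) : ℂ) * C = δ := by
    rw [← Complex.ofReal_mul, div_mul_cancel₀ _ hC.ne']
  have h7 : ∀ H P Q : Matrix (Fin n) (Fin n) ℂ, H + ((δ / C : ℝ) : ℂ) • P +
      ((δ / C : ℝ) : ℂ) • ((C : ℂ) • Q - (Q + P) + Q) = H + (δ : ℂ) • Q := fun H P Q => by
    rw [← h6]
    module
  rwa [h7] at h5

end Vale.Agent.P277Z.Glc
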