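import Vale.Agent.P277Z.Glc.Sk
import Vale.Agent.P277Z.Glc.Pull
import Vale.Agent.P277Z.Val.Mon
import Vale.Agent.P277Z.Val.Sub
import Vale.Agent.P277Z.Slc.Unit
import Vale.Agent.P277Z.Slc.Bridge

/-!
# P277, block GLC: local facts about manifolds with divisors, in any dimension
-/

set_option linter.unusedSectionVars false

open scoped Manifold ContDiff Topology
open Vale.Agent.P277 hiding Amin IsFlipR
open Vale.Agent.P277.HD Vale.Agent.P277.PH
open Vale.Agent.P272.K Vale.Agent.P285.H281.FD Set Filter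
open Vale.Agent.P277Z.Slc (LEq)
open Vale.Agent.P277Z.Val (holF_cont holF_ev)

noncomputable section

namespace Vale.Agent.P277Z.Glc

section gen

variable {T : Type} [TopologicalSpace T] {d : ℕ} [ChartedSpace (Cm d) T] {y : T}

theorem holF_zpow {f : T → ℂ} (h : HolF d f y) (h0 : f y ≠ 0) (n : ℤ) :
    HolF d (fun x => f x ^ n) y :=
  fun e he => (h e he).fun_zpow (by rwa [e.left_inv he.2])

theorem holF_npow {f : T → ℂ} (h : HolF d f y) (n : ℕ) : HolF d (fun x => f x ^ n) y :=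
  fun e he => (h e he).fun_pow n

theorem holF_inv {f : T → ℂ} (h : HolF d f y) (h0 : f y ≠ 0) : HolF d (fun x => (f x)⁻¹) y :=
  fun e he => (h e he).fun_inv (by rwa [e.left_inv he.2])

theorem holF_prod {ι : Type*} (s : Finset ι) {f : ι → T → ℂ} (h : ∀ i ∈ s, HolF d (f i) y) :
    HolF d (fun x => ∏ i ∈ s, f i x) y :=
  fun e he => Finset.analyticAt_fun_prod s fun i hi => h i hi e he

theorem holF_ne {f : T → ℂ} (h : HolF d f y) (h0 : f y ≠ 0) : ∀ᶠ x in 𝓝 y, f x ≠ 0 :=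
  (holF_cont h).eventually_ne h0

theorem _root_.Vale.Agent.P277Z.Slc.LEq.holF {G : Set T} {ζ : T → ℂ} (h : LEq d G y ζ) :
    HolF d ζ y := h.hol

theorem _root_.Vale.Agent.P277Z.Slc.LEq.ne {G : Set T} {ζ : T → ℂ} (h : LEq d G y ζ)
    (hy : y ∉ G) : ζ y ≠ 0 := mt h.mem.1 hy

variable {r : ℕ} {G : Fin r → Set T} {n n' : Fin r → ℤ} {f f' u : T → ℂ} {ζ ζ' : Fin r → T → ℂ}

theorem leq_iff (h : ∀ l, LEq d (G l) y (ζ l)) : ∀ᶠ x in 𝓝 y, ∀ l, ζ l x = 0 ↔ x ∈ G l :=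
  eventually_all.2 fun l => (h l).1

theorem leq_ne (h : ∀ l, LEq d (G l) y (ζ l)) : ∀ᶠ x in 𝓝 y, x ∉ ⋃ l, G l → ∀ l, ζ l x ≠ 0 :=
  (leq_iff h).mono fun _ a b l c => b (mem_iUnion.2 ⟨l, (a l).1 c⟩)

theorem Mon.congr (h : Mon d G n f y) (e : ∀ᶠ x in 𝓝 y, x ∉ ⋃ l, G l → f' x = f x) :
    Mon d G n f' y := by
  obtain ⟨ζ, u, h1, h2, h3, h4⟩ := h
  exact ⟨ζ, u, h1, h2, h3, by filter_upwards [h4, e] with x a b c using (b c).trans (a c)⟩

theorem Mon.unit (h : Mon d G n f y) (hu : HolF d u y) (h0 : u y ≠ 0)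
    (e : ∀ᶠ x in 𝓝 y, x ∉ ⋃ l, G l → f' x = u x * f x) : Mon d G n f' y := by
  obtain ⟨ζ, v, h1, h2, h3, h4⟩ := h
  exact ⟨ζ, _, h1, hu.mul h2, mul_ne_zero h0 h3, by
    filter_upwards [h4, e] with x a b c using by rw [b c, a c, mul_assoc]⟩

theorem Mon.ne (h : Mon d G n f y) : ∀ᶠ x in 𝓝 y, x ∉ ⋃ l, G l → f x ≠ 0 := by
  obtain ⟨ζ, u, h1, h2, h3, h4⟩ := h
  filter_upwards [h4, leq_ne h1, holF_ne h2 h3] with x a b c e
  rw [a e]
  exact mul_ne_zero c (Finset.prod_ne_zero_iff.2 fun l _ => zpow_ne_zero _ (b e l))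

theorem Mon.zpow (h : Mon d G n f y) (k : ℤ) :
    Mon d G (fun l => k * n l) (fun x => f x ^ k) y := by
  obtain ⟨ζ, u, h1, h2, h3, h4⟩ := h
  refine ⟨ζ, _, h1, holF_zpow h2 h3 k, zpow_ne_zero _ h3, h4.mono fun x a b => ?_⟩
  simp only [a b, mul_zpow, ← Finset.prod_zpow, ← zpow_mul, mul_comm k]

theorem Mon.pow (h : Mon d G n f y) (k : ℕ) :
    Mon d G (fun l => k * n l) (fun x => f x ^ k) y := by
  simpa only [zpow_natCast] using h.zpow k

theorem Mon.inv (h : Mon d G n f y) : Mon d G (fun l => -n l) (fun x => (f x)⁻¹) y := by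
  simpa only [zpow_neg_one, neg_one_mul] using h.zpow (-1)

/-- the monomial itself -/
theorem mon_self (h : ∀ l, LEq d (G l) y (ζ l)) (n : Fin r → ℤ) :
    Mon d G n (fun x => ∏ l, ζ l x ^ n l) y :=
  ⟨ζ, fun _ => 1, h, .const 1, one_ne_zero, .of_forall fun _ _ => (one_mul _).symm⟩

/-- units -/
theorem mon_zero (h : ∀ l, LEq d (G l) y (ζ l)) (hu : HolF d u y) (h0 : u y ≠ 0) :
    Mon d G (fun _ => 0) u y :=
  ⟨ζ, u, h, hu, h0, .of_forall fun _ _ => by simp⟩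

/-- one equation -/
theorem mon_single (h : ∀ l, LEq d (G l) y (ζ l)) (l : Fin r) :
    Mon d G (fun k => if l = k then 1 else 0) (ζ l) y :=
  (mon_self h _).congr (.of_forall fun x _ => by
    rw [Finset.prod_eq_single l (fun k _ hk => by simp [hk.symm]) (by simp)]
    simp)

/-- the exponents of the components which do not pass through `y` are arbitrary -/
theorem Mon.change (h : Mon d G n f y) (e : ∀ l, y ∈ G l → n l = n' l) : Mon d G n' f y := by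
  classical
  obtain ⟨ζ, u, h1, h2, h3, h4⟩ := h
  refine ⟨ζ, fun x => u x * ∏ l with y ∉ G l, ζ l x ^ (n l - n' l), h1, h2.mul (holF_prod _
    fun l hl => holF_zpow (h1 l).holF ((h1 l).ne (Finset.mem_filter.1 hl).2) _), mul_ne_zero h3
    (Finset.prod_ne_zero_iff.2 fun l hl => zpow_ne_zero _ ((h1 l).ne (Finset.mem_filter.1 hl).2)),
    ?_⟩
  filter_upwards [h4, leq_ne h1] with x a b c
  rw [a c, mul_assoc, Finset.prod_filter, ← Finset.prod_mul_distrib]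
  refine congrArg _ (Finset.prod_congr rfl fun l _ => ?_)
  by_cases hl : y ∈ G l
  · simp [hl, e l hl]
  · simp [hl, ← zpow_add₀ (b c l)]

/-- a monomial with exponents `≥ 0` along the components through `y` extends holomorphically -/
theorem Mon.ext (h : Mon d G n f y) (h0 : ∀ l, y ∈ G l → 0 ≤ n l) :
    ∃ g, HolF d g y ∧ (g y = 0 ↔ ∃ l, y ∈ G l ∧ n l ≠ 0) ∧
      ∀ᶠ x in 𝓝 y, x ∉ ⋃ l, G l → f x = g x := by
  classical
  obtain ⟨ζ, u, h1, h2, h3, h4⟩ := h.change (n' := fun l => (n l).toNat) fun l hl =>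
    (Int.toNat_of_nonneg (h0 l hl)).symm
  refine ⟨fun x => u x * ∏ l, ζ l x ^ (n l).toNat, h2.mul (holF_prod _ fun l _ =>
    holF_npow (h1 l).holF _), ?_, by simpa only [zpow_natCast] using h4⟩
  simp only [mul_eq_zero, h3, false_or, Finset.prod_eq_zero_iff, Finset.mem_univ, true_and,
    pow_eq_zero_iff', (h1 _).mem]
  refine exists_congr fun l => and_congr_right fun hl => ?_
  have := h0 l hl
  omega

variable [IsManifold 𝓘(ℂ, Cm d) ω T]

theorem _root_.Vale.Agent.P277Z.Slc.LEq.eventually {G : Set T} {ζ : T → ℂ} (h : LEq d G y ζ) :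
    ∀ᶠ x in 𝓝 y, LEq d G x ζ := h.near

theorem leq_ev (h : ∀ l, LEq d (G l) y (ζ l)) : ∀ᶠ x in 𝓝 y, ∀ l, LEq d (G l) x (ζ l) :=
  eventually_all.2 fun l => (h l).near

theorem Mon.eventually (h : Mon d G n f y) : ∀ᶠ x in 𝓝 y, Mon d G n f x := by
  obtain ⟨ζ, u, h1, h2, h3, h4⟩ := h
  filter_upwards [leq_ev h1, holF_ev h2, holF_ne h2 h3, h4.eventually_nhds] with x a b c e
    using ⟨ζ, u, a, b, c, e⟩

/-- off the components a monomial is a unit -/
theorem Mon.off (h : Mon d G n f y) (hy : y ∉ ⋃ l, G l) : HolF d f y ∧ f y ≠ 0 := by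
  refine ⟨?_, h.ne.self_of_nhds hy⟩
  have h0 : ∀ l, y ∉ G l := fun l hl => hy (mem_iUnion.2 ⟨l, hl⟩)
  obtain ⟨g, h1, -, h2⟩ := h.ext fun l hl => absurd hl (h0 l)
  obtain ⟨ζ, -, h3, -⟩ := h
  refine h1.congr ?_
  filter_upwards [h2, eventually_all.2 fun l => (h3 l).not_mem_near (h0 l)] with x a b
  exact (a (by simpa using b)).symm

variable [T2Space T] [CompactSpace T]

/-- two local equations differ by a unit -/
theorem _root_.Vale.Agent.P277Z.Slc.LEq.unit {G : Set T} {ζ ζ' : T → ℂ} (h : LEq d G y ζ)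
    (h' : LEq d G y ζ') : ∃ u : T → ℂ, HolF d u y ∧ u y ≠ 0 ∧ ∀ᶠ x in 𝓝 y, ζ' x = u x * ζ x :=
  haveI := ChartedSpace.secondCountable_of_sigmaCompact (Cm d) T
  Slc.stUnit d T G y ζ ζ' h h'

theorem leq_units (h : ∀ l, LEq d (G l) y (ζ l)) (h' : ∀ l, LEq d (G l) y (ζ' l)) :
    ∃ u : Fin r → T → ℂ, (∀ l, HolF d (u l) y ∧ u l y ≠ 0) ∧
      ∀ᶠ x in 𝓝 y, ∀ l, ζ' l x = u l x * ζ l x := by
  choose u h1 h2 h3 using fun l => (h l).unit (h' l)
  exact ⟨u, fun l => ⟨h1 l, h2 l⟩, eventually_all.2 h3⟩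

/-- any system of local equations can be used -/
theorem Mon.any (h : Mon d G n f y) (hζ : ∀ l, LEq d (G l) y (ζ l)) :
    ∃ u, HolF d u y ∧ u y ≠ 0 ∧ ∀ᶠ x in 𝓝 y, x ∉ ⋃ l, G l → f x = u x * ∏ l, ζ l x ^ n l := by
  obtain ⟨ζ', u, h1, h2, h3, h4⟩ := h
  obtain ⟨v, k1, k2⟩ := leq_units hζ h1
  refine ⟨fun x => u x * ∏ l, v l x ^ n l, h2.mul (holF_prod _ fun l _ =>
    holF_zpow (k1 l).1 (k1 l).2 _), mul_ne_zero h3 (Finset.prod_ne_zero_iff.2 fun l _ =>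
    zpow_ne_zero _ (k1 l).2), ?_⟩
  filter_upwards [h4, k2] with x a b c
  simp only [a c, b, mul_zpow, Finset.prod_mul_distrib, mul_assoc]

theorem Mon.mul (h : Mon d G n f y) (h' : Mon d G n' f' y) :
    Mon d G (fun l => n l + n' l) (fun x => f x * f' x) y := by
  obtain ⟨ζ, u, h1, h2, h3, h4⟩ := h
  obtain ⟨v, k1, k2, k3⟩ := h'.any h1
  refine ⟨ζ, _, h1, h2.mul k1, mul_ne_zero h3 k2, ?_⟩
  filter_upwards [h4, k3, leq_ne h1] with x a b c e
  simp only [a e, b e, zpow_add₀ (c e _), Finset.prod_mul_distrib]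
  ring

theorem Mon.div (h : Mon d G n f y) (h' : Mon d G n' f' y) :
    Mon d G (fun l => n l - n' l) (fun x => f x / f' x) y := by
  simpa only [div_eq_mul_inv, sub_eq_add_neg] using h.mul h'.inv

theorem Mon.prod' (hζ : ∀ l, LEq d (G l) y (ζ l)) {ι : Type*} (s : Finset ι)
    {n : ι → Fin r → ℤ} {f : ι → T → ℂ} (h : ∀ i ∈ s, Mon d G (n i) (f i) y) :
    Mon d G (fun l => ∑ i ∈ s, n i l) (fun x => ∏ i ∈ s, f i x) y := by
  classical
  induction s using Finset.induction_on with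
  | empty => simpa using mon_zero hζ (.const 1) one_ne_zero
  | insert j s hj ih =>
    simp only [Finset.forall_mem_insert] at h
    simpa only [Finset.sum_insert hj, Finset.prod_insert hj] using h.1.mul (ih h.2)

end gen

variable {d : ℕ}

namespace Mf

variable (V : Mf d)

theorem closed (l : Fin V.r) : IsClosed (V.G l) := V.snc.closed' l

theorem closedU : IsClosed (⋃ l, V.G l) := isClosed_iUnion_of_finite V.closed

theorem closedI (I : Finset (Fin V.r)) : IsClosed {z | ∀ l ∈ I, z ∈ V.G l} := by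
  simp only [ofPred_forall]
  exact isClosed_iInter fun l => isClosed_iInter fun _ => V.closed l

theorem exEq (y : V.T) : ∃ ζ : Fin V.r → V.T → ℂ, ∀ l, LEq d (V.G l) y (ζ l) :=
  (Slc.snc_of_isSnc V.snc y).imp fun _ h => h.1

/-- the open strata are dense in the strata -/
theorem gen (I : Finset (Fin V.r)) {y : V.T} (hy : ∀ l ∈ I, y ∈ V.G l) :
    ∃ᶠ x in 𝓝 y, ∀ l, x ∈ V.G l ↔ l ∈ I :=
  V.snc.freq (I : Set _) hy

theorem gen1 {l : Fin V.r} {y : V.T} (hy : y ∈ V.G l) :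
    ∃ᶠ x in 𝓝 y, ∀ k, x ∈ V.G k ↔ k = l := by
  simpa using V.gen {l} (by simpa using hy)

theorem freqU (y : V.T) : ∃ᶠ x in 𝓝 y, x ∉ ⋃ l, V.G l :=
  (V.gen ∅ (by simp)).mono fun x h => by simpa using h

theorem dense : Dense (⋃ l, V.G l)ᶜ := fun y => mem_closure_iff_frequently.2 (V.freqU y)

theorem not_sub {l k : Fin V.r} (h : V.G l ⊆ V.G k) : l = k := by
  obtain ⟨y, hy⟩ := (V.connG l).nonempty
  obtain ⟨x, a⟩ := (V.gen1 hy).exists
  exact ((a k).1 (h ((a l).2 rfl))).symm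

/-- functions which agree off the components agree -/
theorem eq_of_off {E : Type*} [TopologicalSpace E] [T2Space E] {f g : V.T → E} {y : V.T}
    (hf : ContinuousAt f y) (hg : ContinuousAt g y)
    (h : ∀ᶠ x in 𝓝 y, x ∉ ⋃ l, V.G l → f x = g x) : f y = g y :=
  tendsto_nhds_unique_of_frequently_eq hf hg (((V.freqU y).and_eventually h).mono fun _ a => a.2 a.1)

theorem ev_eq_of_off {f g : V.T → ℂ} {y : V.T} (hf : HolF d f y) (hg : HolF d g y)
    (h : ∀ᶠ x in 𝓝 y, x ∉ ⋃ l, V.G l → f x = g x) : ∀ᶠ x in 𝓝 y, f x = g x := by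
  filter_upwards [holF_ev hf, holF_ev hg, h.eventually_nhds] with x a b c
    using V.eq_of_off (holF_cont a) (holF_cont b) c

theorem card_le {I : Finset (Fin V.r)} {y : V.T} (hy : ∀ l ∈ I, y ∈ V.G l) : I.card ≤ d := by
  obtain ⟨t, lab, -, h2, h3⟩ := V.snc y
  choose i hi _ using fun l : I => (h3.self_of_nhds l).1 (hy l l.2)
  simpa using Fintype.card_le_of_injective i fun l l' e => Subtype.ext (h2 _ _ _ (hi l) (e ▸ hi l'))

theorem mem_cc {I : Finset (Fin V.r)} {y : V.T} (hy : ∀ l ∈ I, y ∈ V.G l) : y ∈ V.cc I y :=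
  mem_connectedComponentIn hy

theorem cc_sub {I : Finset (Fin V.r)} {y x : V.T} (hx : x ∈ V.cc I y) : ∀ l ∈ I, x ∈ V.G l :=
  connectedComponentIn_subset _ _ hx

theorem cc_eq {I : Finset (Fin V.r)} {y x : V.T} (hx : x ∈ V.cc I y) : V.cc I y = V.cc I x :=
  connectedComponentIn_eq hx

theorem cc_conn {I : Finset (Fin V.r)} {y : V.T} (hy : ∀ l ∈ I, y ∈ V.G l) :
    IsConnected (V.cc I y) := isConnected_connectedComponentIn_iff.2 hy

/-- the components of the strata are relatively open -/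
theorem ev_cc {I : Finset (Fin V.r)} {y : V.T} (hy : ∀ l ∈ I, y ∈ V.G l) :
    ∀ᶠ x in 𝓝 y, (∀ l ∈ I, x ∈ V.G l) → x ∈ V.cc I y := by
  obtain ⟨Φ, ρ, lab, h, -⟩ := V.snc.nch y (Eventually.of_forall fun _ => trivial)
  have h1 := h.preconn (I : Set _) hy
  filter_upwards [h.nhds] with x hx hx'
  exact h1.subset_connectedComponentIn ⟨h.src, mem_iInter₂.2 hy⟩
    (fun z hz => mem_iInter₂.1 hz.2) ⟨hx, mem_iInter₂.2 hx'⟩

theorem ev_cc' {I : Finset (Fin V.r)} {y z : V.T} (hz : z ∈ V.cc I y) :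
    ∀ᶠ x in 𝓝 z, x ∈ V.cc I y ↔ ∀ l ∈ I, x ∈ V.G l :=
  (V.ev_cc (V.cc_sub hz)).mono fun _ a => ⟨V.cc_sub, V.cc_eq hz ▸ a⟩

theorem cc_fin (I : Finset (Fin V.r)) :
    {C | ∃ y, (∀ l ∈ I, y ∈ V.G l) ∧ C = V.cc I y}.Finite := by
  obtain ⟨t, ht⟩ := (V.closedI I).isCompact.elim_nhds_subcover'
    (fun y _ => {x | (∀ l ∈ I, x ∈ V.G l) → x ∈ V.cc I y}) fun y hy => V.ev_cc hy
  refine (t.finite_toSet.image fun y => V.cc I y.1).subset ?_
  rintro S ⟨x, hx, rfl⟩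
  obtain ⟨y, hy, h⟩ := mem_iUnion₂.1 (ht hx)
  exact ⟨y, hy, V.cc_eq (h hx)⟩

theorem cc_closed (I : Finset (Fin V.r)) (y : V.T) : IsClosed (V.cc I y) := by
  refine isClosed_of_closure_subset fun z hz => ?_
  have h1 := (V.closedI I).closure_subset_iff.2 (fun _ => V.cc_sub) hz
  obtain ⟨x, a, b⟩ := ((mem_closure_iff_frequently.1 hz).and_eventually (V.ev_cc h1)).exists
  rw [V.cc_eq a, ← V.cc_eq (b (V.cc_sub a))]
  exact V.mem_cc h1

theorem cc_single {l : Fin V.r} {y : V.T} (hy : y ∈ V.G l) : V.cc {l} y = V.G l := by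
  have e : {z | ∀ k ∈ ({l} : Finset _), z ∈ V.G k} = V.G l := by simp
  rw [Mf.cc, e, (V.connG l).isPreconnected.connectedComponentIn hy]

theorem cc_empty (y : V.T) : V.cc ∅ y = univ := by
  have e : {z | ∀ k ∈ (∅ : Finset _), z ∈ V.G k} = univ := by simp
  rw [Mf.cc, e, isPreconnected_univ.connectedComponentIn (mem_univ y)]

/-- general points of a component of a stratum -/
theorem gen_cc {I : Finset (Fin V.r)} {y z : V.T} (hz : z ∈ V.cc I y) :
    ∃ᶠ x in 𝓝 z, x ∈ V.cc I y ∧ ∀ l, x ∈ V.G l ↔ l ∈ I :=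
  ((V.gen I (V.cc_sub hz)).and_eventually (V.ev_cc' hz)).mono fun _ a =>
    ⟨a.2.2 fun l hl => (a.1 l).2 hl, a.1⟩

end Mf

variable {V : Mf d} {y : V.T} {n n' : Fin V.r → ℤ} {f f' : V.T → ℂ}

theorem Mon.prod {ι : Type*} (s : Finset ι) {n : ι → Fin V.r → ℤ} {f : ι → V.T → ℂ}
    (h : ∀ i ∈ s, Mon d V.G (n i) (f i) y) :
    Mon d V.G (fun l => ∑ i ∈ s, n i l) (fun x => ∏ i ∈ s, f i x) y :=
  (V.exEq y).elim fun _ hζ => Mon.prod' hζ s h

theorem Mf.mon_unit (hf : HolF d f y) (h0 : f y ≠ 0) : Mon d V.G (fun _ => 0) f y :=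
  (V.exEq y).elim fun _ hζ => mon_zero hζ hf h0

theorem Mf.mon_leq {l : Fin V.r} {ζ : V.T → ℂ} (h : LEq d (V.G l) y ζ) :
    Mon d V.G (fun k => if l = k then 1 else 0) ζ y := by
  obtain ⟨ζ', h'⟩ := V.exEq y
  obtain ⟨u, h1, h2, h3⟩ := (h' l).unit h
  exact (mon_single h' l).unit h1 h2 (h3.mono fun _ a _ => a)

/-- a monomial which is bounded has exponents `≥ 0` -/
theorem Mon.nonneg (h : Mon d V.G n f y) {C : ℝ} (hC : ∀ᶠ x in 𝓝 y, x ∉ ⋃ l, V.G l → ‖f x‖ ≤ C)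
    {l : Fin V.r} (hl : y ∈ V.G l) : 0 ≤ n l := by
  obtain ⟨z, a1, a2, a3⟩ :=
    ((V.gen1 hl).and_eventually (h.inv.eventually.and hC.eventually_nhds)).exists
  by_contra e
  obtain ⟨g, b1, b2, b3⟩ := a2.ext fun k hk => by rw [(a1 k).1 hk]; omega
  have b4 : g z = 0 := b2.2 ⟨l, (a1 l).2 rfl, by omega⟩
  have b5 : ∀ᶠ x in 𝓝 z, C * ‖g x‖ < 1 :=
    (continuousAt_const.mul (holF_cont b1).norm).eventually_lt continuousAt_const (by simp [b4])
  obtain ⟨x, c1, c2, c3, c4, c5⟩ :=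
    ((V.freqU z).and_eventually (a3.and (b3.and (b5.and a2.ne)))).exists
  rw [← c3 c1, norm_inv, ← div_eq_mul_inv,
    div_lt_one (norm_pos_iff.2 fun k => c5 c1 (by simp [k]))] at c4
  exact absurd (c2 c1) (not_le.2 c4)

theorem Mon.nonneg' (h : Mon d V.G n f y) (hf : ContinuousAt f' y)
    (e : ∀ᶠ x in 𝓝 y, x ∉ ⋃ l, V.G l → f x = f' x) {l : Fin V.r} (hl : y ∈ V.G l) : 0 ≤ n l :=
  h.nonneg (C := ‖f' y‖ + 1) (by
    filter_upwards [e, hf.norm.eventually_lt continuousAt_const (lt_add_one _)] with x a b c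
      using a c ▸ b.le) hl

theorem Mon.le (h : Mon d V.G n f y) (h' : Mon d V.G n' f' y) {C : ℝ}
    (hC : ∀ᶠ x in 𝓝 y, x ∉ ⋃ l, V.G l → ‖f x‖ ≤ C * ‖f' x‖) {l : Fin V.r} (hl : y ∈ V.G l) :
    n' l ≤ n l :=
  sub_nonneg.1 ((h.div h').nonneg (C := C) (by
    filter_upwards [hC, h'.ne] with x a b c
    rw [norm_div, div_le_iff₀ (norm_pos_iff.2 (b c))]
    exact a c) hl)

/-- the exponents of the components through `y` are unique -/
theorem Mon.unique (h : Mon d V.G n f y) (h' : Mon d V.G n' f y) {l : Fin V.r} (hl : y ∈ V.G l) :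
    n l = n' l :=
  le_antisymm (h'.le h (C := 1) (by simp) hl) (h.le h' (C := 1) (by simp) hl)

/-! ### existence of exponents -/

theorem nch_leq {T : Type} [TopologicalSpace T] [ChartedSpace (Cm d) T]
    [IsManifold 𝓘(ℂ, Cm d) ω T] {ι : Type} {G : ι → Set T} {y : T} {Φ : Chart d T} {ρ : ℝ}
    {lab : ι → Option (Fin d)} (h : Val.Nch G y Φ ρ lab) {x : T} (hx : x ∈ Φ.source) (l : ι) :
    LEq d (G l) x (Val.eqn Φ lab l) := by
  refine ⟨?_, fun e he => ?_⟩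
  · filter_upwards [Φ.open_source.mem_nhds hx] with z hz
    rw [h.iff z hz]
    unfold Val.eqn
    cases lab l <;> simp
  · unfold Val.eqn
    cases lab l with
    | none => exact ⟨analyticAt_const, fun h => absurd h one_ne_zero⟩
    | some i =>
      have h1 := Slc.ind_of_isCo (h.crd x hx).isCo'
      exact ⟨h1.1 i e he, fun _ => (h1.2 e he).ne_zero i⟩

/-- a holomorphic function with zeros only on the components is a unit times a monomial -/
theorem exists_mon (hf : HolF d f y) (hne : ∀ᶠ x in 𝓝 y, x ∉ ⋃ l, V.G l → f x ≠ 0) :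
    ∃ n : Fin V.r → ℕ, Mon d V.G (fun l => n l) f y := by
  by_cases hy : y ∈ ⋃ l, V.G l
  swap
  · exact ⟨fun _ => 0, Mf.mon_unit hf (hne.self_of_nhds hy)⟩
  obtain ⟨l, hl⟩ := mem_iUnion.1 hy
  obtain ⟨d, rfl⟩ : ∃ k, d = k + 1 :=
    ⟨d - 1, by have := V.card_le (I := {l}) (by simpa using hl); simp at this; omega⟩
  obtain ⟨Φ, ρ, lab, h, hp⟩ := V.snc.nch y hne
  have hc := h.crd y h.src
  obtain ⟨g, u, h1, h2, h3⟩ := Val.exists_mon0 lab (f := fun w => f (Φ.symm w))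
    (h.zero ▸ hc.an.hol (by rwa [hc.inv])) (by
      filter_upwards [Metric.ball_mem_nhds _ h.pos] with w hw e
      refine hp _ (h.symm_mem hw).1 fun e' => ?_
      obtain ⟨l, hl⟩ := mem_iUnion.1 e'
      obtain ⟨i, a, b⟩ := (h.iff _ (h.symm_mem hw).1 l).1 hl
      exact e l i a ((h.symm_mem hw).2 ▸ b))
  rw [← h.zero] at h1 h2 h3
  refine ⟨g, _, _, nch_leq h h.src, hc.holF h1, h2, ?_⟩
  filter_upwards [hc.cont.eventually h3, hc.left] with x e1 e2 _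
  simp only [zpow_natCast]
  rwa [e2] at e1

/-- meromorphic functions: `f * m` is holomorphic for a monomial `m` -/
theorem exists_mon_mul {m g : V.T → ℂ} (hm : Mon d V.G n m y) (hg : HolF d g y)
    (h : ∀ᶠ x in 𝓝 y, x ∉ ⋃ l, V.G l → f x ≠ 0 ∧ f x * m x = g x) :
    ∃ k : Fin V.r → ℕ, Mon d V.G (fun l => k l - n l) f y := by
  obtain ⟨k, hk⟩ := exists_mon hg (by
    filter_upwards [h, hm.ne] with x a b c using (a c).2 ▸ mul_ne_zero (a c).1 (b c))
  refine ⟨k, (hk.div hm).congr ?_⟩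
  filter_upwards [h, hm.ne] with x a b c using eq_div_of_mul_eq (b c) (a c).2

/-- meromorphic functions: quotients of holomorphic functions -/
theorem exists_mon_div {a b : V.T → ℂ} (ha : HolF d a y) (hb : HolF d b y)
    (h : ∀ᶠ x in 𝓝 y, x ∉ ⋃ l, V.G l → f x ≠ 0 ∧ b x ≠ 0 ∧ f x * b x = a x) :
    ∃ n, Mon d V.G n f y := by
  obtain ⟨k, hk⟩ := exists_mon hb (h.mono fun _ a c => (a c).2.1)
  obtain ⟨k', hk'⟩ := exists_mon_mul hk ha (h.mono fun _ a c => ⟨(a c).1, (a c).2.2⟩)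
  exact ⟨_, hk'⟩

/-- local data which are unique along the components give global data -/
theorem exists_glob {A : Type*} (P : V.T → (Fin V.r → A) → Prop) (ex : ∀ y, ∃ n, P y n)
    (ev : ∀ y n, P y n → ∀ᶠ x in 𝓝 y, P x n)
    (un : ∀ y n n' l, y ∈ V.G l → P y n → P y n' → n l = n' l)
    (ch : ∀ y n n', P y n → (∀ l, y ∈ V.G l → n l = n' l) → P y n') : ∃ n, ∀ y, P y n := by
  choose N hN using ex
  choose b hb using fun l => (V.connG l).nonempty
  refine ⟨fun l => N (b l) l, fun y => ch y _ _ (hN y) fun l hl => ?_⟩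
  exact (V.connG l).isPreconnected.induction₂ (fun x y => N x l = N y l) (fun x _ =>
    eventually_nhdsWithin_iff.2 ((ev x _ (hN x)).mono fun z a b => un z _ _ l b a (hN z)))
    (fun _ _ _ _ _ _ => Eq.trans) (fun _ _ _ _ => Eq.symm) hl (hb l)

/-- global exponents of a family of germs which agree up to units -/
theorem exists_mon_glob (f : V.T → V.T → ℂ) (hf : ∀ y, ∃ n, Mon d V.G n (f y) y)
    (hc : ∀ y, ∀ᶠ z in 𝓝 y, ∃ u, HolF d u z ∧ u z ≠ 0 ∧
      ∀ᶠ x in 𝓝 z, x ∉ ⋃ l, V.G l → f z x = u x * f y x) : ∃ n, ∀ y, Mon d V.G n (f y) y :=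
  exists_glob _ hf (fun y _ h => by
    filter_upwards [h.eventually, hc y] with z a ⟨u, b, c, e⟩ using a.unit b c e)
    (fun _ _ _ _ a b c => b.unique c a) fun _ _ _ => Mon.change

/-- the same for holomorphic germs -/
theorem exists_mon_globN (f : V.T → V.T → ℂ) (hf : ∀ y, HolF d (f y) y)
    (hne : ∀ y, ∀ᶠ x in 𝓝 y, x ∉ ⋃ l, V.G l → f y x ≠ 0)
    (hc : ∀ y, ∀ᶠ z in 𝓝 y, ∃ u, HolF d u z ∧ u z ≠ 0 ∧
      ∀ᶠ x in 𝓝 z, x ∉ ⋃ l, V.G l → f z x = u x * f y x) :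
    ∃ n : Fin V.r → ℕ, ∀ y, Mon d V.G (fun l => n l) (f y) y := by
  obtain ⟨n, hn⟩ := exists_mon_glob f (fun y => (exists_mon (hf y) (hne y)).elim fun _ h => ⟨_, h⟩) hc
  refine ⟨fun l => (n l).toNat, fun y => (hn y).change fun l hl => ?_⟩
  exact (Int.toNat_of_nonneg ((hn y).nonneg' (holF_cont (hf y)) (by simp) hl)).symm

/-- global exponents of a family of functions on open sets which agree up to units -/
theorem exists_mon_cover {κ : Type*} {U : κ → Set V.T} (hU : ∀ i, IsOpen (U i))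
    (hc : ∀ y, ∃ i, y ∈ U i) (t : κ → V.T → ℂ) (ht : ∀ i, ∀ y ∈ U i, ∃ n, Mon d V.G n (t i) y)
    (hu : ∀ i j, ∀ y ∈ U i, y ∈ U j → ∃ u, HolF d u y ∧ u y ≠ 0 ∧
      ∀ᶠ x in 𝓝 y, x ∉ ⋃ l, V.G l → t j x = u x * t i x) :
    ∃ n, ∀ i, ∀ y ∈ U i, Mon d V.G n (t i) y := by
  choose c hc using hc
  obtain ⟨n, hn⟩ := exists_mon_glob (fun y => t (c y)) (fun y => ht _ y (hc y)) fun y => by
    filter_upwards [(hU _).mem_nhds (hc y)] with z hz using hu _ _ z hz (hc z)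
  refine ⟨n, fun i y hy => ?_⟩
  obtain ⟨u, a, b, e⟩ := hu _ _ y (hc y) hy
  exact (hn y).unit a b e

/-! ### comparison of line bundles -/

section cmp

variable {T : Type} [TopologicalSpace T] [ChartedSpace (Cm d) T] {r : ℕ} {X : Type} {p : T → X}
  {L L' : Bd X} {N N' : Bd T} {G : Fin r → Set T} {n n' : Fin r → ℤ}
  {t t₁ : L.ι → N.ι → T → ℂ} {t' : L'.ι → N'.ι → T → ℂ}

theorem Cmp.pow (h : Cmp d p L N G n t) (k : ℕ) :
    Cmp d p (L.pow k) (N.pow k) G (fun l => k * n l) fun i j y => t i j y ^ k where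
  div y i j a b := (h.div y i j a b).pow k
  change y i i₁ j j₁ a b c e f := by
    rw [h.change y i i₁ j j₁ a b c e f, mul_pow, mul_pow]
    rfl

theorem Cmp.ne (h : Cmp d p L N G n t) {y : T} {i : L.ι} {j : N.ι} (hy : y ∉ ⋃ l, G l)
    (hi : p y ∈ L.U i) (hj : y ∈ N.U j) : t i j y ≠ 0 := (h.div y i j hi hj).ne.self_of_nhds hy

theorem Cmp.of_eq (h : Cmp d p L N G n t) (e : ∀ l, n l = n' l) : Cmp d p L N G n' t :=
  funext e ▸ h

/-- the comparison only depends on the pull back -/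
theorem cmp_pull : Cmp d (fun y : T => y) (pull p L) N G n t ↔ Cmp d p L N G n t :=
  ⟨fun h => ⟨h.1, h.2⟩, fun h => ⟨h.1, h.2⟩⟩

variable [IsManifold 𝓘(ℂ, Cm d) ω T] [T2Space T] [CompactSpace T]

theorem Cmp.mul (h : Cmp d p L N G n t) (h' : Cmp d p L' N' G n' t') :
    Cmp d p (L.mul L') (N.mul N') G (fun l => n l + n' l)
      fun i j y => t i.1 j.1 y * t' i.2 j.2 y where
  div y i j a b := (h.div y _ _ a.1 b.1).mul (h'.div y _ _ a.2 b.2)
  change y i i₁ j j₁ a b c e f := by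
    rw [h.change y _ _ _ _ a b.1 c.1 e.1 f.1, h'.change y _ _ _ _ a b.2 c.2 e.2 f.2]
    simp only [Bd.mul]
    ring

/-- multiplication by a global meromorphic function -/
theorem Cmp.smul (h : Cmp d p L N G n t) {φ : T → ℂ} (hφ : ∀ y, Mon d G n' φ y) :
    Cmp d p L N G (fun l => n' l + n l) fun i j y => φ y * t i j y where
  div y i j a b := (hφ y).mul (h.div y _ _ a b)
  change y i i₁ j j₁ a b c e f := by
    rw [h.change y _ _ _ _ a b c e f]
    ring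

/-- two comparisons differ by one global meromorphic function -/
theorem Cmp.unique' (h : Cmp d p L N G n t) (h' : Cmp d p L N G n' t₁)
    (hL : ∀ y, ∃ i, ∀ᶠ x in 𝓝 y, p x ∈ L.U i) (hN : ∀ y, ∃ j, ∀ᶠ x in 𝓝 y, x ∈ N.U j) :
    ∃ φ : T → ℂ, (∀ y, Mon d G (fun l => n l - n' l) φ y) ∧
      ∀ y i j, y ∉ ⋃ l, G l → p y ∈ L.U i → y ∈ N.U j → t i j y = φ y * t₁ i j y := by
  choose a ha using hL
  choose b hb using hN
  have key : ∀ y i j, y ∉ ⋃ l, G l → p y ∈ L.U i → y ∈ N.U j →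
      t i j y = t (a y) (b y) y / t₁ (a y) (b y) y * t₁ i j y := by
    intro y i j k1 k2 k3
    have k4 := h'.ne k1 (ha y).self_of_nhds (hb y).self_of_nhds
    rw [h.change y _ i _ j k1 (ha y).self_of_nhds k2 (hb y).self_of_nhds k3,
      h'.change y _ i _ j k1 (ha y).self_of_nhds k2 (hb y).self_of_nhds k3]
    field_simp
  refine ⟨_, fun y => ?_, key⟩
  refine ((h.div y _ _ (ha y).self_of_nhds (hb y).self_of_nhds).div
    (h'.div y _ _ (ha y).self_of_nhds (hb y).self_of_nhds)).congr ?_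
  filter_upwards [ha y, hb y] with x k2 k3 k1
  exact eq_div_of_mul_eq (h'.ne k1 k2 k3) (key x _ _ k1 k2 k3).symm

theorem Cmp.unique (h : Cmp d p L N G n t) (h' : Cmp d p L N G n' t₁) (hL : IsLB d (pull p L))
    (hN : IsLB d N) : ∃ φ : T → ℂ, (∀ y, Mon d G (fun l => n l - n' l) φ y) ∧
      ∀ y i j, y ∉ ⋃ l, G l → p y ∈ L.U i → y ∈ N.U j → t i j y = φ y * t₁ i j y :=
  h.unique' h' (fun y => (hL.cover y).imp fun i hi => (hL.isOpen i).mem_nhds hi)
    fun y => (hN.cover y).imp fun j hj => (hN.isOpen j).mem_nhds hj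

end cmp

/-! ### pull back, global functions -/

section md

variable {V' V : Mf d} {n : Fin V.r → ℤ} {f : V.T → ℂ}

theorem Md.offU (h : Md V' V) {y : V'.T} (hy : y ∉ ⋃ l, V'.G l) : h.π y ∉ ⋃ l, V.G l := by
  obtain ⟨ζ, hζ⟩ := V.exEq (h.π y)
  simp only [mem_iUnion, not_exists]
  exact fun l hl => (h.ord y l _ (hζ l)).ne.self_of_nhds hy ((hζ l).mem.2 hl)

theorem Mon.compMd (h : Md V' V) {y : V'.T} (hm : Mon d V.G n f (h.π y)) :
    Mon d V'.G (fun l' => ∑ l, n l * h.o l l') (fun x => f (h.π x)) y := by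
  obtain ⟨ζ, u, h1, h2, h3, h4⟩ := hm
  refine (Mon.prod Finset.univ fun l _ => (h.ord y l _ (h1 l)).zpow (n l)).unit
    (h.hol.2 y u h2) h3 ?_
  filter_upwards [h.hol.1.continuousAt.eventually h4] with x a b using a (h.offU b)

theorem Cmp.compMd (h : Md V' V) {X : Type} {p : V.T → X} {L : Bd X} {N : Bd V.T}
    {t : L.ι → N.ι → V.T → ℂ} (hc : Cmp d p L N V.G n t) :
    Cmp d (fun y => p (h.π y)) L (pull h.π N) V'.G (fun l' => ∑ l, n l * h.o l l')
      fun i j y => t i j (h.π y) where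
  div y i j a b := (hc.div _ i j a b).compMd h
  change y i i₁ j j₁ a := hc.change _ i i₁ j j₁ (h.offU a)

/-- global holomorphic functions are constant -/
theorem Mf.const (hf : ∀ y, HolF d f y) (x y : V.T) : f x = f y := by
  refine MDifferentiable.apply_eq_of_compactSpace (I := 𝓘(ℂ, Cm d)) (fun z => ?_) x y
  rw [mdifferentiableAt_iff]
  exact ⟨holF_cont (hf z), (hf z _ (at_chartAt z)).differentiableAt.differentiableWithinAt⟩

/-- the divisor of a global meromorphic function is effective only if it is zero -/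
theorem Mf.mon_glob (hf : ∀ y, Mon d V.G n f y) (h0 : ∀ l, 0 ≤ n l) (l : Fin V.r) : n l = 0 := by
  choose g h1 h2 h3 using fun y => (hf y).ext fun l _ => h0 l
  have h4 : ∀ y, ∀ᶠ x in 𝓝 y, g y x = g x x := fun y => by
    filter_upwards [holF_ev (h1 y), (h3 y).eventually_nhds] with x a b
    refine V.eq_of_off (holF_cont a) (holF_cont (h1 x)) ?_
    filter_upwards [b, h3 x] with z c e k using (c k).symm.trans (e k)
  obtain ⟨y, hy⟩ := (V.connG l).nonempty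
  obtain ⟨x, hx⟩ := (V.freqU y).exists
  by_contra e
  have h5 := Mf.const (f := fun x => g x x) (fun y => (h1 y).congr (h4 y)) x y
  obtain ⟨k, hk, -⟩ := (h2 x).1 (h5.trans ((h2 y).2 ⟨l, hy, e⟩))
  exact hx (mem_iUnion.2 ⟨k, hk⟩)

end md

section four

variable {V : Mf 4} {X : CSp} {k : ℕ} {p : V.T → X.pt} {L : Fin k → Bd X.pt} {N : Fin k → Bd V.T}
  {n : Fin k → Fin V.r → ℤ}

theorem cmp_iff₀ {t : ∀ e, (L e).ι → (N e).ι → V.T → ℂ} :
    (∀ e, Cmp 4 p (L e) (N e) V.G (n e) (t e)) ↔ T2.IsCmpV p L N V.G n t := by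
  refine ⟨fun h => ⟨fun y => ?_, fun y e => (h e).change y⟩, fun h e =>
    ⟨fun y i j a b => ?_, fun y => h.change y e⟩⟩
  · obtain ⟨ζ, hζ⟩ := V.exEq y
    refine ⟨ζ, hζ, fun e i j a b => ?_⟩
    obtain ⟨u, h1, h2, h3⟩ := ((h e).div y i j a b).any hζ
    exact ⟨u, h2, h1, h3⟩
  · obtain ⟨ζ, h1, h2⟩ := h.div y
    obtain ⟨u, h3, h4, h5⟩ := h2 e i j a b
    exact ⟨ζ, u, h1, h4, h3, h5⟩

theorem cmp_iffH₀ {t : ∀ e, (L e).ι → (N e).ι → V.T → ℂ} :
    (∀ e, Cmp 4 p (L e) (N e) V.G (n e) (t e)) ↔ HD.IsCmpV p L N V.G n t :=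
  cmp_iff₀.trans ⟨fun h => ⟨h.1, h.2⟩, fun h => ⟨h.1, h.2⟩⟩

theorem cmp_iff : (∀ e, ∃ t, Cmp 4 p (L e) (N e) V.G (n e) t) ↔ ∃ t, T2.IsCmpV p L N V.G n t :=
  ⟨fun h => (Classical.axiomOfChoice h).imp fun _ => cmp_iff₀.1,
    fun ⟨t, h⟩ e => ⟨t e, cmp_iff₀.2 h e⟩⟩

theorem cmp_iffH : (∀ e, ∃ t, Cmp 4 p (L e) (N e) V.G (n e) t) ↔ ∃ t, HD.IsCmpV p L N V.G n t :=
  ⟨fun h => (Classical.axiomOfChoice h).imp fun _ => cmp_iffH₀.1,
    fun ⟨t, h⟩ e => ⟨t e, cmp_iffH₀.2 h e⟩⟩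

/-- the monomials of the block VAL -/
theorem mon_iff_val {y : V.T} {f : V.T → ℂ} {m : Fin V.r → ℕ} :
    Val.Mon V.lg y f m ↔ HolF 4 f y ∧ Mon 4 V.G (fun l => m l) f y := by
  refine ⟨fun h => ?_, fun h ζ hζ => ?_⟩
  · obtain ⟨ζ, hζ⟩ := V.exEq y
    obtain ⟨u, h1, h2, h3⟩ := h ζ hζ
    exact ⟨(h1.mul (holF_prod _ fun l _ => holF_npow (hζ l).holF _)).congr (h3.mono fun _ a => a.symm),
      ζ, u, hζ, h1, h2, h3.mono fun x a _ => by simpa only [zpow_natCast] using a⟩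
  · obtain ⟨u, h1, h2, h3⟩ := h.2.any hζ
    exact ⟨u, h1, h2, V.ev_eq_of_off h.1 (h1.mul (holF_prod _ fun l _ =>
      holF_npow (hζ.hol l) _)) (by simpa only [zpow_natCast] using h3)⟩

end four

end Vale.Agent.P277Z.Glc
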