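import Vale.Agent.P277Z.Glc.Hit
import Vale.Agent.P277Z.Glc.Api
import Vale.Agent.P277.A.Dim

/-!
# P277, block GLC: discrepancies under modifications
-/

open scoped Topology
open Vale.Agent.P277 hiding Amin IsFlipR
open Vale.Agent.P277.HD Set Filter

noncomputable section

namespace Vale.Agent.P277Z.Glc

/-! ### general points -/

section gen

variable {d : ℕ} (V : Mf d)

theorem Mf.near_cc {I : Finset (Fin V.r)} {y : V.T} (hy : ∀ l ∈ I, y ∈ V.G l) :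
    ∀ᶠ x in 𝓝 y, (∀ l ∈ I, x ∈ V.G l) → x ∈ V.cc I y := V.ev_cc hy

theorem Mf.gen_ex {I : Finset (Fin V.r)} {y : V.T} (hy : ∀ l ∈ I, y ∈ V.G l) :
    ∃ z ∈ V.cc I y, ∀ l, z ∈ V.G l ↔ l ∈ I := (V.gen_cc (V.mem_cc hy)).exists

theorem Mf.gen_one (l : Fin V.r) : ∃ z, ∀ k, z ∈ V.G k ↔ k = l :=
  (V.connG l).nonempty.elim fun _ hy => (V.gen1 hy).exists

theorem Mf.cc_one {l : Fin V.r} {y : V.T} (hy : y ∈ V.G l) : V.cc {l} y = V.G l := V.cc_single hy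

theorem Mf.card_le' {I : Finset (Fin V.r)} {y : V.T} (hy : ∀ l ∈ I, y ∈ V.G l) : I.card ≤ d :=
  V.card_le hy

theorem Mf.fin_cc (I : Finset (Fin V.r)) :
    {C | ∃ y, (∀ l ∈ I, y ∈ V.G l) ∧ C = V.cc I y}.Finite := V.cc_fin I

end gen

/-! ### orders -/

section md

variable {d : ℕ} {V'' V' V : Mf d}

theorem Md.sub (hP : StPre) (h : Md V' V) {l : Fin V.r} {l' : Fin V'.r} (ho : h.o l l' ≠ 0)
    {y : V'.T} (hy : y ∈ V'.G l') : h.π y ∈ V.G l := (hP d V' V h y l).2 ⟨l', hy, ho⟩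

theorem Md.ST.eq (hJ : StJac) {h : Md V' V} {l : Fin V.r} {l' : Fin V'.r} (s : h.ST l l')
    (k : Fin V.r) : h.o k l' = if k = l then 1 else 0 := by
  have h1 := (hJ d V' V h l').1
  rw [s.1, ← Finset.add_sum_erase _ _ (Finset.mem_univ l)] at h1
  have h2 := s.2
  split_ifs with hk
  · subst hk
    omega
  · have := Finset.single_le_sum (f := fun k => h.o k l') (fun _ _ => Nat.zero_le _)
      (Finset.mem_erase.2 ⟨hk, Finset.mem_univ k⟩)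
    omega

theorem Md.ST.left (hJ : StJac) {h : Md V' V} {l k : Fin V.r} {l' : Fin V'.r} (s : h.ST l l')
    (s' : h.o k l' ≠ 0) : k = l := by
  by_contra hk
  exact s' (by rw [s.eq hJ, if_neg hk])

theorem st_comp (hJ : StJac) {k : Md V'' V} {h' : Md V'' V'} {h : Md V' V}
    (ho : ∀ l l'', k.o l l'' = ∑ l', h.o l l' * h'.o l' l'')
    (hj : ∀ l'', k.J l'' = h'.J l'' + ∑ l', h.J l' * h'.o l' l'') {l : Fin V.r} {l'' : Fin V''.r} :
    k.ST l l'' ↔ ∃ l', h.ST l l' ∧ h'.ST l' l'' := by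
  constructor
  · rintro ⟨h1, h2⟩
    rw [hj, Nat.add_eq_zero_iff, Finset.sum_eq_zero_iff] at h1
    rw [ho] at h2
    obtain ⟨l', -, h3⟩ := Finset.exists_ne_zero_of_sum_ne_zero h2
    rw [mul_ne_zero_iff] at h3
    exact ⟨l', ⟨(mul_eq_zero.1 (h1.2 l' (Finset.mem_univ _))).resolve_right h3.2, h3.1⟩, h1.1, h3.2⟩
  · rintro ⟨l', s, s'⟩
    constructor
    · rw [hj, s'.1]
      simp [s'.eq hJ, s.1]
    · rw [ho]
      simpa [s'.eq hJ] using s.2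

end md

/-! ### discrepancies -/

section hom

variable {D : Dat} {N' N d : ℕ} {W' : Pm D N' d} {W : Pm D N d}

theorem Pm.a_of (W : Pm D N d) {j : ℕ} {l : Fin W.r} (h : ∀ e, W.α j e l = -(D.m e : ℝ)) :
    W.a j l = -1 := by
  simp only [Pm₀.a, h, mul_neg, Finset.sum_neg_distrib, D.sum]

theorem Hom₀.a_eq (h : Hom₀ W' W) {j : ℕ} (hj : j ≤ N) (l' : Fin W'.r) :
    W'.a j l' = ∑ l, h.o l l' * W.a j l + h.J l' := by
  simp only [Pm₀.a, h.crep j hj, mul_add, Finset.sum_add_distrib, Finset.mul_sum]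
  rw [Finset.sum_comm]
  congr 1
  · exact Finset.sum_congr rfl fun l _ => Finset.sum_congr rfl fun e _ => by ring
  · simp only [← mul_assoc, ← Finset.sum_mul, D.sum, one_mul]

theorem Hom₀.α_st (hJ : StJac) (h : Hom₀ W' W) {l : Fin W.r} {l' : Fin W'.r} (s : h.ST l l')
    {j : ℕ} (hj : j ≤ N) (e : Fin D.k) : W'.α j e l' = W.α j e l := by
  rw [h.crep j hj, s.1]
  simp [s.eq hJ]

theorem Hom₀.a_st (hJ : StJac) (h : Hom₀ W' W) {l : Fin W.r} {l' : Fin W'.r} (s : h.ST l l')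
    {j : ℕ} (hj : j ≤ N) : W'.a j l' = W.a j l := by
  simp only [Pm₀.a, h.α_st hJ s hj]

theorem Hom₀.a_J0 (h : Hom₀ W' W) {l' : Fin W'.r} (h0 : h.J l' = 0) {j : ℕ}
    (hj : j ≤ N) : W'.a j l' = 0 ∨ ∃ l, h.ST l l' := by
  by_cases h1 : ∃ l, h.o l l' ≠ 0
  · exact Or.inr (h1.imp fun l hl => ⟨h0, hl⟩)
  · push Not at h1
    exact Or.inl (by simp [h.a_eq hj, h1, h0])

theorem Hom₀.lc_up (hJ : StJac) (h : Hom₀ W' W) {l' : Fin W'.r} {j : ℕ} (hj : j ≤ N)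
    (hl : W'.a j l' = -1) : (∀ l, h.o l l' ≠ 0 → W.a j l = -1) ∧ ∑ l, h.o l l' = h.J l' + 1 := by
  have h1 : ((∑ l, h.o l l' : ℕ) : ℝ) ≤ (h.J l' + 1 : ℕ) := Nat.cast_le.2 (hJ d _ _ h.toMd l').1
  have h2 : ∀ l ∈ Finset.univ, (0 : ℝ) ≤ h.o l l' * (W.a j l + 1) := fun l _ =>
    mul_nonneg (Nat.cast_nonneg _) (by linarith [W.lc' hj l])
  have h3 : ∑ l, (h.o l l' : ℝ) * (W.a j l + 1) = ∑ l, (h.o l l' : ℝ) - (h.J l' + 1) := by
    rw [h.a_eq hj] at hl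
    simp only [mul_add, mul_one, Finset.sum_add_distrib]
    linarith
  have h4 := Finset.sum_nonneg h2
  push_cast at h1
  have h5 : ∑ l, (h.o l l' : ℝ) * (W.a j l + 1) = 0 := by linarith
  refine ⟨fun l ho => ?_, ?_⟩
  · have := (Finset.sum_eq_zero_iff_of_nonneg h2).1 h5 l (Finset.mem_univ l)
    rcases mul_eq_zero.1 this with e | e
    · exact absurd (Nat.cast_eq_zero.1 e) ho
    · linarith
  · have : ∑ l, (h.o l l' : ℝ) = h.J l' + 1 := by linarith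
    exact_mod_cast this

theorem Hom₀.lc_ex (hJ : StJac) (h : Hom₀ W' W) {l' : Fin W'.r} {j : ℕ} (hj : j ≤ N)
    (hl : W'.a j l' = -1) : ∃ l, h.o l l' ≠ 0 ∧ W.a j l = -1 := by
  obtain ⟨h1, h2⟩ := h.lc_up hJ hj hl
  obtain ⟨l, -, h3⟩ := Finset.exists_ne_zero_of_sum_ne_zero (h2.trans_ne (Nat.succ_ne_zero _))
  exact ⟨l, h3, h1 l h3⟩

theorem Hom₀.adjw (hJ : StJac) (h : Hom₀ W' W) (hW : W.Adjw) : W'.Adjw := by
  intro l' hl e
  obtain ⟨h1, h2⟩ := h.lc_up hJ (Nat.zero_le N) hl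
  have h3 : ∀ l, (h.o l l' : ℝ) * W.α 0 e l = h.o l l' * -(D.m e : ℝ) := fun l => by
    by_cases ho : h.o l l' = 0
    · simp [ho]
    · rw [hW l (h1 l ho) e]
  have h4 : ∑ l, (h.o l l' : ℝ) = h.J l' + 1 := by exact_mod_cast h2
  rw [h.crep 0 (Nat.zero_le N)]
  simp only [h3, ← Finset.sum_mul, h4]
  ring

theorem Pm.adjN (W : Pm D N d) (hW : W.Adjw) {l : Fin W.r} (hl : W.a N l = -1) :
    ∀ j ≤ N, ∀ e, W.α j e l = -(D.m e : ℝ)
  | 0, _, e => hW l (W.lc_of (Nat.zero_le N) le_rfl hl) e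
  | j + 1, hj, e => by
    obtain ⟨z, hz⟩ := W.gen_one l
    have h1 : z ∈ W.U := fun k hk => (hz k).1 hk ▸ hl
    rw [← W.const j hj l ⟨z, (hz l).2 rfl, W.U_not_fl h1 hj⟩ e]
    exact W.adjN hW hl j (by omega) e

/-- the local lemma -/
theorem Hom₀.loc (hP : StPre) (hJ : StJac) {W : Pm D 0 d} (h : Hom₀ W' W) (hG : W.Gd)
    {l' : Fin W'.r} (h0 : W'.a 0 l' < 0) (h1 : ∀ l, W.a 0 l = -1 → h.o l l' = 0) :
    ∃ l, W.a 0 l ≠ -1 ∧ h.ST l l' := by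
  rw [h.a_eq le_rfl] at h0
  obtain ⟨l, hl⟩ : ∃ l, h.o l l' * W.a 0 l < 0 := by
    by_contra hc
    push Not at hc
    have := Finset.sum_nonneg fun l (_ : l ∈ Finset.univ) => hc l
    linarith [(Nat.cast_nonneg (h.J l') : (0 : ℝ) ≤ _)]
  have ho : h.o l l' ≠ 0 := fun e => by simp [e] at hl
  have hn : ∀ k, h.o k l' ≠ 0 → -1 < W.a 0 k := fun k hk =>
    lt_of_le_of_ne (W.lc k) fun e => hk (h1 k e.symm)
  have hpos : (0 : ℝ) < h.o l l' := Nat.cast_pos.2 (Nat.pos_of_ne_zero ho)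
  have hl0 : W.a 0 l < 0 := by
    by_contra hc
    exact absurd hl (not_lt.2 (mul_nonneg hpos.le (not_lt.1 hc)))
  refine ⟨l, (hn l ho).ne', ?_, ho⟩
  by_contra hc
  have h2 : (h.o l l' : ℝ) ≤ h.J l' := Nat.cast_le.2 ((hJ d _ _ h.toMd l').2 hc l)
  have h3 : 0 ≤ ∑ k ∈ Finset.univ.erase l, h.o k l' * W.a 0 k := Finset.sum_nonneg fun k hk => by
    by_cases hk0 : h.o k l' = 0
    · simp [hk0]
    · refine mul_nonneg (Nat.cast_nonneg _) (not_lt.1 fun hk1 => ?_)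
      obtain ⟨y, hy⟩ := (W'.connG l').nonempty
      exact Set.disjoint_left.1 (hG k l (Finset.ne_of_mem_erase hk) (hn k hk0) hk1 (hn l ho) hl0)
        (h.sub hP hk0 hy) (h.sub hP ho hy)
  rw [← Finset.add_sum_erase _ _ (Finset.mem_univ l)] at h0
  nlinarith [hn l ho]

theorem Hom.U_down (hP : StPre) (hJ : StJac) (h : Hom W' W) {y : W'.T} (hy : y ∈ W'.U) :
    h.π y ∈ W.U := by
  intro l hl
  obtain ⟨l', h1, h2⟩ := (hP d _ _ h.toMd y l).1 hl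
  exact (h.lc_up hJ le_rfl (W'.lc_of h.le le_rfl (hy l' h1))).1 l h2

theorem Hom₀.unh (hP : StPre) (hJ : StJac) {W : Pm D 0 d} (h : Hom₀ W' W) (hW : W.Unh)
    {l' : Fin W'.r} (hl : W'.a 0 l' = -1) {y : W'.T} (hy : y ∈ W'.G l') : W'.p 0 y ∉ D.hit := by
  obtain ⟨l, h1, h2⟩ := h.lc_ex hJ le_rfl hl
  rw [← h.hp 0 le_rfl]
  exact hW l h2 _ (h.sub hP h1 hy)

end hom

/-! ### exceptional components -/

section exc

variable {D : Dat} {N' N : ℕ} {W' : Pm D N' 4} {W : Pm D N 4}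

theorem Pm.exc_iff (hE : StExc) (W : Pm D N 4) (l : Fin W.r) {i j : ℕ} (h : i ≤ j) (hj : j ≤ N) :
    W.Exc i l ↔ W.Exc j l := by
  induction j, h using Nat.le_induction with
  | base => exact Iff.rfl
  | succ j _ ih => exact (ih (by omega)).trans ((hE D N W l).1 j hj)

theorem Pm.a_nexc (hE : StExc) (W : Pm D N 4) {l : Fin W.r} (hl : ¬ W.Exc N l) {i j : ℕ}
    (h : i ≤ j) (hj : j ≤ N) : W.a i l = W.a j l := by
  induction j, h using Nat.le_induction with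
  | base => rfl
  | succ j _ ih =>
    rw [ih (by omega)]
    have h1 : ∃ y ∈ W.G l, ¬ D.Fl j (W.p j y) := by
      by_contra hc
      push Not at hc
      exact hl ((W.exc_iff hE l (by omega) le_rfl).1 ((hE D N W l).2.1 j (by omega) hc))
    simp only [Pm₀.a, W.const j hj l h1]

theorem Hom₀.nexc (hP : StPre) (hJ : StJac) (hT : StThin) (hE : StExc) (h : Hom₀ W' W)
    {l' : Fin W'.r} (hl : ¬ W'.Exc N' l') :
    W'.a N' l' = 0 ∨ ∃ l, ¬ W.Exc N l ∧ W'.a N' l' = W.a N l := by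
  have h1 : ¬ W'.Exc N l' := fun e => hl ((W'.exc_iff hE l' h.le le_rfl).1 e)
  have h2 : (fun y => W.p N (h.π y)) = W'.p N := funext (h.hp N le_rfl)
  have h3 : h.J l' = 0 := by
    by_contra hc
    obtain ⟨k, hk, h4⟩ := hT 4 _ _ h.toMd l' hc _ (W.p N) (W.hol N le_rfl)
    obtain rfl : k = 2 := by omega
    rw [h2] at h4
    exact h1 h4
  rw [← W'.a_nexc hE hl h.le le_rfl]
  refine (h.a_J0 h3 le_rfl).imp id fun ⟨l, s⟩ => ⟨l, fun e => h1 ?_, h.a_st hJ s le_rfl⟩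
  refine DimLe.mono e ?_
  rintro _ ⟨y, hy, rfl⟩
  exact ⟨h.π y, h.sub hP s.2 hy, h.hp N le_rfl y⟩

theorem Hom₀.eff (hP : StPre) (hJ : StJac) (hT : StThin) (hE : StExc) (h : Hom₀ W' W)
    (hW : W.Eff) : W'.Eff := fun _ hl =>
  (h.nexc hP hJ hT hE hl).elim le_of_eq fun ⟨l, h1, h2⟩ => h2 ▸ hW l h1

end exc

end Vale.Agent.P277Z.Glc
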