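import Vale.Agent.P277Z.Glc.Api

/-!
# P277, block GLC: preimages of components, composition of modifications
-/

set_option linter.unusedSectionVars false

open scoped Manifold ContDiff Topology
open Vale.Agent.P277 hiding Amin IsFlipR
open Vale.Agent.P277.HD Vale.Agent.P277.PH
open Vale.Agent.P272.K Vale.Agent.P285.H281.FD Set Filter
open Vale.Agent.P277Z.Slc (LEq)
open Vale.Agent.P277Z.Val (holF_cont holF_ev)

noncomputable section

namespace Vale.Agent.P277Z.Glc

/-- **(PRE)** -/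
theorem pre : StPre := by
  intro d V' V h y l
  obtain ⟨ζ, hζ⟩ := V.exEq (h.π y)
  obtain ⟨g, h1, h2, h3⟩ := (h.ord y l _ (hζ l)).ext fun _ _ => Int.natCast_nonneg _
  have h4 := V'.eq_of_off (holF_cont (h.hol.2 y _ (hζ l).holF)) (holF_cont h1) h3
  rw [← (hζ l).mem, show ζ l (h.π y) = g y from h4, h2]
  simp only [Ne, Nat.cast_eq_zero]

variable {d : ℕ} {V'' V' V : Mf d}

theorem Md.pre (h : Md V' V) {y : V'.T} (hy : y ∉ ⋃ l, V'.G l) : h.π y ∉ ⋃ l, V.G l := fun k =>
  let ⟨l, hl⟩ := mem_iUnion.1 k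
  let ⟨l', h1, _⟩ := (Glc.pre d V' V h y l).1 hl
  hy (mem_iUnion.2 ⟨l', h1⟩)

/-- the pull back of a monomial -/
theorem Md.mon (h : Md V' V) {y : V'.T} {n : Fin V.r → ℤ} {f : V.T → ℂ}
    (hf : Mon d V.G n f (h.π y)) :
    Mon d V'.G (fun l' => ∑ l, n l * h.o l l') (fun x => f (h.π x)) y := by
  obtain ⟨ζ, u, h1, h2, h3, h4⟩ := hf
  refine (Mon.prod Finset.univ fun l _ => (h.ord y l _ (h1 l)).zpow (n l)).unit
    (h.hol.2 y _ h2) h3 ?_
  exact (h.hol.1.continuousAt.eventually h4).mono fun x a b => a (h.pre b)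

theorem HolM.an {d' : ℕ} {V : Mf d} {V' : Mf d'} {π : V'.T → V.T} (h : HolM d' d π) {y : V'.T}
    {e' : Chart d' V'.T} {e : Chart d V.T} (he' : At e' y) (he : At e (π y)) :
    AnalyticAt ℂ (fun z => e (π (e'.symm z))) (e' y) :=
  analyticAt_pi_iff.2 fun i => h.2 y _ (Val.holF_chart he i) _ he'

theorem ev_at {V : Mf d} {e : Chart d V.T} {x : V.T} (he : At e x) : ∀ᶠ z in 𝓝 x, At e z :=
  (e.open_source.eventually_mem he.2).mono fun _ h => ⟨he.1, h⟩

/-- the chain rule -/
theorem jac_comp {π : V'.T → V.T} {σ : V''.T → V'.T} (h : HolM d d π) (h' : HolM d d σ)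
    {x : V''.T} {e'' : Chart d V''.T} {e' : Chart d V'.T} {e : Chart d V.T} (he'' : At e'' x)
    (he' : At e' (σ x)) (he : At e (π (σ x))) :
    (fderiv ℂ (fun z => e (π (σ (e''.symm z)))) (e'' x)).det =
      (fderiv ℂ (fun z => e (π (e'.symm z))) (e' (σ x))).det *
        (fderiv ℂ (fun z => e' (σ (e''.symm z))) (e'' x)).det := by
  have h3 := Val.det_comp (φ := fun z => e (π (e'.symm z))) (θ := fun z => e' (σ (e''.symm z)))
    (w := e'' x) (by rw [e''.left_inv he''.2]; exact (h.an he' he).differentiableAt)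
    (h'.an he'' he').differentiableAt
  rw [e''.left_inv he''.2] at h3
  refine Eq.trans (congrArg ContinuousLinearMap.det (EventuallyEq.fderiv_eq ?_)) h3
  filter_upwards [PH.ev_symm he''.2
    (h'.1.continuousAt.eventually (e'.eventually_left_inverse he'.2))] with z hz
  rw [hz]

/-- the identity -/
def Md.refl (V : Mf d) : Md V V where
  π y := y
  hol := ⟨continuous_id, fun _ _ h => h⟩
  surj := Function.surjective_id
  o l l' := if l = l' then 1 else 0
  J _ := 0
  ord y l ζ h := by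
    simp only [Nat.cast_ite, Nat.cast_one, Nat.cast_zero]
    exact Mf.mon_leq h
  jac y e' e he' he := Mf.mon_unit ((Val.crd_chart he').holF (Val.an_jac (chg_analyticAt he he')))
    ((Val.crd_chart he').chg (Val.crd_chart he)).2
  inj₀ _ _ _ h := h

/-- the composition -/
def Md.comp (h : Md V' V) (h' : Md V'' V') : Md V'' V where
  π y := h.π (h'.π y)
  hol := ⟨h.hol.1.comp h'.hol.1, fun y g hg => h'.hol.2 y _ (h.hol.2 _ g hg)⟩
  surj := h.surj.comp h'.surj
  o l l'' := ∑ l', h.o l l' * h'.o l' l''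
  J l'' := h'.J l'' + ∑ l', h.J l' * h'.o l' l''
  ord y l ζ hζ := by
    simp only [Nat.cast_sum, Nat.cast_mul]
    exact h'.mon (h.ord _ l ζ hζ)
  jac y e'' e he'' he := by
    have he' := PH.at_chartAt (n := d) (h'.π y)
    have h1 := (h'.jac y e'' _ he'' he').mul (h'.mon (h.jac _ _ e he' he))
    simp only [Nat.cast_add, Nat.cast_sum, Nat.cast_mul]
    refine h1.congr ?_
    filter_upwards [ev_at he'', h'.hol.1.continuousAt.eventually (ev_at he'),
      (h.hol.1.comp h'.hol.1).continuousAt.eventually (ev_at he)] with x a b c _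
    rw [jac_comp h.hol h'.hol a b c, mul_comm]
  inj₀ y hy y' e := h'.inj₀ y hy y' (h.inj₀ _ (h'.pre hy) _ e)

end Vale.Agent.P277Z.Glc
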