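import Vale.Agent.P277Z.Glc.SurjA
import Vale.Agent.P277Z.Slc.Basic
import Vale.Agent.P277.H60.Z.XH

/-!
# P277, block GLC: strict transforms of strata
-/

set_option linter.unusedSectionVars false

open scoped Manifold ContDiff Topology
open Vale.Agent.P272.K Set Filter Metric
open Vale.Agent.P277.PH (HolF at_chartAt)
open Vale.Agent.P277.T3 (ThinM thinM_iUnion thinM_empty)
open Vale.Agent.P277.H60.Z (XH thinM_iff)
open Vale.Agent.P277Z.Val (AnM Crd holF_cont crd_chart an_jac)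
open Vale.Agent.P277Z.Val.U (conn_prop thinM_image an_loc crd_pull)

noncomputable section

namespace Vale.Agent.P277Z.Glc

namespace Sj

variable {d : ℕ}

/-- a function which vanishes on two coordinate hyperplanes has a critical point -/
theorem fderiv_zero {F : Cm d → ℂ} (hF : DifferentiableAt ℂ F 0) {i j : Fin d} (hij : i ≠ j)
    (hi : ∀ᶠ w in 𝓝 (0 : Cm d), w i = 0 → F w = 0) (hj : ∀ᶠ w in 𝓝 (0 : Cm d), w j = 0 → F w = 0)
    (v : Cm d) : fderiv ℂ F 0 v = 0 := by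
  have key : ∀ i, (∀ᶠ w in 𝓝 (0 : Cm d), w i = 0 → F w = 0) → ∀ v : Cm d, v i = 0 →
      fderiv ℂ F 0 v = 0 := fun i hi v hv => by
    have h1 : HasDerivAt (fun t : ℂ => t • v) v 0 := by
      simpa using (hasDerivAt_id (0 : ℂ)).smul_const v
    have h2 : HasDerivAt (fun t : ℂ => F (t • v)) (fderiv ℂ F 0 v) 0 :=
      HasFDerivAt.comp_hasDerivAt_of_eq (0 : ℂ) hF.hasFDerivAt h1 (zero_smul ℂ v).symm
    have h3 : Tendsto (fun t : ℂ => t • v) (𝓝 0) (𝓝 0) := by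
      simpa using h1.continuousAt.tendsto
    refine h2.unique ((hasDerivAt_const (0 : ℂ) (0 : ℂ)).congr_of_eventuallyEq ?_)
    exact (h3.eventually hi).mono fun t ht => ht (by simp [hv])
  have e : v = (v - Pi.single i (v i)) + Pi.single i (v i) := (sub_add_cancel _ _).symm
  rw [e, map_add, key i hi _ (by simp), key j hj _ (by simp [hij.symm]), add_zero]

variable {V' V : Mf d} (h : Md V' V)

theorem holM (y : V'.T) : Val.HolM d d h.π y := ⟨h.hol.1.continuousAt, h.hol.2 y⟩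

theorem freqE (V : Mf d) (y : V.T) : ∃ᶠ x in 𝓝 y, x ∉ ⋃ l, V.G l :=
  (V.snc.freq ∅ (by simp)).mono fun x h => by simpa using h

theorem ev_sub (V : Mf d) (y : V.T) : ∀ᶠ x in 𝓝 y, ∀ l, x ∈ V.G l → y ∈ V.G l := by
  obtain ⟨Φ, ρ, lab, h, -⟩ := V.snc.nch y (Eventually.of_forall fun _ => trivial)
  filter_upwards [h.nhds] with x hx l using h.sub hx

theorem mon_ne {n : Fin V.r → ℕ} {f : V.T → ℂ} {y : V.T} (hm : Mon d V.G (fun l => n l) f y)
    (hf : ContinuousAt f y) (hy : ∀ l, y ∈ V.G l → n l = 0) : f y ≠ 0 := by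
  obtain ⟨ζ, u, h1, h2, h3, h4⟩ := hm
  simp only [zpow_natCast] at h4
  have h5 : ContinuousAt (fun x => u x * ∏ l, ζ l x ^ n l) y :=
    (holF_cont h2).mul (tendsto_finsetProd _ fun l _ => (holF_cont (h1 l).hol).pow _)
  rw [tendsto_nhds_unique_of_frequently_eq hf h5
    (((freqE V y).and_eventually h4).mono fun _ a => a.2 a.1)]
  refine mul_ne_zero h3 (Finset.prod_ne_zero_iff.2 fun l _ a => ?_)
  obtain ⟨b, c⟩ := pow_eq_zero_iff'.1 a
  exact c (hy l ((h1 l).mem.1 b))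

variable {z : V'.T}

/-- `π` is a local isomorphism where the Jacobian does not vanish -/
theorem li (hz : ∀ l, z ∈ V'.G l → h.J l = 0) {c : V.T → Cm d} {ξ : Cm d → V.T}
    (hc : Crd c ξ (h.π z)) : ∃ ξ₂, Crd (fun y => c (h.π y)) ξ₂ z := by
  have he' := at_chartAt (n := d) z
  have he := at_chartAt (n := d) (h.π z)
  have h1 := an_loc (holM h z) (crd_chart he') (crd_chart he)
  exact crd_pull (holM h z) (crd_chart he') hc (Val.U.locIso_chg (holM h z) (crd_chart he')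
    (crd_chart he') (crd_chart he) hc ⟨h1, mon_ne (h.jac z _ _ he' he)
      (holF_cont ((crd_chart he').holF (an_jac h1))) hz⟩)

theorem sec (hz : ∀ l, z ∈ V'.G l → h.J l = 0) : ∃ σ : V.T → V'.T,
    Tendsto σ (𝓝 (h.π z)) (𝓝 z) ∧ ∀ᶠ x in 𝓝 (h.π z), h.π (σ x) = x := by
  have hc := crd_chart (at_chartAt (n := d) (h.π z))
  obtain ⟨ξ₂, h2⟩ := li h hz hc
  have h3 : Tendsto (fun x => ξ₂ (chartAt (Cm d) (h.π z) x)) (𝓝 (h.π z)) (𝓝 z) :=
    h2.tend.comp hc.cont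
  refine ⟨_, h3, ?_⟩
  filter_upwards [hc.cont.eventually h2.right, hc.left,
    (h.hol.1.continuousAt.tendsto.comp h3).eventually hc.left] with x e1 e2 e3
  exact e3.symm.trans ((congrArg _ e1).trans e2)

/-- the fibre through such a point is a point -/
theorem inj (hz : ∀ l, z ∈ V'.G l → h.J l = 0) {y : V'.T} (e : h.π y = h.π z) : y = z := by
  by_contra hne
  obtain ⟨σ, h1, h2⟩ := sec h hz
  obtain ⟨N₁, N, o1, o2, m1, m2, hd⟩ := t2_separation hne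
  have h3 : Tendsto h.π (𝓝 y) (𝓝 (h.π z)) := e ▸ h.hol.1.continuousAt
  obtain ⟨y', e1, e2, e3, e4⟩ := ((freqE V' y).and_eventually ((h3.eventually h2).and
    (((h1.comp h3).eventually (o2.mem_nhds m2)).and (o1.mem_nhds m1)))).exists
  have e5 := h.inj₀ y' e1 _ e2
  exact Set.disjoint_left.1 hd e4 (e5 ▸ e3)

/-- there is only one branch over a component -/
theorem one (hP : StPre) (hz : ∀ l, z ∈ V'.G l → h.J l = 0) {l : Fin V.r} {l₁ l₂ : Fin V'.r}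
    (h1 : z ∈ V'.G l₁) (h2 : z ∈ V'.G l₂) (o1 : h.o l l₁ ≠ 0) (o2 : h.o l l₂ ≠ 0) : l₁ = l₂ := by
  by_contra hne
  obtain ⟨Φ, ρ, lab, hΦ, -⟩ := V.snc.nch (h.π z) (Eventually.of_forall fun _ => trivial)
  obtain ⟨Ψ, ρ', lab', hΨ, -⟩ := V'.snc.nch z (Eventually.of_forall fun _ => trivial)
  obtain ⟨a, ha⟩ := hΦ.mem.1 (h.sub hP o1 h1)
  obtain ⟨i, hi⟩ := hΨ.mem.1 h1
  obtain ⟨j, hj⟩ := hΨ.mem.1 h2
  obtain ⟨ξ₂, h3⟩ := li h hz (hΦ.crd _ hΦ.src)
  have h4 := hΨ.crd _ hΨ.src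
  have h5 := h4.chg h3
  have key : ∀ l' i, lab' l' = some i → h.o l l' ≠ 0 → ∀ᶠ w in 𝓝 (Ψ z), w i = 0 →
      Φ (h.π (Ψ.symm w)) a = 0 := fun l' i b c => by
    filter_upwards [h4.right, h4.tend.eventually hΨ.nhds,
      (h.hol.1.continuousAt.tendsto.comp h4.tend).eventually hΦ.nhds] with w e1 e2 e3 e4
    exact (hΦ.iff1 ha e3).1 (h.sub hP c ((hΨ.iff1 b e2).2 (e1.symm ▸ e4)))
  rw [hΨ.zero] at h5 key
  obtain ⟨v, hv⟩ := (LinearMap.equivOfDetNeZero (fderiv ℂ (fun w => Φ (h.π (Ψ.symm w))) 0 :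
    Cm d →ₗ[ℂ] Cm d) h5.2).surjective (Pi.single a 1)
  have h6 := hasFDerivAt_pi'.1 h5.1.differentiableAt.hasFDerivAt a
  have h7 := fderiv_zero h6.differentiableAt
    (fun e : i = j => hne (hΨ.inj _ _ j (e ▸ hi) hj)) (key _ _ hi o1)
    (key _ _ hj o2) v
  have h8 : fderiv ℂ (fun w => Φ (h.π (Ψ.symm w))) 0 v = Pi.single a 1 := hv
  simp [h6.fderiv, h8] at h7

variable {I : Finset (Fin V.r)} {I' : Finset (Fin V'.r)}

/-- the image of a stratum is open at the general points -/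
theorem opn (hP : StPre) (hO : h.Over I I') {y : V'.T} (hy : z ∈ V'.cc I' y)
    (hz : ∀ l, z ∈ V'.G l → l ∈ I') :
    ∀ᶠ x in 𝓝 (h.π z), (∀ l ∈ I, x ∈ V.G l) → x ∈ h.π '' V'.cc I' y := by
  have h0 : ∀ l, z ∈ V'.G l → h.J l = 0 := fun l a => (hO.2 l (hz l a)).elim fun _ b => b.2.1
  obtain ⟨σ, h1, h2⟩ := sec h h0
  filter_upwards [h2, h1.eventually ((ev_sub V' z).and (V'.near_cc (V'.cc_sub hy)))] with
    x e1 e2 e3
  refine ⟨σ x, V'.cc_eq hy ▸ e2.2 fun l' hl' => ?_, e1⟩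
  obtain ⟨l, a, b⟩ := hO.2 l' hl'
  obtain ⟨k, c, e⟩ := (hP d V' V h (σ x) l).1 (e1.symm ▸ e3 l a)
  exact one h hP h0 (e2.1 k c) (V'.cc_sub hy l' hl') e b.2 ▸ c

theorem card_le (hJ : StJac) (hO : h.Over I I') : I.card ≤ I'.card := by
  choose f h1 h2 using hO.1
  have := Fintype.card_le_of_injective (fun l : I => (⟨f l l.2, h1 l l.2⟩ : I')) fun l k e =>
    Subtype.ext ((h2 k k.2).left hJ ((show f l l.2 = f k k.2 from congrArg Subtype.val e) ▸
      (h2 l l.2).2))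
  simpa using this

end Sj

open Sj

/-- (SURJ) -/
theorem surj_of (hP : StPre) (hJ : StJac) : StSurj := by
  classical
  intro d V' V h I I' hO y hy
  have h1 : ∀ z ∈ V'.cc I' y, ∀ l ∈ I, h.π z ∈ V.G l := fun z hz l hl =>
    (hO.1 l hl).elim fun l' a => h.sub hP a.2.2 (V'.cc_sub hz l' a.1)
  have h2 : h.π '' V'.cc I' y ⊆ V.cc I (h.π y) :=
    (isPreconnected_connectedComponentIn.image _ h.hol.1.continuousOn).subset_connectedComponentIn
      ⟨y, V'.mem_cc hy, rfl⟩ (image_subset_iff.2 h1)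
  refine h2.antisymm ?_
  have h3 : IsClosed (h.π '' V'.cc I' y) := ((closed_cc V' I' y).isCompact.image h.hol.1).isClosed
  have h4 : ∀ z ∈ V'.cc I' y, (∀ l, z ∈ V'.G l → l ∈ I') →
      ∀ᶠ x in 𝓝 (h.π z), x ∈ V.cc I (h.π y) → x ∈ h.π '' V'.cc I' y := fun z a b =>
    (opn h hP hO a b).mono fun x c e => c (V.cc_sub e)
  have h5 := card_le h hJ hO
  obtain ⟨k, hk⟩ := Nat.exists_eq_add_of_le' (V.card_le' (h1 y (V'.mem_cc hy)))
  have h6 : ∀ z ∈ V'.cc I' y, ∀ l, z ∈ V'.G l → ∀ k ∈ insert l I', z ∈ V'.G k := fun z a l b =>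
    Finset.forall_mem_insert _ _ _ |>.2 ⟨b, V'.cc_sub a⟩
  rcases k with _ | m
  · refine conn_prop isPreconnected_connectedComponentIn (p := fun x => x ∈ h.π '' V'.cc I' y)
      ?_ (fun x _ a => h3.closure_subset (mem_closure_iff_frequently.2 (a.mono fun _ b => b.2)))
      (V.mem_cc (h1 y (V'.mem_cc hy))) ⟨y, V'.mem_cc hy, rfl⟩
    rintro _ - ⟨z, a, rfl⟩
    refine h4 z a fun l b => by_contra fun c => ?_
    have := V'.card_le' (h6 z a l b)
    rw [Finset.card_insert_of_notMem c] at this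
    omega
  · obtain ⟨z₀, a1, a2⟩ := V'.gen_ex hy
    refine conn_thin (B := h.π '' ⋃ l : {l // l ∉ I'}, {z | ∀ k ∈ insert l.1 I', z ∈ V'.G k})
      isPreconnected_connectedComponentIn (fun x hx => par_cc V hk.symm hx)
      (thinM_image (thinM_iUnion fun l => thin_st V' ?_) (holM h)) h3 ?_ (h2 ⟨z₀, a1, rfl⟩)
      (h4 z₀ a1 fun l => (a2 l).1)
    · rw [Finset.card_insert_of_notMem l.2]
      omega
    · rintro _ - ⟨z, a, rfl⟩ b
      exact h4 z a fun l c => by_contra fun e => b ⟨z, mem_iUnion.2 ⟨⟨l, e⟩, h6 z a l c⟩, rfl⟩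

/-- (UNIQ) -/
theorem uniq_of (hP : StPre) (_hJ : StJac) (hT : StThin) (hS : StSurj) : StUniq := by
  intro d V' V h l
  refine existsUnique_of_exists_of_unique (by_contra fun hcon => ?_) fun l₁ l₂ s₁ s₂ => ?_
  · have h1 : ∀ l', h.o l l' ≠ 0 → ∃ m, m + 2 = d ∧ ThinM d m (h.π '' V'.G l') := fun l' a =>
      (hT d V' V h l' (fun b => hcon ⟨l', b, a⟩) (XH d V.T) (fun x => x)
        ⟨continuous_id, fun _ _ b => b⟩).imp fun _ b => ⟨b.1, thinM_iff.2 b.2⟩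
    obtain ⟨x, hx⟩ := (V.connG l).nonempty
    obtain ⟨y, rfl⟩ := h.surj x
    obtain ⟨l', -, a⟩ := (hP d V' V h y l).1 hx
    obtain ⟨m, rfl, -⟩ := h1 l' a
    have h2 : ∀ k ∈ ({l} : Finset _), h.π y ∈ V.G k := by simpa using hx
    obtain ⟨c, γ, h3⟩ := par_st V (k := m + 1) (by simp) h2
    obtain ⟨x, b1, b2⟩ := h3.not_thin h2 (thinM_iUnion fun k : {k // h.o l k ≠ 0} =>
      (h1 k k.2).elim fun m' b => (by omega : m' = m) ▸ b.2) (Nat.lt_succ_self m)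
    obtain ⟨z, rfl⟩ := h.surj x
    obtain ⟨k, b3, b4⟩ := (hP _ V' V h z l).1 (b1 l (Finset.mem_singleton_self l))
    exact b2 (mem_iUnion.2 ⟨⟨k, b4⟩, z, b3, rfl⟩)
  · obtain ⟨z, hz⟩ := V'.gen_one l₂
    obtain ⟨y, hy⟩ := (V'.connG l₁).nonempty
    have h1 := hS d V' V h {l} {l₁} ⟨by simpa using s₁, by simpa using s₁⟩ y (by simpa using hy)
    rw [V'.cc_one hy, V.cc_one (h.sub hP s₁.2 hy)] at h1
    obtain ⟨x, a, b⟩ : h.π z ∈ h.π '' V'.G l₁ := h1 ▸ h.sub hP s₂.2 ((hz l₂).2 rfl)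
    exact (hz l₁).1 (inj h (fun k c => (hz k).1 c ▸ s₂.1) b ▸ a)

end Vale.Agent.P277Z.Glc
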