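import Vale.Agent.P277Z.Glc.Adj3
import Vale.Agent.P277Z.Glc.BIso

/-!
# P277, GLC: adjunction on the strata
-/

set_option linter.unusedSectionVars false

open scoped Manifold ContDiff Topology
open Vale.Agent.P272.K Vale.Agent.P285.H281.FD Vale.Agent.P277 Set Filter
open Vale.Agent.P277.HD (pull)
open Vale.Agent.P277.PH (HolF at_chartAt ev_symm)
open Vale.Agent.P277Z.Slc (LEq)
open Vale.Agent.P277Z.Val (IsSnc Sb crd_chart)

noncomputable section

namespace Vale.Agent.P277Z.Glc.Ad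

section sb
variable {a b c : ℕ} {A B C : Type} [TopologicalSpace A] [ChartedSpace (Cm a) A]
  [IsManifold 𝓘(ℂ, Cm a) ω A] [TopologicalSpace B] [ChartedSpace (Cm b) B]
  [IsManifold 𝓘(ℂ, Cm b) ω B] [TopologicalSpace C] [ChartedSpace (Cm c) C]
  [IsManifold 𝓘(ℂ, Cm c) ω C]

theorem sb_id : Sb a a fun x : A => x :=
  ⟨continuous_id, fun _ _ h => h, fun _ _ _ he he' =>
    ⟨((crd_chart he).chg (crd_chart he')).1, ((crd_chart he).chg (crd_chart he')).inj⟩⟩

theorem sb_comp {f : A → B} {g : B → C} (hg : Sb b c g) (hf : Sb a b f) :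
    Sb a c fun x => g (f x) := by
  refine ⟨hg.cont.comp hf.cont, hg.inj.comp hf.inj, fun x e e' he he' => ?_⟩
  have hk := at_chartAt (n := b) (f x)
  set k := chartAt (Cm b) (f x)
  obtain ⟨a1, a2⟩ := hf.holo x e k he hk
  have a3 := hg.holo (f x) k e' hk he'
  rw [← congrArg (fun z => k (f z)) he.left_inv] at a3
  have a4 : (fun z => e' (g (f (e.symm z)))) =ᶠ[𝓝 (e x)]
      (fun z => e' (g (k.symm z))) ∘ fun z => k (f (e.symm z)) := by
    filter_upwards [ev_symm he.2 (hf.cont.continuousAt.eventually (Slc.At.near hk))] with z hz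
    simp only [Function.comp_apply, hz.left_inv]
  refine ⟨(AnalyticAt.comp (f := fun z => k (f (e.symm z))) a3.1 a1).congr a4.symm, ?_⟩
  rw [a4.fderiv_eq, fderiv_comp (e x) a3.1.differentiableAt a1.differentiableAt]
  exact a3.2.comp a2

theorem sb_holM {f : A → B} (hf : Sb a b f) : HolM a b f := ⟨hf.cont, fun _ _ h => hf.holF h⟩

theorem sb_of {f : A → B} (h : HolM a b f) (hi : Function.Injective f)
    (hm : ∀ y (e : Chart a A) (e' : Chart b B), At e y → At e' (f y) →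
      Function.Injective (fderiv ℂ (fun z => e' (f (e.symm z))) (e y))) : Sb a b f :=
  ⟨h.1, hi, fun y e e' he he' =>
    ⟨analyticAt_pi_iff.2 fun i => h.2 y _ (Val.holF_chart he' i) e he, hm y e e' he he'⟩⟩

end sb

/-- `T` is a stratum of `W`, and the comparison functions restrict -/
structure EmbM {d d' : ℕ} (T : Mf d) (W : Mf d') (I : Finset (Fin W.r)) where
  card : d + I.card = d'
  ι : T.T → W.T
  sb : Sb d d' ι
  sub : ∀ y, ∀ l ∈ I, ι y ∈ W.G l
  opn : ∀ y, ∀ᶠ z in 𝓝 (ι y), (∀ l ∈ I, z ∈ W.G l) → z ∈ range ι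
  par : Fin T.r → Fin W.r
  par_not : ∀ l, par l ∉ I
  mem : ∀ y l', l' ∉ I → (ι y ∈ W.G l' ↔ ∃ l, par l = l' ∧ y ∈ T.G l)
  disj : ∀ l₁ l₂, l₁ ≠ l₂ → par l₁ = par l₂ → Disjoint (T.G l₁) (T.G l₂)
  leq : ∀ y l ζ, y ∈ T.G l → LEq d' (W.G (par l)) (ι y) ζ → LEq d (T.G l) y (ζ ∘ ι)
  adj : ∀ (X : Type) (p : W.T → X) (L : Bd X) (M : Bd W.T) (m Q : ℕ) (n : Fin W.r → ℤ) t,
    IsLB d' (pull p L) → IsLB d' M → (∀ l ∈ I, n l = -(m * Q : ℕ)) →
    Cmp d' p L ((((Bd.can d' W.T).pow m).mul M).pow Q) W.G n t →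
    ∃ t', Cmp d (fun y => p (ι y)) L ((((Bd.can d T.T).pow m).mul (pull ι M)).pow Q) T.G
      (fun l => n (par l)) t'

variable {d d' d'' : ℕ}

/-- the whole manifold -/
def EmbM.refl (W : Mf d) : EmbM W W ∅ where
  card := rfl
  ι y := y
  sb := sb_id
  sub _ _ h := absurd h (Finset.notMem_empty _)
  opn _ := Eventually.of_forall fun z _ => ⟨z, rfl⟩
  par l := l
  par_not := Finset.notMem_empty
  mem _ l _ := ⟨fun h => ⟨l, rfl, h⟩, fun ⟨_, a, b⟩ => a ▸ b⟩
  disj _ _ a b := absurd b a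
  leq _ _ _ _ h := h
  adj _ _ _ _ _ _ _ t _ _ _ h := ⟨t, h⟩

/-- a component -/
theorem exists_cmp (W : Mf (d + 1)) (l₀ : Fin W.r) :
    ∃ (T : Mf d) (h : EmbM T W {l₀}), range h.ι = W.G l₀ := by
  obtain ⟨c, mf, hι, hk⟩ := (W.snc.hyp l₀).exists_sb
  have := isCompact_iff_compactSpace.1 (W.snc.closed l₀).isCompact
  have := isConnected_iff_connectedSpace.1 (W.connG l₀)
  have h0 : ∀ x : W.G l₀, x.1 ∈ W.G l₀ := fun x => x.2
  obtain ⟨r, G, par, a1, a2, a3, a4, a5⟩ := split (snc_res W.snc hι h0)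
  have b1 : ∀ (y : W.G l₀) l', l' ≠ l₀ → (y.1 ∈ W.G l' ↔ ∃ l, (par l).1 = l' ∧ y ∈ G l) :=
    fun y l' h => (a3 y ⟨l', h⟩).trans (by simp only [Subtype.ext_iff])
  have b2 : ∀ l₁ l₂, l₁ ≠ l₂ → (par l₁).1 = (par l₂).1 → Disjoint (G l₁) (G l₂) :=
    fun l₁ l₂ a b => a4 l₁ l₂ a (Subtype.ext b)
  have b3 : ∀ (y : W.G l₀) l ζ, y ∈ G l → LEq (d + 1) (W.G (par l)) y.1 ζ →
      LEq d (G l) y (ζ ∘ Subtype.val) := fun y l ζ a b =>
    leq_congr (leq_res W.snc hι h0 (par l).2 ((a3 y _).2 ⟨l, rfl, a⟩) b) (a5 l y a)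
  exact ⟨{ T := W.G l₀, χ := _, kahler := hk _ W.kahler, r := r, G := G, connG := a1, snc := a2 },
    { card := by simp
      ι := Subtype.val
      sb := hι
      sub := fun y l h => Finset.mem_singleton.1 h ▸ y.2
      opn := fun y => Eventually.of_forall fun z h => ⟨⟨z, h _ (Finset.mem_singleton_self _)⟩, rfl⟩
      par := fun l => par l
      par_not := fun l h => (par l).2 (Finset.mem_singleton.1 h)
      mem := fun y l' h => b1 y l' fun a => h (Finset.mem_singleton.2 a)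
      disj := b2
      leq := b3
      adj := fun X p L M m Q n t c1 c2 c3 c4 => cmp_adj W.snc hι h0 a2.closed (fun l => (par l).2)
        b1 b2 b3 c1 c2 (c3 _ (Finset.mem_singleton_self _)) c4 }, Subtype.range_coe⟩

section comp
variable {S : Mf d''} {T : Mf d} {W : Mf d'} {I : Finset (Fin W.r)} {J : Finset (Fin T.r)}

theorem EmbM.mem_par (h : EmbM T W I) {y : T.T} {l : Fin T.r} (hy : y ∈ T.G l) :
    h.ι y ∈ W.G (h.par l) := (h.mem y _ (h.par_not l)).2 ⟨l, rfl, hy⟩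

theorem EmbM.par_inj (h : EmbM T W I) {y : T.T} {l l' : Fin T.r} (hy : y ∈ T.G l)
    (hy' : y ∈ T.G l') (e : h.par l = h.par l') : l = l' :=
  by_contra fun a => disjoint_left.1 (h.disj _ _ a e) hy hy'

/-- a stratum of a stratum -/
def EmbM.comp (h : EmbM T W I) (g : EmbM S T J) : EmbM S W (I ∪ J.image h.par) where
  card := by
    obtain ⟨y⟩ : Nonempty S.T := inferInstance
    rw [Finset.card_union_of_disjoint (Finset.disjoint_right.2 fun l a => by
      obtain ⟨k, -, rfl⟩ := Finset.mem_image.1 a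
      exact h.par_not k), Finset.card_image_of_injOn fun l a l' b =>
        h.par_inj (g.sub y l a) (g.sub y l' b)]
    have := h.card
    have := g.card
    omega
  ι y := h.ι (g.ι y)
  sb := sb_comp h.sb g.sb
  sub y l a := by
    rcases Finset.mem_union.1 a with a | a
    · exact h.sub _ l a
    · obtain ⟨k, b, rfl⟩ := Finset.mem_image.1 a
      exact h.mem_par (g.sub y k b)
  opn y := by
    have a1 : ∀ᶠ x in 𝓝 (g.ι y), (∀ l, x ∈ T.G l → g.ι y ∈ T.G l) ∧
        ((∀ l ∈ J, x ∈ T.G l) → x ∈ range g.ι) := by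
      refine (eventually_all.2 fun l => ?_).and (g.opn y)
      by_cases a : g.ι y ∈ T.G l
      · exact Eventually.of_forall fun _ _ => a
      · exact Eventually.mono (p := fun x => x ∉ T.G l) ((T.snc.closed l).isOpen_compl.mem_nhds a)
          fun _ b c => absurd c b
    rw [(h.sb.cont.isClosedEmbedding h.sb.inj).isInducing.nhds_eq_comap, eventually_comap] at a1
    filter_upwards [a1, h.opn (g.ι y)] with z b1 b2 b3
    obtain ⟨x, rfl⟩ := b2 fun l a => b3 l (Finset.mem_union_left _ a)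
    obtain ⟨w, rfl⟩ := (b1 x rfl).2 fun l a => by
      obtain ⟨k, c1, c2⟩ := (h.mem x _ (h.par_not l)).1
        (b3 _ (Finset.mem_union_right _ (Finset.mem_image_of_mem _ a)))
      exact h.par_inj ((b1 x rfl).1 k c2) (g.sub y l a) c1 ▸ c2
    exact ⟨w, rfl⟩
  par l := h.par (g.par l)
  par_not l a := by
    rcases Finset.mem_union.1 a with a | a
    · exact h.par_not _ a
    · obtain ⟨k, b, c⟩ := Finset.mem_image.1 a
      obtain ⟨y, hy⟩ := (S.connG l).nonempty
      exact g.par_not l (h.par_inj (g.sub y k b) (g.mem_par hy) c ▸ b)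
  mem y l a := by
    rw [h.mem _ l fun b => a (Finset.mem_union_left _ b)]
    constructor
    · rintro ⟨k, rfl, b⟩
      obtain ⟨j, rfl, c⟩ := (g.mem y k fun c =>
        a (Finset.mem_union_right _ (Finset.mem_image_of_mem _ c))).1 b
      exact ⟨j, rfl, c⟩
    · rintro ⟨j, rfl, b⟩
      exact ⟨_, rfl, g.mem_par b⟩
  disj l₁ l₂ a b := disjoint_left.2 fun _ c e =>
    a (g.par_inj c e (h.par_inj (g.mem_par c) (g.mem_par e) b))
  leq y l ζ a b := g.leq y l _ a (h.leq _ _ ζ (g.mem_par a) b)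
  adj X p L M m Q n t a1 a2 a3 a4 := by
    obtain ⟨t', b⟩ := h.adj X p L M m Q n t a1 a2 (fun l c => a3 l (Finset.mem_union_left _ c)) a4
    exact g.adj X _ L _ m Q _ t' ((sb_holM h.sb).lb a1) ((sb_holM h.sb).lb a2)
      (fun l c => a3 _ (Finset.mem_union_right _ (Finset.mem_image_of_mem _ c))) b

end comp

theorem range_eq {T W : Type} [TopologicalSpace T] [TopologicalSpace W] [CompactSpace T]
    [ConnectedSpace T] [T2Space W] {ι : T → W} (hι : Continuous ι) {S : Set W} (h1 : ∀ y, ι y ∈ S)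
    (h2 : ∀ y, ∀ᶠ z in 𝓝 (ι y), z ∈ S → z ∈ range ι) (y : T) :
    range ι = connectedComponentIn S (ι y) := by
  refine ((isConnected_range hι).isPreconnected.subset_connectedComponentIn (mem_range_self y)
    (range_subset_iff.2 h1)).antisymm fun z hz => by_contra fun a => ?_
  obtain ⟨w, b1, b2, b3⟩ := isPreconnected_connectedComponentIn (F := S) (x := ι y)
    {w | ∀ᶠ z in 𝓝 w, z ∈ S → z ∈ range ι} (range ι)ᶜ isOpen_setOfPred_eventually_nhds
    (isCompact_range hι).isClosed.isOpen_compl (fun w _ => by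
      by_cases b : w ∈ range ι
      · obtain ⟨x, rfl⟩ := b
        exact Or.inl (h2 x)
      · exact Or.inr b) ⟨_, mem_connectedComponentIn (h1 y), h2 y⟩ ⟨z, hz, a⟩
  exact b3 (b2.self_of_nhds (connectedComponentIn_subset _ _ b1))

/-- every stratum is a manifold -/
theorem exists_embM (W : Mf d') (I : Finset (Fin W.r)) {y : W.T} (hy : ∀ l ∈ I, y ∈ W.G l) :
    ∃ (d : ℕ) (T : Mf d) (h : EmbM T W I), y ∈ range h.ι := by
  induction I using Finset.induction_on with
  | empty => exact ⟨_, W, EmbM.refl W, y, rfl⟩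
  | insert l₀ I hl ih =>
    obtain ⟨d, T, h, x, rfl⟩ := ih fun l a => hy l (Finset.mem_insert_of_mem a)
    obtain ⟨l, rfl, hx⟩ := (h.mem x l₀ hl).1 (hy _ (Finset.mem_insert_self _ _))
    obtain ⟨_, i, -⟩ := T.snc.hyp l x hx
    obtain ⟨d, rfl⟩ : ∃ e, d = e + 1 := ⟨d - 1, by have := i.pos; omega⟩
    obtain ⟨S, g, hg⟩ := exists_cmp T l
    obtain ⟨w, rfl⟩ : x ∈ range g.ι := hg ▸ hx
    have e : insert (h.par l) I = I ∪ ({l} : Finset _).image h.par := by
      rw [Finset.image_singleton, Finset.union_comm, Finset.insert_eq]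
    rw [e]
    exact ⟨d, S, h.comp g, w, rfl⟩

section pm
variable {D : Dat} {N : ℕ}

/-- the adjoint model on a stratum -/
def EmbM.pm {T : Mf d} {W : Pm D N d'} {I : Finset (Fin W.r)} (h : EmbM T W.toMf I)
    (hI : ∀ l ∈ I, ∀ j ≤ N, ∀ e, W.α j e l = -(D.m e : ℝ)) : Pm D N d where
  toMf := T
  M e := pull h.ι (W.M e)
  p j y := W.p j (h.ι y)
  P := W.P
  n j e l := W.n j e (h.par l)
  lb e := (sb_holM h.sb).lb (W.lb e)
  nef e := (sb_holM h.sb).nef W.kahler.toIsHermitian T.kahler.toIsHermitian (W.nef e)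
  hol j a := (W.hol j a).comp (sb_holM h.sb)
  comm j a y := W.comm j a _
  hP := W.hP
  cmp j a e := by
    obtain ⟨t, ht⟩ := W.cmp j a e
    refine h.adj _ _ _ _ _ _ _ t ((W.hol j a).lb (lb_pow ((D.S.flip j).lb e) _)) (W.lb e)
      (fun l b => ?_) ht
    have c := hI l b j a e
    have c1 : ((W.P j e : ℝ) * D.S.c j e) ≠ 0 := by
      have := W.hP j e
      have := D.S.hc j e
      positivity
    rw [Pm₀.α, div_eq_iff c1] at c
    have c2 : (W.n j e l : ℝ) = ((-(D.m e * (W.P j e * D.S.c j e) : ℕ) : ℤ) : ℝ) := by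
      rw [c]
      push_cast
      ring
    exact_mod_cast c2
  lc l := W.lc _
  mono j a l := W.mono j a _
  strict j a y b := by
    obtain ⟨l', c1, c2⟩ := W.strict j a _ b
    obtain ⟨l, rfl, c3⟩ := (h.mem y l' fun c => c2.ne (Finset.sum_congr rfl fun e _ => by
      rw [hI l' c j a.le, hI l' c (j + 1) a])).1 c1
    exact ⟨l, c3, c2⟩
  const j a l := fun ⟨y, b, c⟩ => W.const j a _ ⟨_, h.mem_par b, c⟩

/-- the embedding of the adjoint model -/
def EmbM.emb {T : Mf d} {W : Pm D N d'} {I : Finset (Fin W.r)} (h : EmbM T W.toMf I)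
    (hI : ∀ l ∈ I, ∀ j ≤ N, ∀ e, W.α j e l = -(D.m e : ℝ)) : Emb (h.pm hI) W I where
  card := h.card
  lc := hI
  ι := h.ι
  hol := sb_holM h.sb
  inj := h.sb.inj
  imm y e e' a b := (h.sb.holo y e e' a b).2
  sub := h.sub
  opn := h.opn
  par := h.par
  par_not := h.par_not
  mem := h.mem
  disj := h.disj
  leq := h.leq
  hp _ _ := rfl
  hM _ := rfl
  hP := rfl
  hn _ _ _ := rfl

end pm

end Vale.Agent.P277Z.Glc.Ad

namespace Vale.Agent.P277Z.Glc

variable {D : Dat} {N d d' : ℕ}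

theorem Emb.sb {T : Pm D N d} {W : Pm D N d'} {I : Finset (Fin W.r)} (h : Emb T W I) :
    Sb d d' h.ι := Ad.sb_of h.hol h.inj h.imm

theorem Emb.range_eq {T : Pm D N d} {W : Pm D N d'} {I : Finset (Fin W.r)} (h : Emb T W I)
    (y : T.T) : range h.ι = connectedComponentIn {z | ∀ l ∈ I, z ∈ W.G l} (h.ι y) :=
  Ad.range_eq (S := {z | ∀ l ∈ I, z ∈ W.G l}) h.hol.1 h.sub h.opn y

/-- (ADJ) adjunction -/
theorem Pm.exists_emb (W : Pm D N d') (I : Finset (Fin W.r))
    (hI : ∀ l ∈ I, ∀ j ≤ N, ∀ e, W.α j e l = -(D.m e : ℝ)) {y : W.T} (hy : ∀ l ∈ I, y ∈ W.G l) :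
    ∃ (d : ℕ) (T : Pm D N d) (h : Emb T W I),
      range h.ι = connectedComponentIn {z | ∀ l ∈ I, z ∈ W.G l} y := by
  obtain ⟨d, T, h, x, rfl⟩ := Ad.exists_embM W.toMf I hy
  exact ⟨d, _, h.emb hI, (h.emb hI).range_eq x⟩

theorem Pm.a_le (W : Pm D N d) {i j : ℕ} (hi : i ≤ j) (hj : j ≤ N) (l : Fin W.r) :
    W.a i l ≤ W.a j l := by
  induction j, hi using Nat.le_induction with
  | base => exact le_rfl
  | succ j _ ih => exact (ih (by omega)).trans (W.mono j (by omega) l)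

/-- the coefficients of a component which stays log canonical -/
theorem Pm.Adjw.all {W : Pm D N d} (h : W.Adjw) {l : Fin W.r} (hl : W.a N l = -1) :
    ∀ j ≤ N, ∀ e, W.α j e l = -(D.m e : ℝ) := by
  have h1 : ∀ j ≤ N, W.a j l = -1 := fun j a => (hl ▸ W.a_le a le_rfl l).antisymm (W.lc' a l)
  intro j
  induction j with
  | zero => exact fun a => h l (h1 0 a)
  | succ j ih =>
    intro a e
    obtain ⟨y, hy⟩ := (W.connG l).nonempty
    obtain ⟨x, hx⟩ := (W.snc.freq {l} (y := y) (by simpa using hy)).exists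
    rw [← W.const j a l ⟨x, (hx l).2 rfl, fun b => ?_⟩, ih (by omega)]
    obtain ⟨k, c1, c2⟩ := W.strict j a x b
    rw [show k = l from (hx k).1 c1, h1 j (by omega), h1 _ a] at c2
    exact lt_irrefl _ c2

/-- (ADJ) for a log canonical stratum -/
theorem Pm.IsSt.exists_emb {W : Pm D N d'} (h : W.Adjw) {I : Finset (Fin W.r)} {C : Set W.T}
    (hC : W.IsSt I C) : ∃ (d : ℕ) (T : Pm D N d) (h : Emb T W I), range h.ι = C := by
  obtain ⟨a, y, b, rfl⟩ := hC
  exact W.exists_emb I (fun l c => h.all (a l c)) b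

end Vale.Agent.P277Z.Glc
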