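import Vale.Agent.P277Z.Glc.Sing
import Vale.Agent.P267.H338.Riem

/-!
# P277: the Riemann extension theorem on normal spaces
-/

open Filter Topology Set
open Vale.Agent.P277 Vale.Agent.P272.K Vale.Agent.P277Z.Oka

noncomputable section

namespace Vale.Agent.P277Z.Glc

variable {X : CSp} {n : ℕ}

theorem eq_of_closure {T : Type} [TopologicalSpace T] {f g : T → ℂ} {x : T} {D : Set T}
    (hx : x ∈ closure D) (hf : ContinuousAt f x) (hg : ContinuousAt g x)
    (h : ∀ᶠ y in 𝓝 x, y ∈ D → f y = g y) : f x = g x :=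
  haveI := mem_closure_iff_nhdsWithin_neBot.1 hx
  tendsto_nhds_unique_of_eventuallyEq (l := 𝓝[D] x) hf.continuousWithinAt hg.continuousWithinAt
    (eventually_nhdsWithin_iff.2 h)

/-- extension at a regular point -/
theorem riem_reg {x : X.pt} (hr : IsReg n X x) {k : ℕ} {h : Fin k → X.pt → ℂ} {E : Set X.pt}
    (hh : ∀ i, X.Hol (h i) x) (hE : ∀ᶠ y in 𝓝 x, y ∈ E ↔ ∀ i, h i y = 0) (hx : x ∈ closure Eᶜ)
    {f : X.pt → ℂ} {C : ℝ} (hf : ∀ᶠ y in 𝓝 x, y ∉ E → X.Hol f y ∧ ‖f y‖ ≤ C) :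
    ∃ g, X.Hol g x ∧ ∀ᶠ y in 𝓝 x, y ∉ E → g y = f y := by
  obtain ⟨V, Ω, h₁, φ, hV, M⟩ := hr
  obtain ⟨i, hi⟩ : ∃ i, ∃ᶠ y in 𝓝 x, h i y ≠ 0 := by
    by_contra! c
    exact mem_closure_iff_frequently.1 hx (by
      filter_upwards [hE, eventually_all.2 c] with y a b d using d (a.2 b))
  obtain ⟨H, hH, e⟩ := (M.hol x hV _).1 (hh i)
  have : Nonempty X.pt := ⟨x⟩
  let s := Function.invFunOn φ V
  have hs : ∀ y ∈ V, s (φ y) = y := fun y hy => M.injOn.leftInvOn_invFunOn hy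
  have hΩ : ∀ y ∈ V, ∀ {P : X.pt → Prop}, (∀ᶠ y' in 𝓝 y, P y') →
      ∀ᶠ z in 𝓝 (φ y), s z ∈ V ∧ φ (s z) = z ∧ P (s z) := fun y hy P hP => by
    filter_upwards [Csp.push M hy hP, M.isOpen'.mem_nhds (M.image ▸ mem_image_of_mem φ hy :
      φ y ∈ {z ∈ Ω | ∀ i, h₁ i z = 0}).1] with z a b
    obtain ⟨y', c, rfl⟩ : z ∈ φ '' V := M.image ▸ ⟨b, fun i => i.elim0⟩
    rw [hs y' c]
    exact ⟨c, rfl, a y' c rfl⟩
  obtain ⟨r, hr, hB⟩ := Metric.eventually_nhds_iff_ball.1 (hH.eventually_analyticAt.and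
    (hΩ x hV (hE.and (hf.and e))))
  have h1 : ∀ z ∈ Metric.ball (φ x) r, H z ≠ 0 → s z ∉ E := fun z hz a b => by
    obtain ⟨-, -, c, d, -, e⟩ := hB z hz
    exact a (by rw [← c]; exact e.symm.trans (d.1 b i))
  have h2 : ∃ᶠ z in 𝓝 (φ x), H z ≠ 0 :=
    (M.continuousAt hV).tendsto.frequently ((hi.and_eventually e).mono fun y a b =>
      a.1 (a.2.trans b))
  have h3 : ∀ y ∈ V, X.Hol f y → AnalyticAt ℂ (f ∘ s) (φ y) := fun y hy a => by
    obtain ⟨G, hG, e⟩ := (M.hol y hy _).1 a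
    exact hG.congr ((hΩ y hy e).mono fun z b => by simp only [Function.comp, b.2.2, b.2.1])
  obtain ⟨W, hW, hxW, hWB, U, hU, e'⟩ := P267.H338.riemann_extension (u := f ∘ s) (C := C)
    Metric.isOpen_ball (Metric.mem_ball_self hr)
    (fun z hz => (hB z hz).1.differentiableAt.differentiableWithinAt) h2
    (fun z hz => by
      obtain ⟨-, a, b, -, c, -⟩ := hB z hz.1
      exact (b ▸ h3 _ a (c (h1 z hz.1 hz.2)).1).differentiableAt.differentiableWithinAt)
    fun z hz a => ((hB z hz).2.2.2.2.1 (h1 z hz a)).2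
  refine ⟨U ∘ φ, (M.hol x hV _).2 ⟨U, P268.analyticAt_of_differentiableOn hW hU hxW, .rfl⟩, ?_⟩
  filter_upwards [M.isOpen.mem_nhds hV, hf, (M.continuousAt hV).eventually_mem (hW.mem_nhds hxW)]
    with y a b c d
  refine (eq_of_closure (D := {z | H z ≠ 0}) (g := f ∘ s) (mem_closure_iff_frequently.2 fun k => ?_)
    (hU.continuousOn.continuousAt (hW.mem_nhds c)) (h3 y a (b d).1).continuousAt
    (by filter_upwards [hW.mem_nhds c] with z using e' z)).trans (congrArg f (hs y a))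
  have := AnalyticOnNhd.eqOn_zero_of_preconnected_of_eventuallyEq_zero (fun z hz => (hB z hz).1)
    (convex_ball _ _).isPreconnected (hWB c) (k.mono fun z hz => not_not.1 hz)
  exact h2 (by filter_upwards [Metric.ball_mem_nhds _ hr] with z hz using not_not.2 (this hz))

/-- the Riemann extension theorem on a normal space -/
theorem riem_normal (hX : IsNormal n X) {V E : Set X.pt} (hV : IsOpen V) (hE : IsAn X V E)
    (hd : V ⊆ closure Eᶜ) {f : X.pt → ℂ} (hf : ∀ x ∈ V \ E, X.Hol f x)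
    (hb : ∀ x ∈ V, ∃ C, ∀ᶠ y in 𝓝 x, y ∉ E → ‖f y‖ ≤ C) :
    ∃ g, (∀ x ∈ V, X.Hol g x) ∧ ∀ x ∈ V \ E, g x = f x := by
  classical
  let Q : X.pt → (X.pt → ℂ) → Prop := fun x g => X.Hol g x ∧ ∀ᶠ y in 𝓝 x, y ∉ E → g y = f y
  let g : X.pt → ℂ := fun x => if h : ∃ g, Q x g then h.choose x else 0
  have h1 : ∀ x ∈ V, ∀ g', Q x g' → g x = g' x := fun x hx g' h => by
    have h' : ∃ g, Q x g := ⟨g', h⟩
    refine (dif_pos h').trans (eq_of_closure (hd hx) (hol_continuousAt h'.choose_spec.1)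
      (hol_continuousAt h.1) ?_)
    filter_upwards [h'.choose_spec.2, h.2] with y a b c using (a c).trans (b c).symm
  have h2 : ∀ x ∈ V, ∀ g', Q x g' → X.Hol g x := fun x hx g' h => hol_congr h.1 (by
    filter_upwards [hV.mem_nhds hx, hol_eventually h.1, h.2.eventually_nhds] with y a b c
      using h1 y a g' ⟨b, c⟩)
  have h3 : ∀ x ∈ V \ E, Q x f := fun x hx => ⟨hf x hx, .of_forall fun _ _ => rfl⟩
  obtain ⟨G, hG, e⟩ := hX.ext V _ hV ((sing_an hX.dense).mono (subset_univ _))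
    (hX.sing.mono inter_subset_right) g fun x hx => by
      obtain ⟨k, h, hh, e⟩ := hE x hx.1
      obtain ⟨C, hC⟩ := hb x hx.1
      obtain ⟨g', hg⟩ := riem_reg (f := f) (C := C) (not_not.1 hx.2) hh e (hd hx.1) (by
        filter_upwards [hV.mem_nhds hx.1, hC] with y a b c using ⟨hf y ⟨a, c⟩, b c⟩)
      exact h2 x hx.1 g' hg
  refine ⟨G, hG, fun x hx => (eq_of_closure (hX.dense x) (hol_continuousAt (hG x hx.1))
    (hol_continuousAt (h2 x hx.1 f (h3 x hx))) ?_).trans (h1 x hx.1 f (h3 x hx))⟩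
  filter_upwards [hV.mem_nhds hx.1] with y a b using e y ⟨a, not_not.2 b⟩

/-- continuous functions which are holomorphic off a nowhere dense analytic set -/
theorem hol_of_cont (hX : IsNormal n X) {V E : Set X.pt} (hV : IsOpen V) (hE : IsAn X V E)
    (hd : V ⊆ closure Eᶜ) {f : X.pt → ℂ} (hf : ∀ x ∈ V \ E, X.Hol f x) (hc : ContinuousOn f V)
    {x : X.pt} (hx : x ∈ V) : X.Hol f x := by
  obtain ⟨g, hg, e⟩ := riem_normal hX hV hE hd hf fun y hy => ⟨‖f y‖ + 1,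
    ((hc.continuousAt (hV.mem_nhds hy)).norm.eventually_lt_const (lt_add_one _)).mono
      fun _ a _ => a.le⟩
  refine hol_congr (hg x hx) ?_
  filter_upwards [hV.mem_nhds hx] with y hy
  refine eq_of_closure (hd hy) (hc.continuousAt (hV.mem_nhds hy)) (hol_continuousAt (hg y hy)) ?_
  filter_upwards [hV.mem_nhds hy] with z a b using (e z ⟨a, b⟩).symm

end Vale.Agent.P277Z.Glc
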