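import Vale.Agent.P277Z.Glc.Adj1
import Vale.Agent.P277Z.Glc.Pull
import Vale.Agent.P277Z.Slc.Unit
import Vale.Agent.P277Z.Slc.Basic

/-!
# P277, GLC: the trace of a simple normal crossing divisor on one of its components
-/

set_option linter.unusedSectionVars false

open scoped Manifold ContDiff Topology
open Vale.Agent.P272.K Vale.Agent.P285.H281.FD Vale.Agent.P277 Set Filter
open Vale.Agent.P277.PH (HolF at_chartAt)
open Vale.Agent.P277Z.Slc (LEq stUnit dd)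
open Vale.Agent.P277Z.Val (IsSnc IsCo Sb Nch)

noncomputable section

namespace Vale.Agent.P277Z.Glc.Ad

section one
variable {d : ℕ} {T : Type} [TopologicalSpace T] [ChartedSpace (Cm d) T]
  [IsManifold 𝓘(ℂ, Cm d) ω T]

/-- split the members of a family into their connected components -/
theorem split [CompactSpace T] {κ : Type} [Finite κ] {A : κ → Set T} (h : IsSnc d A) :
    ∃ (r : ℕ) (G : Fin r → Set T) (par : Fin r → κ), (∀ l, IsConnected (G l)) ∧ IsSnc d G ∧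
      (∀ y k, y ∈ A k ↔ ∃ l, par l = k ∧ y ∈ G l) ∧
      (∀ l₁ l₂, l₁ ≠ l₂ → par l₁ = par l₂ → Disjoint (G l₁) (G l₂)) ∧
      ∀ l, ∀ y ∈ G l, ∀ᶠ x in 𝓝 y, x ∈ G l ↔ x ∈ A (par l) := by
  classical
  have hcc : ∀ k, ∀ y ∈ A k, ∀ᶠ x in 𝓝 y, x ∈ A k → x ∈ connectedComponentIn (A k) y :=
    fun k y hy => by simpa only [inter_self] using h.ev_cc (l := k) (k := k) ⟨hy, hy⟩
  let S : Set (κ × Set T) := {c | ∃ y ∈ A c.1, c.2 = connectedComponentIn (A c.1) y}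
  have hS : S.Finite := by
    have key : ∀ k, {C | ∃ y ∈ A k, C = connectedComponentIn (A k) y}.Finite := by
      intro k
      obtain ⟨t, ht⟩ := (h.closed k).isCompact.elim_nhds_subcover'
        (fun y _ => {x | x ∈ A k → x ∈ connectedComponentIn (A k) y}) (hcc k)
      refine (t.finite_toSet.image fun y => connectedComponentIn (A k) y.1).subset ?_
      rintro C ⟨x, hx, rfl⟩
      obtain ⟨y, hy, h⟩ := mem_iUnion₂.1 (ht hx)
      exact ⟨y, hy, connectedComponentIn_eq (h hx)⟩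
    refine (finite_iUnion fun k => (key k).image (Prod.mk k)).subset ?_
    rintro ⟨k, C⟩ h
    exact mem_iUnion.2 ⟨k, C, h, rfl⟩
  have := hS.to_subtype
  let ε := (Finite.equivFin S).symm
  have h1 : ∀ l, ∀ y ∈ (ε l).1.2, y ∈ A (ε l).1.1 ∧
      (ε l).1.2 = connectedComponentIn (A (ε l).1.1) y := fun l y hy => by
    obtain ⟨z, -, hz⟩ := (ε l).2
    rw [hz] at hy
    exact ⟨connectedComponentIn_subset _ _ hy, hz.trans (connectedComponentIn_eq hy)⟩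
  have h2 : ∀ l₁ l₂ y, (ε l₁).1.1 = (ε l₂).1.1 → y ∈ (ε l₁).1.2 → y ∈ (ε l₂).1.2 → l₁ = l₂ :=
    fun l₁ l₂ y e a b => ε.injective (Subtype.ext (Prod.ext e
      (by rw [(h1 _ y a).2, (h1 _ y b).2, e])))
  have h3 : ∀ l, ∀ y ∈ (ε l).1.2, ∀ᶠ x in 𝓝 y, x ∈ (ε l).1.2 ↔ x ∈ A (ε l).1.1 := fun l y hy =>
    (hcc _ y (h1 l y hy).1).mono fun x hx => ⟨fun a => (h1 l x a).1, fun a => by
      rw [(h1 l y hy).2]
      exact hx a⟩
  refine ⟨_, fun l => (ε l).1.2, fun l => (ε l).1.1, fun l => ?_, fun y => ?_, fun y k => ?_,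
    fun l₁ l₂ a b => disjoint_left.2 fun y c e => a (h2 _ _ y b c e), h3⟩
  · obtain ⟨z, a, b⟩ := (ε l).2
    show IsConnected (ε l).1.2
    rw [b]
    exact isConnected_connectedComponentIn_iff.2 a
  · have h4 : ∀ᶠ x in 𝓝 y, ∀ k, y ∈ A k → x ∈ A k → x ∈ connectedComponentIn (A k) y :=
      eventually_all.2 fun k => by
        by_cases hy : y ∈ A k
        · exact (hcc k y hy).mono fun _ a _ => a
        · exact Eventually.of_forall fun _ a => absurd a hy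
    obtain ⟨Φ, ρ, lab, hΦ, h5⟩ := h.nch y h4
    refine ⟨Φ, fun l => if y ∈ (ε l).1.2 then lab (ε l).1.1 else none, (hΦ.crd y hΦ.src).isCo,
      fun l l' i a b => ?_, ?_⟩
    · dsimp only at a b
      split_ifs at a b with c e
      exact h2 l l' y (hΦ.inj _ _ i a b) c e
    · filter_upwards [hΦ.nhds] with x hx l
      split_ifs with c
      · rw [← hΦ.iff x hx]
        refine ⟨fun a => (h1 l x a).1, fun a => ?_⟩
        rw [(h1 l y c).2]
        exact h5 x hx _ (h1 l y c).1 a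
      · refine ⟨fun a => absurd ?_ c, fun ⟨i, a, _⟩ => by simp at a⟩
        have b := hΦ.sub hx (h1 l x a).1
        rw [(h1 l x a).2, ← connectedComponentIn_eq (h5 x hx _ b (h1 l x a).1)]
        exact mem_connectedComponentIn b
  · refine ⟨fun hy => ⟨ε.symm ⟨(k, connectedComponentIn (A k) y), y, hy, rfl⟩, ?_, ?_⟩, ?_⟩
    · dsimp only
      rw [Equiv.apply_symm_apply]
    · dsimp only
      rw [Equiv.apply_symm_apply]
      exact mem_connectedComponentIn hy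
    · rintro ⟨l, rfl, a⟩
      exact (h1 l y a).1

theorem leq_co {G : Set T} {t : T → Cm d} {y : T} {i : Fin d} (ht : IsCo d t y)
    (h : ∀ᶠ x in 𝓝 y, x ∈ G ↔ t x i = 0) : LEq d G y fun x => t x i := by
  refine ⟨h.mono fun _ a => a.symm, fun e he => ⟨ht.hol i e he, fun _ h0 => ?_⟩⟩
  have h1 := ht e he
  obtain ⟨v, hv⟩ := (LinearMap.equivOfDetNeZero (fderiv ℂ (fun w => t (e.symm w)) (e y) :
    Cm d →ₗ[ℂ] Cm d) h1.2).surjective (Pi.single i 1)
  have h2 := congrArg (fun L : Cm d →L[ℂ] ℂ => L v)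
    (hasFDerivAt_pi'.1 h1.1.differentiableAt.hasFDerivAt i).fderiv
  have h3 : fderiv ℂ (fun w => t (e.symm w)) (e y) v = Pi.single i 1 := hv
  simp [h0, h3] at h2

theorem leq_unit {G : Set T} {y : T} {ζ ζ' u : T → ℂ} (h : LEq d G y ζ) (hu : HolF d u y)
    (h0 : u y ≠ 0) (he : ∀ᶠ x in 𝓝 y, ζ' x = u x * ζ x) : LEq d G y ζ' := by
  have h1 : HolF d ζ' y := (hu.mul h.hol).congr (he.mono fun _ a => a.symm)
  refine ⟨?_, fun e a => ⟨h1 e a, fun b c => ?_⟩⟩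
  · filter_upwards [h.1, he, (Val.holF_cont hu).eventually_ne h0] with x a b c
    rw [b, mul_eq_zero, or_iff_right c, a]
  · have h2 : ζ y = 0 := by
      rw [he.self_of_nhds] at b
      exact (mul_eq_zero.1 b).resolve_left h0
    have h3 : dd ζ' e y = u y • dd ζ e y :=
      (Slc.dd_congr he a).trans (Slc.dd_mul hu h.hol h2 a)
    exact smul_ne_zero h0 ((h.2 e a).2 h2) (h3.symm.trans c)

theorem leq_congr {G G' : Set T} {y : T} {ζ : T → ℂ} (h : LEq d G y ζ)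
    (he : ∀ᶠ x in 𝓝 y, x ∈ G' ↔ x ∈ G) : LEq d G' y ζ :=
  ⟨(h.1.and he).mono fun _ a => a.1.trans a.2.symm, h.2⟩

theorem leq_one {G : Set T} (hG : IsClosed G) {y : T} (hy : y ∉ G) : LEq d G y fun _ => 1 :=
  ⟨Eventually.mono (p := fun x => x ∉ G) (hG.isOpen_compl.mem_nhds hy) fun _ a =>
    ⟨fun b => absurd b one_ne_zero, fun b => absurd b a⟩,
    fun _ _ => ⟨analyticAt_const, fun b => absurd b one_ne_zero⟩⟩

theorem unit [T2Space T] [CompactSpace T] {G : Set T} {y : T} {ζ ζ' : T → ℂ} (h : LEq d G y ζ)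
    (h' : LEq d G y ζ') : ∃ u : T → ℂ, HolF d u y ∧ u y ≠ 0 ∧ ∀ᶠ x in 𝓝 y, ζ' x = u x * ζ x :=
  haveI := ChartedSpace.secondCountable_of_sigmaCompact (Cm d) T
  stUnit d T G y ζ ζ' h h'

/-- regroup a monomial -/
theorem mon_par {r r' : ℕ} {G : Fin r' → Set T} (hG : ∀ l, IsClosed (G l)) {par : Fin r' → Fin r}
    {J : Finset (Fin r)} {n : Fin r → ℤ} {f u : T → ℂ} {ζ : Fin r → T → ℂ} {y : T}
    (hJ : ∀ l, par l ∈ J) (hi : ∀ l₁ l₂, y ∈ G l₁ → y ∈ G l₂ → par l₁ = par l₂ → l₁ = l₂)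
    (h1 : ∀ l, y ∈ G l → LEq d (G l) y (ζ (par l))) (h2 : ∀ k ∈ J, HolF d (ζ k) y)
    (h3 : ∀ k ∈ J, ζ k y = 0 → ∃ l, par l = k ∧ y ∈ G l) (hu : HolF d u y) (h0 : u y ≠ 0)
    (hf : ∀ᶠ x in 𝓝 y, x ∉ ⋃ l, G l → f x = u x * ∏ k ∈ J, ζ k x ^ n k) :
    Mon d G (fun l => n (par l)) f y := by
  classical
  let S : Finset (Fin r') := Finset.univ.filter fun l => y ∈ G l
  have hS : S.image par ⊆ J := fun k hk => by
    obtain ⟨l, -, rfl⟩ := Finset.mem_image.1 hk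
    exact hJ l
  have h4 : ∀ k ∈ J \ S.image par, ζ k y ≠ 0 := fun k hk a => by
    obtain ⟨l, b, c⟩ := h3 k (Finset.mem_sdiff.1 hk).1 a
    exact (Finset.mem_sdiff.1 hk).2 (Finset.mem_image.2 ⟨l, by simpa [S] using c, b⟩)
  refine ⟨fun l => if y ∈ G l then ζ (par l) else fun _ => 1,
    fun x => u x * ∏ k ∈ J \ S.image par, ζ k x ^ n k, fun l => ?_, hu.mul fun e he => ?_,
    mul_ne_zero h0 (Finset.prod_ne_zero_iff.2 fun k hk => zpow_ne_zero _ (h4 k hk)), ?_⟩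
  · dsimp only
    split_ifs with a
    exacts [h1 l a, leq_one (hG l) a]
  · exact Finset.analyticAt_fun_prod _ fun k hk => (h2 k (Finset.mem_sdiff.1 hk).1 e he).fun_zpow
      (by rw [he.left_inv]; exact h4 k hk)
  · filter_upwards [hf] with x a b
    rw [a b, ← Finset.prod_sdiff hS, mul_assoc, Finset.prod_image fun l c l' c' =>
      hi l l' (by simpa [S] using c) (by simpa [S] using c'), Finset.prod_filter]
    congr 2
    refine Finset.prod_congr rfl fun l _ => ?_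
    split_ifs <;> simp

end one

section two
variable {d : ℕ} {T W : Type} [TopologicalSpace T] [ChartedSpace (Cm d) T]
  [IsManifold 𝓘(ℂ, Cm d) ω T] [TopologicalSpace W] [ChartedSpace (Cm (d + 1)) W]
  [IsManifold 𝓘(ℂ, Cm (d + 1)) ω W] {κ : Type} {G : κ → Set W} {l₀ : κ} {ι : T → W}

theorem co_tail (hι : Sb d (d + 1) ι) (h0 : ∀ x, ι x ∈ G l₀) {x : T} {Φ : Chart (d + 1) W} {ρ : ℝ}
    {lab : κ → Option (Fin (d + 1))} (hΦ : Nch G (ι x) Φ ρ lab) (hl : lab l₀ = some 0) :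
    IsCo d (fun y j => Φ (ι y) j.succ) x :=
  hι.isCo (i := 0) (hΦ.crd _ hΦ.src).isCo
    ((hι.cont.continuousAt.eventually hΦ.nhds).mono fun y hy => (hΦ.iff1 hl hy).1 (h0 y))

theorem snc_res (h : IsSnc (d + 1) G) (hι : Sb d (d + 1) ι) (h0 : ∀ x, ι x ∈ G l₀) :
    IsSnc d fun k : {k // k ≠ l₀} => ι ⁻¹' G k := by
  intro x
  obtain ⟨Φ, ρ, lab, hΦ, hl, -⟩ := h.nch1 (h0 x) 0 (Eventually.of_forall fun _ => trivial)
  have key : ∀ (o : Option (Fin (d + 1))) (j : Fin d),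
      (o.bind fun i => (Fin.cases none some i : Option (Fin d))) = some j ↔ o = some j.succ := by
    rintro (_ | i) j
    · simp
    · refine Fin.cases ?_ (fun i => ?_) i
      · simp [(Fin.succ_ne_zero j).symm]
      · simp
  refine ⟨_, fun k => (lab k).bind fun i => (Fin.cases none some i : Option (Fin d)),
    co_tail hι h0 hΦ hl, fun k k' j a b => Subtype.ext (hΦ.inj _ _ _ ((key _ _).1 a)
      ((key _ _).1 b)), ?_⟩
  filter_upwards [hι.cont.continuousAt.eventually hΦ.nhds] with y hy k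
  rw [mem_preimage, hΦ.iff _ hy]
  constructor
  · rintro ⟨i, a, b⟩
    obtain ⟨j, rfl⟩ := Fin.exists_succ_eq.2 fun c : i = 0 => k.2 (hΦ.inj _ _ 0 (c ▸ a) hl)
    exact ⟨j, (key _ _).2 a, b⟩
  · rintro ⟨j, a, b⟩
    exact ⟨j.succ, (key _ _).1 a, b⟩

theorem leq_res [T2Space W] [CompactSpace W] (h : IsSnc (d + 1) G) (hι : Sb d (d + 1) ι)
    (h0 : ∀ x, ι x ∈ G l₀) {k : κ} (hk : k ≠ l₀) {x : T} (hx : ι x ∈ G k) {ζ : W → ℂ}
    (hζ : LEq (d + 1) (G k) (ι x) ζ) : LEq d (ι ⁻¹' G k) x (ζ ∘ ι) := by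
  obtain ⟨Φ, ρ, lab, hΦ, hl, -⟩ := h.nch1 (h0 x) 0 (Eventually.of_forall fun _ => trivial)
  obtain ⟨i, a⟩ := hΦ.mem.1 hx
  obtain ⟨j, rfl⟩ := Fin.exists_succ_eq.2 fun c : i = 0 => hk (hΦ.inj _ _ 0 (c ▸ a) hl)
  have h1 : ∀ᶠ y in 𝓝 (ι x), y ∈ G k ↔ Φ y j.succ = 0 :=
    Eventually.mono (p := fun y => y ∈ Φ.source) hΦ.nhds fun y hy => hΦ.iff1 a hy
  obtain ⟨u, h2, h3, h4⟩ := unit (leq_co (hΦ.crd _ hΦ.src).isCo h1) hζ
  exact leq_unit (leq_co (co_tail hι h0 hΦ hl) (hι.cont.continuousAt.eventually h1))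
    (hι.holF h2) h3 (hι.cont.continuousAt.eventually h4)

end two

end Vale.Agent.P277Z.Glc.Ad
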