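import Vale.Agent.P277Z.Glc.Sk0
import Vale.Agent.P277Z.Glc.RiemN

/-!
# P277, block GLC: maps of normal spaces lift to the normalisation
-/

open Filter Topology Set
open Vale.Agent.P277

noncomputable section

namespace Vale.Agent.P277Z.Glc

/-- a map which is holomorphic off a nowhere dense analytic set, with finite cluster sets -/
theorem holMap_ext {Y V : CSp} {n : ℕ} (hY : IsNormal n Y) {E : Set Y.pt} (hE : IsAn Y univ E)
    (hd : Dense Eᶜ) {g : Y.pt → V.pt} (hg : ∀ y ∉ E, HolMap Y V g y)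
    (hf : ∀ y, {p | MapClusterPt p (𝓝[Eᶜ] y) g}.Finite) :
    ∃ G : Y.pt → V.pt, (∀ y, HolMap Y V G y) ∧ ∀ y ∉ E, G y = g y := by
  classical
  have h1 : ∀ y, ∃ p, Tendsto g (𝓝[Eᶜ] y) (𝓝 p) := fun y => by
    have := mem_closure_iff_nhdsWithin_neBot.1 (hd y)
    obtain ⟨p, hp⟩ := exists_clusterPt_of_compactSpace (map g (𝓝[Eᶜ] y))
    refine ⟨p, tendsto_nhds_of_unique_mapClusterPt fun q hq => by_contra fun hne => ?_⟩
    obtain ⟨U, U', hU, hU', a, b, c⟩ := ((hf y).subset (sdiff_subset (t := {p}))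
      ).isCompact.separation_of_notMem (x := p) fun h => h.2 rfl
    have h2 : ∀ᶠ z in 𝓝[Eᶜ] y, g z ∈ U ∪ U' := (isCompact_univ.tendsto_nhdsSet_of_mapClusterPt
      (s' := U ∪ U') (.of_forall fun _ => trivial) (fun r _ hr => by
        by_cases e : r = p
        exacts [.inr (e ▸ b), .inl (a ⟨hr, e⟩)])).eventually_mem (hU.union hU').mem_nhdsSet_self
    obtain ⟨W, hW, hWo, hyW⟩ := eventually_nhds_iff.1 (eventually_nhdsWithin_iff.1 h2)
    obtain ⟨F, hF, e⟩ := riem_normal hY hWo (hE.mono (subset_univ _)) (fun z _ => hd z)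
      (f := fun z => if g z ∈ U then 1 else 0) (fun z hz => by
        rcases hW z hz.1 hz.2 with k | k
        · exact hol_congr (hol_const 1 z) (((hg z hz.2).1.eventually_mem (hU.mem_nhds k)).mono
            fun _ h => if_pos h)
        · exact hol_congr (hol_const 0 z) (((hg z hz.2).1.eventually_mem (hU'.mem_nhds k)).mono
            fun _ h => if_neg fun h' => disjoint_left.1 c h' h))
      fun z _ => ⟨1, .of_forall fun z _ => by split_ifs <;> simp⟩
    have h3 : ∀ (t : ℂ) (r : V.pt) (T : Set V.pt), T ∈ 𝓝 r → MapClusterPt r (𝓝[Eᶜ] y) g →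
        (∀ v ∈ T, (if v ∈ U then 1 else 0) = t) → F y = t := fun t r T hT hr k =>
      tendsto_nhds_unique_of_frequently_eq (l := 𝓝[Eᶜ] y)
        (hol_continuousAt (hF y hyW)).continuousWithinAt tendsto_const_nhds
        (((hr.frequently hT).and_eventually ((eventually_mem_nhdsWithin).and
          (eventually_nhdsWithin_of_eventually_nhds (hWo.eventually_mem hyW)))).mono
          fun z h => (e z ⟨h.2.2, h.2.1⟩).trans (k _ h.1))
    exact one_ne_zero ((h3 1 q U (hU.mem_nhds (a ⟨hq, hne⟩)) hq fun _ h => if_pos h).symm.trans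
      (h3 0 p U' (hU'.mem_nhds b) hp fun _ h => if_neg fun h' => disjoint_left.1 c h' h))
  have h2 := continuous_extendFrom hd h1
  have h3 := extendFrom_extends (A := Eᶜ) fun y hy => (hg y hy).1.continuousWithinAt
  refine ⟨_, fun y => ⟨h2.continuousAt, fun f hf => hol_of_cont hY ((isOpen_hol f).preimage h2)
    (hE.mono (subset_univ _)) (fun z _ => hd z) (fun z hz => ?_) (fun z hz =>
      ((hol_continuousAt hz).comp h2.continuousAt).continuousWithinAt) hf⟩, h3⟩
  refine hol_congr ((hg z hz.2).2 f (h3 z hz.2 ▸ hz.1)) ?_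
  filter_upwards [(isClosed_of_isAn hE).isOpen_compl.mem_nhds hz.2] with w hw
  exact congrArg f (h3 w hw)

theorem nlift : StNLift := by
  intro V X V' ν B h H hV' hh hr hd
  have hν : Continuous ν := continuous_iff_continuousAt.2 fun v => (H.hol v).1
  have hc : Continuous h := continuous_iff_continuousAt.2 fun v => (hh v).1
  choose g hg using fun v => hr (mem_range_self v)
  obtain ⟨G, hG, e⟩ := holMap_ext hV' (E := h ⁻¹' B) (H.an.preimage hh) hd (g := g) (fun y hy => by
    have hy' : ν (g y) ∉ B := (hg y).symm ▸ hy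
    have h1 : ContinuousAt g y := fun U hU => by
      obtain ⟨U', a, b, c⟩ := mem_nhds_iff.1 hU
      obtain ⟨T, hT, d, e⟩ := exists_nhds_preimage_subset hν b (z := h y) fun v hv =>
        H.inj _ v hy' (hv.trans (hg y).symm) ▸ c
      exact mem_map.2 <| mem_of_superset ((hT.preimage hc).mem_nhds d) fun w hw =>
        a (e (show ν (g w) ∈ T from (hg w).symm ▸ hw))
    refine ⟨h1, fun f hf => ?_⟩
    obtain ⟨k, hk, e⟩ := H.iso _ f hy' hf
    exact hol_congr ((hh y).2 k (hg y ▸ hk)) ((h1.eventually e).mono fun w hw =>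
      hw.trans (congrArg k (hg w)))) fun y => (H.fin (h y)).subset fun p hp => by
        have h1 := hp.continuousAt_comp hν.continuousAt
        rw [show ν ∘ g = h from funext hg] at h1
        exact eq_of_nhds_neBot (ClusterPt.mono h1 hc.continuousWithinAt)
  refine ⟨G, hG, fun v => congrFun (Continuous.ext_on hd
    (hν.comp (continuous_iff_continuousAt.2 fun v => (hG v).1)) hc fun y hy => ?_) v⟩
  exact (congrArg ν (e y hy)).trans (hg y)

end Vale.Agent.P277Z.Glc
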