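import Vale.Agent.P277Z.Glc.Defs

/-!
# P277, block GLC: the statements about models

See `notes/P277_glc.md`.
-/

open scoped Manifold ContDiff Topology ComplexOrder
open Vale.Agent.P277 hiding Amin IsFlipR
open Vale.Agent.P277.HD Vale.Agent.P277.PH
open Vale.Agent.P272.K Vale.Agent.P285.H281.FD Set Filter
open Vale.Agent.P277Z.Slc (LEq Sig)

noncomputable section

namespace Vale.Agent.P277Z.Glc

/-! ### modifications -/

/-- (PRE) the preimage of a component -/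
def StPre : Prop := ∀ (d : ℕ) (V' V : Mf d) (h : Md V' V) (y : V'.T) (l : Fin V.r),
  h.π y ∈ V.G l ↔ ∃ l', y ∈ V'.G l' ∧ h.o l l' ≠ 0

/-- (JAC) lower bounds for the order of the Jacobian -/
def StJac : Prop := ∀ (d : ℕ) (V' V : Mf d) (h : Md V' V) (l' : Fin V'.r),
  ∑ l, h.o l l' ≤ h.J l' + 1 ∧ (h.J l' ≠ 0 → ∀ l, h.o l l' ≤ h.J l')

/-- (THIN) the components along which the Jacobian vanishes are contracted -/
def StThin : Prop := ∀ (d : ℕ) (V' V : Mf d) (h : Md V' V) (l' : Fin V'.r), h.J l' ≠ 0 →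
  ∀ (X : CSp) (p : V.T → X.pt), HolX d X p → Contr d X ((fun y => p (h.π y)) '' V'.G l')

/-- (SURJ) the strict transform of a stratum is mapped onto the stratum -/
def StSurj : Prop := ∀ (d : ℕ) (V' V : Mf d) (h : Md V' V) (I : Finset (Fin V.r))
  (I' : Finset (Fin V'.r)), h.Over I I' → ∀ y, (∀ l ∈ I', y ∈ V'.G l) →
    h.π '' V'.cc I' y = V.cc I (h.π y)

/-- (UNIQ) existence and uniqueness of strict transforms -/
def StUniq : Prop := ∀ (d : ℕ) (V' V : Mf d) (h : Md V' V) (l : Fin V.r), ∃! l', h.ST l l'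

/-- (ID) -/
def StId : Prop := ∀ (D : Dat) (N d : ℕ) (W : Pm D N d), ∃ h : Hom W W, (∀ y, h.π y = y) ∧
  (∀ l l', h.o l l' = if l = l' then 1 else 0) ∧ ∀ l, h.J l = 0

/-- (COMP) -/
def StComp : Prop := ∀ (D : Dat) (N'' N' N d : ℕ) (W'' : Pm D N'' d) (W' : Pm D N' d)
  (W : Pm D N d) (h' : Hom W'' W') (h : Hom W' W), ∃ k : Hom W'' W, (∀ y, k.π y = h.π (h'.π y)) ∧
    (∀ l l'', k.o l l'' = ∑ l', h.o l l' * h'.o l' l'') ∧
    ∀ l'', k.J l'' = h'.J l'' + ∑ l', h.J l' * h'.o l' l''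

/-- (PULL) the pull back of a model -/
def StPull : Prop := ∀ (D : Dat) (N d : ℕ) (W : Pm D N d) (V' : Mf d) (B : Md V' W.toMf),
  ∃ (W' : Pm D N d) (h : Hom₀ W' W), (⟨W'.toMf, h.toMd⟩ : Σ V', Md V' W.toMf) = ⟨V', B⟩

/-- (MD) a projective log resolution of a model is a modification -/
def StMd : Prop := ∀ (V : Mf 4) (V' : Val.Lg) (π : V'.W → V.T) (new : Finset (Fin V'.r)),
  Val.Res V' V.lg.X π new → (∀ y, π y ∈ V.lg.E → y ∈ V'.E) →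
  ∃ (U : Mf 4) (B : Md U V) (new' : Finset (Fin U.r)),
    (⟨U.lg, B.π, new'⟩ : Σ V' : Val.Lg, (V'.W → V.T) × Finset (Fin V'.r)) = ⟨V', π, new⟩ ∧
    ∀ l, B.J l = 0 ↔ l ∉ new'

/-! ### strata -/

/-- (ADJ) adjunction -/
def StAdj : Prop := ∀ (D : Dat) (N d d' : ℕ) (W : Pm D N d') (I : Finset (Fin W.r)) (y : W.T),
  d + I.card = d' → (∀ l ∈ I, y ∈ W.G l) → (∀ l ∈ I, ∀ j ≤ N, ∀ e, W.α j e l = -(D.m e : ℝ)) →
  ∃ (T : Pm D N d) (E : Emb T W I), range E.ι = W.cc I y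

/-- (EMBH) modifications of strata -/
def StEmbH : Prop := ∀ (D : Dat) (N' N d d' : ℕ) (W' : Pm D N' d') (W : Pm D N d') (h : Hom W' W)
  (I' : Finset (Fin W'.r)) (I : Finset (Fin W.r)) (T' : Pm D N' d) (T : Pm D N d)
  (E' : Emb T' W' I') (E : Emb T W I), h.Over I I' → h.π '' range E'.ι = range E.ι →
  ∃ k : Hom T' T, ∀ y, E.ι (k.π y) = h.π (E'.ι y)

/-! ### fourfolds -/

/-- (MODEL) one more flip -/
def StModel : Prop := ∀ (D : Dat) (N : ℕ) (W : Pm D N 4) exc, W.Res exc →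
  ∃ (W' : Pm D (N + 1) 4) (exc' : Finset (Fin W'.r)), W'.Res exc' ∧ Nonempty (Hom W' W)

/-- (SEP) separation of the components in `S` -/
def StSep : Prop := ∀ (D : Dat) (N : ℕ) (W : Pm D N 4) exc (S : Finset (Fin W.r)), W.Res exc →
  (∀ l ∈ S, W.a N l ≠ -1) →
  ∃ (W' : Pm D N 4) (exc' : Finset (Fin W'.r)) (h : Hom W' W), W'.Res exc' ∧
    (∀ l', h.J l' ≠ 0 → ∃ l₁ ∈ S, ∃ l₂ ∈ S, l₁ ≠ l₂ ∧ h.o l₁ l' ≠ 0 ∧ h.o l₂ l' ≠ 0) ∧
    ∀ l₁ ∈ S, ∀ l₂ ∈ S, l₁ ≠ l₂ → ∀ l₁' l₂', h.ST l₁ l₁' → h.ST l₂ l₂' →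
      Disjoint (W'.G l₁') (W'.G l₂')

/-- (GOOD) -/
def StGood : Prop := ∀ (D : Dat) (N : ℕ) (W : Pm D N 4) exc, W.Res exc →
  ∃ (W' : Pm D N 4) (exc' : Finset (Fin W'.r)), W'.Res exc' ∧ Nonempty (Hom W' W) ∧ W'.Gd

/-- the image of the log canonical components -/
def Pm.Nk {D : Dat} {N d : ℕ} (W : Pm D N d) : Set (D.S.X N).pt :=
  W.p N '' {y | ∃ l, W.a N l = -1 ∧ y ∈ W.G l}

/-- The dlt model `g : Y → X N`; the line bundle `P` is defined by `-Θ`, where the support of `Θ`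
is the union of the log canonical components. -/
structure Pm.Ext {D : Dat} {N : ℕ} (W : Pm D N 4) (Y : CSp) (q : W.T → Y.pt)
    (ex : Finset (Fin W.r)) (g : Y.pt → (D.S.X N).pt) (P : Bd Y.pt) (n : Fin W.r → ℤ) : Prop where
  dlt : W.Dlt Y q ex
  normal : IsNormal 4 Y
  iso : IsoOff Y (D.S.X N) g W.Nk
  fac : ∀ y, g (q y) = W.p N y
  lb : IsLBx Y P
  amp : RelAmple Y (D.S.X N) g P
  trv : TrivOn Y (g ⁻¹' W.Nkᶜ) P
  cmp : ∃ t, Cmp 4 q P (triv W.T) W.G n t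
  pos : ∀ l, W.a N l = -1 → 0 < n l
  zero : ∀ l ∉ ex, W.a N l ≠ -1 → n l = 0

/-- (EXT) extraction of the log canonical places -/
def StExt : Prop := ∀ (D : Dat) (N : ℕ) (W : Pm D N 4) exc, W.Res exc → W.Eff →
  ∃ (W' : Pm D N 4) (exc' : Finset (Fin W'.r)), W'.Res exc' ∧ Nonempty (Hom W' W) ∧
    ∃ Y q ex g P n, W'.Ext Y q ex g P n

/-- (LRES) a log resolution -/
def StLRes : Prop := ∀ (D : Dat) (W : Pm D 0 4), W.LRw →
  ∃ (W' : Pm D 0 4) (exc' : Finset (Fin W'.r)), W'.Res exc' ∧ Nonempty (Hom₀ W' W)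

/-- (EXC) being exceptional does not depend on the time -/
def StExc : Prop := ∀ (D : Dat) (N : ℕ) (W : Pm D N 4) (l : Fin W.r),
  (∀ j < N, W.Exc j l ↔ W.Exc (j + 1) l) ∧
  (∀ j ≤ N, (∀ y ∈ W.G l, D.Fl j (W.p j y)) → W.Exc j l) ∧
  ∀ exc, W.Res exc → (W.Exc N l ↔ l ∈ exc)

/-- (REG) change of the generators -/
def StReg : Prop := ∀ (D : Dat) (W : Pm D 0 4) exc, W.Res exc → W.Eff →
  ∃ (D' : Dat) (W' : Pm D' 0 4) (exc' : Finset (Fin W'.r)), W'.Res exc' ∧ W'.Eff ∧ W'.Adjw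

/-- (DISCW) the coefficients of the components which are not contracted on the dlt model -/
def StDiscW : Prop := ∀ (D : Dat) (N d : ℕ) (T : Pm D N d) (W : Pm D N 4) (I : Finset (Fin W.r))
  (E : Emb T W I) (Y : CSp) (q : W.T → Y.pt) (ex : Finset (Fin W.r)) (B : Set ℝ), W.Dlt Y q ex →
  P277Z.Glc.Disc B → (∀ e, D.ρ e ∈ B) → (∀ l ∉ ex, -W.a N l ∈ B) →
  ∀ l, ¬ Contr d Y ((fun y => q (E.ι y)) '' T.G l) → -T.a N l ∈ Sig B I.card

/-- the model misses the flips after the time `J` -/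
def Tw.Off {D : Dat} {d : ℕ} (S : Tw D d) (J : ℕ) : Prop :=
  ∀ j ≥ J, ∀ y, ¬ D.Fl j ((S.T j).p j y)

/-- the components over the flipping locus are contracted on the dlt model -/
def Tws.Ctr {D : Dat} {d : ℕ} (S : Tws D d) (j : ℕ) : Prop :=
  ∀ l, (S.T (j + 1)).a j l < (S.T (j + 1)).a (j + 1) l →
    Contr d (S.Y j) ((fun y => S.q j ((S.E (j + 1)).ι y)) '' (S.T (j + 1)).G l)

/-- the flip induces small maps of the threefolds -/
def Tw.Sm {D : Dat} {d : ℕ} (S : Tw D d) (j : ℕ) : Prop :=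
  ¬ DimLe (D.S.X j) 2 (range ((S.T j).p j)) ∧
  ∀ l, (S.T (j + 1)).a j l < (S.T (j + 1)).a (j + 1) l →
    DimLe (D.S.X j) 1 ((S.T (j + 1)).p j '' (S.T (j + 1)).G l) ∧
    DimLe (D.S.X (j + 1)) 1 ((S.T (j + 1)).p (j + 1) '' (S.T (j + 1)).G l)

/-- (SIX) the end of section 5, and section 6 -/
def StSix : Prop := ∀ (D : Dat) (d : ℕ) (S : Tws D d) (J : ℕ), d ≤ 3 → (∀ j ≥ J, S.Ctr j) →
  (∃ J', S.Off J') ∨ d = 3 ∧ ∃ J', ∀ j ≥ J', S.Sm j

/-- the log canonical components are not hit by the flips -/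
def Pm.Unh {D : Dat} {d : ℕ} (W : Pm D 0 d) : Prop :=
  ∀ l, W.a 0 l = -1 → ∀ y ∈ W.G l, W.p 0 y ∉ D.hit

/-- (GKLT') the klt case -/
def StGklt : Prop := ∀ (D : Dat) (W : Pm D 0 4) exc, W.Res exc → (∀ l, -1 < W.a 0 l) → W.Eff →
  False

/-- (GREL₁) flips outside the log canonical centres, on a dlt model -/
def StGrel₁ : Prop := ∀ (D : Dat) (W : Pm D 0 4) Y q ex g P n, W.Ext Y q ex g P n → W.Eff →
  W.Unh → False

/-- (GREL) flips outside the log canonical centres -/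
def StGrel : Prop := ∀ (D : Dat) (W : Pm D 0 4), W.LRw → W.Eff → W.Unh → False

/-- (SBR) section 7: threefold strata -/
def StSBr : Prop := ∀ (D : Dat) (S : Tws D 3) (J : ℕ), (∀ j ≥ J, S.Sm j) →
  (∀ j ≥ 1, ∀ l, ¬ DimLe (D.S.X j) 1 ((S.T j).p j '' (S.T j).G l) → (S.T j).a j l ≤ 0) →
  (∀ j l, (S.T j).a j l = -1 → ∀ y ∈ (S.T j).G l, (S.T j).p j y ∉ (D.shift j).hit) →
  ∃ J', S.Off J'

/-- (GLC') -/
def StGlc : Prop := ∀ (D : Dat) (W : Pm D 0 4) exc, W.Res exc → W.Eff → False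

end Vale.Agent.P277Z.Glc
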