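import Vale.Agent.P277Z.Glc.Adj4
import Vale.Agent.P277Z.Glc.Sk

/-!
# P277, GLC: adjunction
-/

namespace Vale.Agent.P277Z.Glc

/-- (ADJ) -/
theorem adj : StAdj := by
  intro D N d d' W I y hd hy hI
  obtain ⟨d₁, T, E, h⟩ := W.exists_emb I hI hy
  obtain rfl : d₁ = d := Nat.add_right_cancel (E.card.trans hd.symm)
  exact ⟨T, E, h⟩

end Vale.Agent.P277Z.Glc
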