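import Vale.Agent.P277Z.Val.Sub

/-!
# P277, GLC: the residue along a hyperplane (linear algebra)
-/

open Vale.Agent.P272.K Set

noncomputable section

namespace Vale.Agent.P277Z.Glc.Ad

variable {d : ℕ}

/-- forget the first coordinate -/
def tlL (d : ℕ) : Cm (d + 1) →L[ℂ] Cm d :=
  ContinuousLinearMap.pi fun j => ContinuousLinearMap.proj j.succ

/-- the map with the first column `v` and the other columns `A` -/
def cv (v : Cm (d + 1)) (A : Cm d →L[ℂ] Cm (d + 1)) : Cm (d + 1) →L[ℂ] Cm (d + 1) :=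
  (ContinuousLinearMap.proj (R := ℂ) (φ := fun _ : Fin (d + 1) => ℂ) 0).smulRight v + A.comp (tlL d)

theorem cv_apply (v : Cm (d + 1)) (A : Cm d →L[ℂ] Cm (d + 1)) (w : Cm (d + 1)) :
    cv v A w = w 0 • v + A (tlL d w) := rfl

/-- `w ↦ (0, w)` -/
def inL (d : ℕ) : Cm d →L[ℂ] Cm (d + 1) := Val.insL 0

theorem tl_in (w : Cm d) : tlL d (inL d w) = w := Val.rem_ins 0 w

theorem in_zero (w : Cm d) : inL d w 0 = 0 := Val.insL_self 0 w

theorem tl_single (c : ℂ) : tlL d (Pi.single 0 c) = 0 := by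
  funext j
  show (Pi.single 0 c : Cm (d + 1)) j.succ = 0
  simp

/-- block triangular maps -/
def blk (c : ℂ) (u : Cm d) (B : Cm d →L[ℂ] Cm d) : Cm (d + 1) →L[ℂ] Cm (d + 1) :=
  cv (Pi.single 0 c + inL d u) ((inL d).comp B)

theorem cv_blk (v : Cm (d + 1)) (A : Cm d →L[ℂ] Cm (d + 1)) (c : ℂ) (u : Cm d)
    (B : Cm d →L[ℂ] Cm d) : (cv v A).comp (blk c u B) = cv (c • v + A u) (A.comp B) := by
  ext1 w
  simp only [ContinuousLinearMap.comp_apply, blk, cv_apply, map_add, map_smul, tl_in, tl_single,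
    in_zero, Pi.single_eq_same, smul_add, smul_smul, map_zero, zero_smul, add_zero, zero_add,
    add_assoc]

theorem det_eq {n : ℕ} (B : Cm n →L[ℂ] Cm n) :
    B.det = (Matrix.of fun p q => B (Pi.single q 1) p).det := by
  rw [ContinuousLinearMap.det, ← LinearMap.det_toMatrix']
  congr 1

theorem det_blk (c : ℂ) (u : Cm d) (B : Cm d →L[ℂ] Cm d) : (blk c u B).det = c * B.det := by
  have h1 : ∀ j : Fin d, tlL d (Pi.single j.succ (1 : ℂ)) = Pi.single j 1 := fun j => by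
    funext i
    show (Pi.single j.succ (1 : ℂ) : Cm (d + 1)) i.succ = _
    simp [Pi.single_apply]
  have h2 : ∀ (w : Cm d) (i : Fin d), inL d w i.succ = w i := fun w i => congrFun (tl_in w) i
  rw [det_eq, det_eq B, Matrix.det_succ_row_zero, Fin.sum_univ_succ]
  have h3 : ∀ j : Fin d, blk c u B (Pi.single j.succ 1) 0 = 0 := fun j => by
    simp [blk, cv_apply, in_zero]
  simp only [Matrix.of_apply, h3, mul_zero, zero_mul, Finset.sum_const_zero, add_zero]
  have h4 : blk c u B (Pi.single 0 1) 0 = c := by simp [blk, cv_apply, in_zero]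
  rw [h4]
  simp only [Fin.val_zero, pow_zero, one_mul, Fin.succAbove_zero]
  congr 2
  ext p q
  simp [blk, cv_apply, h1, h2]

theorem det_comp' {n : ℕ} (A B : Cm n →L[ℂ] Cm n) : (A.comp B).det = A.det * B.det :=
  LinearMap.det_comp (A : Cm n →ₗ[ℂ] Cm n) (B : Cm n →ₗ[ℂ] Cm n)

theorem det_id' {n : ℕ} : (ContinuousLinearMap.id ℂ (Cm n)).det = 1 := LinearMap.det_id

theorem exists_one {l : Cm (d + 1) →L[ℂ] ℂ} (h : l ≠ 0) : ∃ v, l v = 1 := by
  obtain ⟨v, hv⟩ := DFunLike.ne_iff.1 h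
  have hv' : l v ≠ 0 := hv
  exact ⟨(l v)⁻¹ • v, by simp [hv']⟩

/-- the residue factor -/
def rs (l : Cm (d + 1) →L[ℂ] ℂ) (A : Cm d →L[ℂ] Cm (d + 1)) : ℂ :=
  (cv (Classical.epsilon fun v => l v = 1) A).det

/-- `l` is an equation of the image of `A` -/
structure Ok (l : Cm (d + 1) →L[ℂ] ℂ) (A : Cm d →L[ℂ] Cm (d + 1)) : Prop where
  ne : l ≠ 0
  inj : Function.Injective A
  zero : ∀ u, l (A u) = 0

variable {l : Cm (d + 1) →L[ℂ] ℂ} {A : Cm d →L[ℂ] Cm (d + 1)}

theorem Ok.mem (h : Ok l A) {v : Cm (d + 1)} (hv : l v = 0) : ∃ u, A u = v := by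
  have h1 : (A : Cm d →ₗ[ℂ] Cm (d + 1)).range ≤ (l : Cm (d + 1) →ₗ[ℂ] ℂ).ker := by
    rintro _ ⟨u, rfl⟩
    exact h.zero u
  have h2 : (l : Cm (d + 1) →ₗ[ℂ] ℂ).range = ⊤ := by
    obtain ⟨v, hv⟩ := exists_one h.ne
    exact LinearMap.range_eq_top.2 fun c => ⟨c • v, by simp [hv]⟩
  have h3 := (l : Cm (d + 1) →ₗ[ℂ] ℂ).finrank_range_add_finrank_ker
  rw [h2, finrank_top, Module.finrank_self, Module.finrank_fin_fun] at h3
  have h4 := LinearMap.finrank_range_of_inj (f := (A : Cm d →ₗ[ℂ] Cm (d + 1))) h.inj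
  rw [Module.finrank_fin_fun] at h4
  have h5 := Submodule.eq_of_le_of_finrank_eq h1 (by omega)
  have h6 : v ∈ (l : Cm (d + 1) →ₗ[ℂ] ℂ).ker := hv
  rw [← h5] at h6
  exact h6

theorem Ok.det (h : Ok l A) (v : Cm (d + 1)) : (cv v A).det = l v * rs l A := by
  have h0 := Classical.epsilon_spec (exists_one h.ne)
  set v₀ := Classical.epsilon fun v => l v = 1
  obtain ⟨u, hu⟩ := h.mem (v := v - l v • v₀) (by simp [h0])
  have h1 := cv_blk v₀ A (l v) u (ContinuousLinearMap.id ℂ _)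
  rw [hu, add_sub_cancel, ContinuousLinearMap.comp_id] at h1
  rw [← h1, det_comp', det_blk, det_id', mul_one, mul_comm]
  rfl

theorem Ok.rs_ne (h : Ok l A) : rs l A ≠ 0 := by
  have h0 := Classical.epsilon_spec (exists_one h.ne)
  intro h1
  refine LinearMap.det_eq_zero_iff_ker_ne_bot.1 h1 (LinearMap.ker_eq_bot'.2 fun w hw => ?_)
  have h2 : w 0 • (Classical.epsilon fun v => l v = 1) + A (tlL d w) = 0 := hw
  have h3 : w 0 = 0 := by simpa [h0, h.zero] using congrArg l h2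
  rw [h3, zero_smul, zero_add] at h2
  have h4 : tlL d w = 0 := h.inj (h2.trans (map_zero A).symm)
  funext i
  exact Fin.cases h3 (fun j => congrFun h4 j) i

theorem rs_right (l : Cm (d + 1) →L[ℂ] ℂ) (A : Cm d →L[ℂ] Cm (d + 1)) (B : Cm d →L[ℂ] Cm d) :
    rs l (A.comp B) = B.det * rs l A := by
  have h1 := cv_blk (Classical.epsilon fun v => l v = 1) A 1 0 B
  rw [one_smul, map_zero, add_zero] at h1
  rw [rs, ← h1, det_comp', det_blk, one_mul, mul_comm]
  rfl

theorem rs_left {J : Cm (d + 1) →L[ℂ] Cm (d + 1)} (h : Ok l (J.comp A)) (h' : l.comp J ≠ 0) :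
    J.det * rs (l.comp J) A = rs l (J.comp A) := by
  have h0 := Classical.epsilon_spec (exists_one h')
  have h1 := h.det (J (Classical.epsilon fun v => l.comp J v = 1))
  have h2 : l (J (Classical.epsilon fun v => l.comp J v = 1)) = 1 := h0
  rw [h2, one_mul] at h1
  rw [← h1, rs, ← det_comp']
  congr 1
  ext1 w
  simp [cv_apply]

theorem rs_smul (h : Ok l A) {c : ℂ} (hc : c ≠ 0) : c * rs (c • l) A = rs l A := by
  have h0 := Classical.epsilon_spec (exists_one (smul_ne_zero hc h.ne))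
  have h1 := h.det (Classical.epsilon fun v => (c • l) v = 1)
  have h2 : c * l (Classical.epsilon fun v => (c • l) v = 1) = 1 := h0
  rw [rs, h1, ← mul_assoc, h2, one_mul]

/-- the residue factor depends holomorphically on the data -/
theorem an_rs {k : ℕ} {l : Cm k → Cm (d + 1) →L[ℂ] ℂ} {A : Cm k → Cm d →L[ℂ] Cm (d + 1)} {z : Cm k}
    (hl : AnalyticAt ℂ l z) (hA : AnalyticAt ℂ A z) (h : ∀ᶠ w in nhds z, Ok (l w) (A w)) :
    AnalyticAt ℂ (fun w => rs (l w) (A w)) z := by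
  obtain ⟨v, hv⟩ := exists_one h.self_of_nhds.ne
  have h1 : AnalyticAt ℂ (fun w => l w v) z :=
    ((ContinuousLinearMap.apply ℂ ℂ v).analyticAt _).comp hl
  have h2 : AnalyticAt ℂ (fun w => (cv v (A w)).det) z := by
    simp only [det_eq, Matrix.det_apply']
    refine Finset.analyticAt_fun_sum _ fun σ _ =>
      analyticAt_const.mul (Finset.analyticAt_fun_prod _ fun q _ => ?_)
    have h4 : AnalyticAt ℂ (fun w => A w (tlL d (Pi.single q 1))) z :=
      ((ContinuousLinearMap.apply ℂ (Cm (d + 1)) (tlL d (Pi.single q 1))).analyticAt _).comp hA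
    have h3 : AnalyticAt ℂ (fun w => cv v (A w) (Pi.single q 1)) z := analyticAt_const.add h4
    exact analyticAt_pi_iff.1 h3 (σ q)
  have h3 : l z v ≠ 0 := by
    rw [hv]
    exact one_ne_zero
  refine (h2.div h1 h3).congr ?_
  filter_upwards [h, h1.continuousAt.eventually_ne h3] with w h4 h5
  rw [Pi.div_apply, h4.det, mul_div_cancel_left₀ _ h5]

end Vale.Agent.P277Z.Glc.Ad
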