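import Vale.Agent.P277Z.Glc.Adj2

/-!
# P277, GLC: adjunction for the comparison functions
-/

set_option linter.unusedSectionVars false

open scoped Manifold ContDiff Topology
open Vale.Agent.P272.K Vale.Agent.P285.H281.FD Vale.Agent.P277 Set Filter
open Vale.Agent.P277.HD (pull)
open Vale.Agent.P277.PH (HolF at_chartAt ev_symm)
open Vale.Agent.P277Z.Slc (LEq dd tr dd_chart)
open Vale.Agent.P277Z.Val (IsSnc IsCo Sb Nch holF_cont)

noncomputable section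

namespace Vale.Agent.P277Z.Glc.Ad

theorem det_jacM {n : ℕ} {W : Type} [TopologicalSpace W] [ChartedSpace (Cm n) W]
    [IsManifold 𝓘(ℂ, Cm n) ω W] {e e' : Chart n W} {x : W} (he : At e x) (he' : At e' x) :
    (jacM e e' x).det = (tr e' e x).det := by
  rw [det_eq]
  congr 1
  ext p q
  rw [jacM_eq, jmat_apply (transition_differentiableAt he he')]
  rfl

variable {d : ℕ} {T W : Type} [TopologicalSpace T] [ChartedSpace (Cm d) T]
  [IsManifold 𝓘(ℂ, Cm d) ω T] [TopologicalSpace W] [ChartedSpace (Cm (d + 1)) W]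
  [IsManifold 𝓘(ℂ, Cm (d + 1)) ω W] {ι : T → W}

/-- the differential of `ι` -/
def dI (ι : T → W) (ε : Chart (d + 1) W) (k : Chart d T) (x : T) : Cm d →L[ℂ] Cm (d + 1) :=
  fderiv ℂ (fun z => ε (ι (k.symm z))) (k x)

/-- the residue of `dz / ζ` is `RR` times `dw` -/
def RR (ι : T → W) (ζ : W → ℂ) (ε : Chart (d + 1) W) (k : Chart d T) (x : T) : ℂ :=
  rs (dd ζ ε (ι x)) (dI ι ε k x)

variable {S : Set W} {ζ : W → ℂ} {ε ε₁ : Chart (d + 1) W} {k k₁ : Chart d T} {x : T}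

theorem ok (hι : Sb d (d + 1) ι) (h0 : ∀ x, ι x ∈ S) (hζ : LEq (d + 1) S (ι x) ζ) (he : At ε (ι x))
    (hk : At k x) : Ok (dd ζ ε (ι x)) (dI ι ε k x) := by
  refine ⟨(hζ.2 ε he).2 (hζ.mem.2 (h0 x)), (hι.holo x k ε hk he).2, fun u => ?_⟩
  have h2 : DifferentiableAt ℂ (fun z => ζ (ε.symm z)) (ε (ι (k.symm (k x)))) := by
    rw [hk.left_inv]
    exact (hζ.2 ε he).1.differentiableAt
  have h3 := fderiv_comp (k x) h2 (hι.holo x k ε hk he).1.differentiableAt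
  have h4 : ((fun z => ζ (ε.symm z)) ∘ fun z => ε (ι (k.symm z))) =ᶠ[𝓝 (k x)] fun _ => 0 := by
    filter_upwards [ev_symm hk.2 (hι.cont.continuousAt.eventually (hζ.1.and (Slc.At.near he)))]
      with z hz
    simp only [Function.comp_apply, hz.2.left_inv, hz.1.2 (h0 _)]
  rw [h4.fderiv_eq, hk.left_inv, fderiv_fun_const] at h3
  exact (congrArg (fun A : Cm d →L[ℂ] ℂ => A u) h3).symm

theorem dI_right (hι : Sb d (d + 1) ι) (he : At ε (ι x)) (hk : At k x) (hk₁ : At k₁ x) :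
    dI ι ε k₁ x = (dI ι ε k x).comp (tr k k₁ x) := by
  have h2 : DifferentiableAt ℂ (fun z => ε (ι (k.symm z))) (k (k₁.symm (k₁ x))) := by
    rw [hk₁.left_inv]
    exact (hι.holo x k ε hk he).1.differentiableAt
  have h3 := fderiv_comp (k₁ x) h2 (transition_differentiableAt hk₁ hk)
  have h4 : ((fun z => ε (ι (k.symm z))) ∘ fun z => k (k₁.symm z)) =ᶠ[𝓝 (k₁ x)]
      fun z => ε (ι (k₁.symm z)) := by
    filter_upwards [ev_symm hk₁.2 (Slc.At.near hk)] with z hz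
    simp only [Function.comp_apply, hz.left_inv]
  rw [h4.fderiv_eq, hk₁.left_inv] at h3
  exact h3

theorem dI_left (hι : Sb d (d + 1) ι) (he : At ε (ι x)) (he₁ : At ε₁ (ι x)) (hk : At k x) :
    dI ι ε k x = (tr ε ε₁ (ι x)).comp (dI ι ε₁ k x) := by
  have h2 : DifferentiableAt ℂ (fun z => ε (ε₁.symm z)) (ε₁ (ι (k.symm (k x)))) := by
    rw [hk.left_inv]
    exact transition_differentiableAt he₁ he
  have h3 := fderiv_comp (k x) h2 (hι.holo x k ε₁ hk he₁).1.differentiableAt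
  have h4 : ((fun z => ε (ε₁.symm z)) ∘ fun z => ε₁ (ι (k.symm z))) =ᶠ[𝓝 (k x)]
      fun z => ε (ι (k.symm z)) := by
    filter_upwards [ev_symm hk.2 (hι.cont.continuousAt.eventually (Slc.At.near he₁))] with z hz
    simp only [Function.comp_apply, hz.left_inv]
  rw [h4.fderiv_eq, hk.left_inv] at h3
  exact h3

theorem RR_law (hι : Sb d (d + 1) ι) (h0 : ∀ x, ι x ∈ S) {ζ₁ u : W → ℂ}
    (hζ : LEq (d + 1) S (ι x) ζ) (hu : HolF (d + 1) u (ι x)) (hu0 : u (ι x) ≠ 0)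
    (h1 : ∀ᶠ y in 𝓝 (ι x), ζ₁ y = u y * ζ y) (he : At ε (ι x)) (he₁ : At ε₁ (ι x)) (hk : At k x)
    (hk₁ : At k₁ x) : u (ι x) * (jacM ε₁ ε (ι x)).det * RR ι ζ₁ ε₁ k₁ x =
      RR ι ζ ε k x * (jacM k₁ k x).det := by
  have a1 : dd ζ₁ ε₁ (ι x) = u (ι x) • dd ζ ε₁ (ι x) :=
    (Slc.dd_congr h1 he₁).trans (Slc.dd_mul hu hζ.hol (hζ.mem.2 (h0 x)) he₁)
  have a2 := rs_smul (ok hι h0 hζ he₁ hk₁) hu0
  have a3 := ok hι h0 hζ he hk₁
  have a4 := (ok hι h0 hζ he₁ hk₁).ne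
  rw [dI_left hι he he₁ hk₁] at a3
  rw [dd_chart hζ.hol he he₁] at a4
  have a5 := rs_left a3 a4
  rw [← dd_chart hζ.hol he he₁, ← dI_left hι he he₁ hk₁, dI_right hι he hk hk₁, rs_right] at a5
  rw [RR, RR, a1, det_jacM he₁ he, det_jacM hk₁ hk, mul_right_comm, a2, mul_comm, a5, mul_comm]

theorem RR_hol (hι : Sb d (d + 1) ι) (h0 : ∀ x, ι x ∈ S) (hζ : LEq (d + 1) S (ι x) ζ)
    (he : At ε (ι x)) (hk : At k x) : HolF d (RR ι ζ ε k) x := by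
  intro c hc
  refine an_rs (l := fun z => dd ζ ε (ι (c.symm z))) (A := fun z => dI ι ε k (c.symm z)) ?_ ?_ ?_
  · refine AnalyticAt.fun_comp (g := fderiv ℂ fun z => ζ (ε.symm z))
      (f := fun z => ε (ι (c.symm z))) ?_ (hι.holo x c ε hc he).1
    rw [hc.left_inv]
    exact (hζ.2 ε he).1.fderiv
  · refine AnalyticAt.fun_comp (g := fderiv ℂ fun z => ε (ι (k.symm z)))
      (f := fun z => k (c.symm z)) ?_ (transition hc hk).analyticAt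
    rw [hc.left_inv]
    exact (hι.holo x k ε hk he).1.fderiv
  · filter_upwards [ev_symm hc.2 ((hι.cont.continuousAt.eventually
      (hζ.near.and (Slc.At.near he))).and (Slc.At.near hk))] with z hz
    exact ok hι h0 hz.1.1 hz.1.2 hz.2

section main

variable [T2Space W] [CompactSpace W] {r : ℕ} {G : Fin r → Set W} {l₀ : Fin r} {X : Type}
  {p : W → X} {L : Bd X} {M : Bd W} {m Q : ℕ} {n : Fin r → ℤ}

/-- `v` is the residue of `t` -/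
def QQ (ι : T → W) (G : Fin r → Set W) (l₀ : Fin r) (q : ℕ) (t : Chart (d + 1) W → W → ℂ)
    (k : Chart d T) (x : T) (v : ℂ) : Prop :=
  ∃ (ε : Chart (d + 1) W) (ζ F : W → ℂ), At ε (ι x) ∧ LEq (d + 1) (G l₀) (ι x) ζ ∧
    ContinuousAt F (ι x) ∧ (∀ᶠ y in 𝓝 (ι x), y ∉ ⋃ l, G l → t ε y * ζ y ^ q = F y) ∧
    v = F (ι x) * RR ι ζ ε k x ^ q

variable {t : L.ι → ((((Bd.can (d + 1) W).pow m).mul M).pow Q).ι → W → ℂ}

theorem QQ.law (hG : IsSnc (d + 1) G) (hι : Sb d (d + 1) ι) (h0 : ∀ x, ι x ∈ G l₀)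
    (hL : IsLB (d + 1) (pull p L)) (hM : IsLB (d + 1) M)
    (ht : Cmp (d + 1) p L ((((Bd.can (d + 1) W).pow m).mul M).pow Q) G n t) {i i₁ : L.ι}
    {μ μ₁ : M.ι} {v v₁ : ℂ} (h : QQ ι G l₀ (m * Q) (fun ε => t i (ε, μ)) k x v)
    (h₁ : QQ ι G l₀ (m * Q) (fun ε => t i₁ (ε, μ₁)) k₁ x v₁) (hk : At k x) (hk₁ : At k₁ x)
    (hi : p (ι x) ∈ L.U i) (hi₁ : p (ι x) ∈ L.U i₁) (hμ : ι x ∈ M.U μ) (hμ₁ : ι x ∈ M.U μ₁) :
    v₁ = L.g i i₁ (p (ι x)) * v * ((jacM k₁ k x).det ^ m * M.g μ₁ μ (ι x)) ^ Q := by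
  obtain ⟨ε, ζ, F, a1, a2, a3, a4, rfl⟩ := h
  obtain ⟨ε₁, ζ₁, F₁, b1, b2, b3, b4, rfl⟩ := h₁
  obtain ⟨u, c1, c2, c3⟩ := unit a2 b2
  have c4 := RR_law hι h0 a2 c1 c2 c3 a1 b1 hk hk₁
  have k1 : ContinuousAt (fun y => L.g i i₁ (p y)) (ι x) :=
    holF_cont (n := d + 1) fun e he => (hL.holo i i₁ e _ he hi hi₁).analyticAt
  have k2 : ContinuousAt (fun y => M.g μ₁ μ y) (ι x) :=
    holF_cont (n := d + 1) fun e he => (hM.holo μ₁ μ e _ he hμ₁ hμ).analyticAt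
  have k3 : ContinuousAt (fun y => (jacM ε₁ ε y).det) (ι x) :=
    holF_cont (n := d + 1) fun e he => (Slc.isLB_can.holo ε₁ ε e _ he b1 a1).analyticAt
  have k4 : F₁ (ι x) = L.g i i₁ (p (ι x)) * F (ι x) * u (ι x) ^ (m * Q) *
      ((jacM ε₁ ε (ι x)).det ^ m * M.g μ₁ μ (ι x)) ^ Q := by
    refine tendsto_nhds_unique_of_frequently_eq b3.tendsto
      (((k1.mul a3).mul ((holF_cont c1).pow _)).mul (((k3.pow m).mul k2).pow Q)).tendsto ?_
    refine ((hG.freq (y := ι x) ∅ (by simp)).and_eventually (a4.and (b4.and (c3.and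
      ((Slc.At.near a1).and ((Slc.At.near b1).and (((hL.isOpen i).eventually_mem hi).and
      (((hL.isOpen i₁).eventually_mem hi₁).and (((hM.isOpen μ).eventually_mem hμ).and
      ((hM.isOpen μ₁).eventually_mem hμ₁)))))))))).mono ?_
    rintro y ⟨e0, e1, e2, e3, e4, e5, e6, e7, e8, e9⟩
    have e10 : y ∉ ⋃ l, G l := by simpa using e0
    have e11 := ht.change y i i₁ (ε, μ) (ε₁, μ₁) e10 e6 e7 ⟨e4, e8⟩ ⟨e5, e9⟩
    have e12 : ((((Bd.can (d + 1) W).pow m).mul M).pow Q).g (ε₁, μ₁) (ε, μ) y =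
      ((jacM ε₁ ε y).det ^ m * M.g μ₁ μ y) ^ Q := rfl
    simp only [Pi.mul_apply, Pi.pow_apply]
    have e13 : t i (ε, μ) y * ζ y ^ (m * Q) = F y := e1 e10
    have e14 : t i₁ (ε₁, μ₁) y * ζ₁ y ^ (m * Q) = F₁ y := e2 e10
    rw [← e13, ← e14, e11, e12, e3]
    ring
  have k5 := congrArg (· ^ (m * Q)) c4
  simp only [mul_pow] at k5
  rw [k4]
  simp only [mul_pow, ← pow_mul]
  linear_combination L.g i i₁ (p (ι x)) * F (ι x) * M.g μ₁ μ (ι x) ^ Q * k5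

/-- (ADJ) the comparison functions on the component `G l₀` -/
theorem cmp_adj (hG : IsSnc (d + 1) G) (hι : Sb d (d + 1) ι) (h0 : ∀ x, ι x ∈ G l₀) {r' : ℕ}
    {G' : Fin r' → Set T} (hc : ∀ l, IsClosed (G' l)) {par : Fin r' → Fin r} (hp : ∀ l, par l ≠ l₀)
    (hm : ∀ y l', l' ≠ l₀ → (ι y ∈ G l' ↔ ∃ l, par l = l' ∧ y ∈ G' l))
    (hd : ∀ l₁ l₂, l₁ ≠ l₂ → par l₁ = par l₂ → Disjoint (G' l₁) (G' l₂))
    (hl : ∀ y l ζ, y ∈ G' l → LEq (d + 1) (G (par l)) (ι y) ζ → LEq d (G' l) y (ζ ∘ ι))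
    (hL : IsLB (d + 1) (pull p L)) (hM : IsLB (d + 1) M) (hn : n l₀ = -(m * Q : ℕ))
    (ht : Cmp (d + 1) p L ((((Bd.can (d + 1) W).pow m).mul M).pow Q) G n t) :
    ∃ t', Cmp d (fun y => p (ι y)) L ((((Bd.can d T).pow m).mul (pull ι M)).pow Q) G'
      (fun l => n (par l)) t' := by
  classical
  have key : ∀ x i (k : Chart d T) μ, p (ι x) ∈ L.U i → At k x → ι x ∈ M.U μ →
      ∃ (u : T → ℂ) (ζ : Fin r → W → ℂ), HolF d u x ∧ u x ≠ 0 ∧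
        (∀ l, LEq (d + 1) (G l) (ι x) (ζ l)) ∧ ∀ᶠ y in 𝓝 x, y ∉ ⋃ l, G' l →
          QQ ι G l₀ (m * Q) (fun ε => t i (ε, μ)) k y
            (u y * ∏ l ∈ Finset.univ.erase l₀, ζ l (ι y) ^ n l) := by
    intro x i k μ hi hk hμ
    have he := at_chartAt (n := d + 1) (ι x)
    set ε := chartAt (Cm (d + 1)) (ι x)
    obtain ⟨ζ, u, a1, a2, a3, a4⟩ := ht.div (ι x) i (ε, μ) hi ⟨he, hμ⟩
    refine ⟨fun y => u (ι y) * RR ι (ζ l₀) ε k y ^ (m * Q), ζ, (hι.holF a2).mul fun c hc =>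
      (RR_hol hι h0 (a1 l₀) he hk c hc).fun_pow _,
      mul_ne_zero a3 (pow_ne_zero _ (ok hι h0 (a1 l₀) he hk).rs_ne), a1, ?_⟩
    filter_upwards [hι.cont.continuousAt.eventually ((eventually_all.2 fun l => (a1 l).near).and
      ((Val.holF_ev a2).and (a4.eventually_nhds.and (Slc.At.near he))))] with y ⟨b1, b2, b3, b4⟩ hy
    refine ⟨ε, ζ l₀, fun z => u z * ∏ l ∈ Finset.univ.erase l₀, ζ l z ^ n l, b4, b1 l₀,
      (holF_cont b2).mul (tendsto_finsetProd _ fun l hl => ?_), ?_, by ring⟩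
    · refine (b1 l).hol.continuousAt.zpow₀ _ (Or.inl fun c => ?_)
      obtain ⟨j, -, hj⟩ := (hm y l (Finset.ne_of_mem_erase hl)).1 ((b1 l).mem.1 c)
      exact hy (mem_iUnion.2 ⟨j, hj⟩)
    · filter_upwards [b3, (b1 l₀).1] with z c1 c2 c3
      have c4 : ζ l₀ z ≠ 0 := fun c => c3 (mem_iUnion.2 ⟨l₀, c2.1 c⟩)
      rw [c1 c3, ← Finset.mul_prod_erase _ _ (Finset.mem_univ l₀), hn, zpow_neg, zpow_natCast]
      field_simp
  refine ⟨fun i j x => Classical.epsilon (QQ ι G l₀ (m * Q) (fun ε => t i (ε, j.2)) j.1 x),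
    fun x i j hi hj => ?_, fun x i i₁ j j₁ hx hi hi₁ hj hj₁ => ?_⟩
  · obtain ⟨u, ζ, a1, a2, a3, a4⟩ := key x i j.1 j.2 hi hj.1 hj.2
    refine mon_par (J := Finset.univ.erase l₀) (ζ := fun l y => ζ l (ι y)) hc (fun l => by simp [hp])
      (fun l₁ l₂ b1 b2 b3 => by_contra fun b4 => disjoint_left.1 (hd _ _ b4 b3) b1 b2)
      (fun l b => hl x l _ b (a3 _)) (fun l _ => hι.holF (a3 l).hol)
      (fun l b c => (hm x l (Finset.ne_of_mem_erase b)).1 ((a3 l).mem.1 c)) a1 a2 ?_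
    filter_upwards [a4, Slc.At.near hj.1, hι.cont.continuousAt.eventually
      (((hL.isOpen i).eventually_mem hi).and ((hM.isOpen j.2).eventually_mem hj.2))]
      with y b1 b2 b3 hy
    have b4 := QQ.law hG hι h0 hL hM ht (b1 hy) (Classical.epsilon_spec ⟨_, b1 hy⟩) b2 b2 b3.1 b3.1
      b3.2 b3.2
    have b5 : L.g i i (p (ι y)) = 1 := mul_left_cancel₀ (hL.ne_zero i i _ b3.1 b3.1)
      ((hL.cocycle i i i _ b3.1 b3.1 b3.1).trans (mul_one _).symm)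
    have b6 : M.g j.2 j.2 (ι y) = 1 := mul_left_cancel₀ (hM.ne_zero _ _ _ b3.2 b3.2)
      ((hM.cocycle _ _ _ _ b3.2 b3.2 b3.2).trans (mul_one _).symm)
    have b7 : (jacM j.1 j.1 y).det = 1 := mul_left_cancel₀ (Slc.isLB_can.ne_zero _ _ _ b2 b2)
      ((Slc.isLB_can.cocycle _ _ _ _ b2 b2 b2).trans (mul_one _).symm)
    rw [b4, b5, b6, b7]
    simp
  · obtain ⟨u, ζ, -, -, -, a4⟩ := key x i j.1 j.2 hi hj.1 hj.2
    obtain ⟨u₁, ζ₁, -, -, -, b4⟩ := key x i₁ j₁.1 j₁.2 hi₁ hj₁.1 hj₁.2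
    exact QQ.law hG hι h0 hL hM ht (Classical.epsilon_spec ⟨_, a4.self_of_nhds hx⟩)
      (Classical.epsilon_spec ⟨_, b4.self_of_nhds hx⟩) hj.1 hj₁.1 hi hi₁ hj.2 hj₁.2

end main

end Vale.Agent.P277Z.Glc.Ad
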