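import Vale.Agent.P277Z.Glc.Exc
import Vale.Agent.P277Z.Glc.Api
import Vale.Agent.P277Z.St.Sk
import Vale.Agent.P277Z.Val.Tw0

/-!
# P277, block GLC: the bridge to the statement `MOD`
-/

open scoped Manifold ContDiff Topology
open Vale.Agent.P277 hiding Amin IsFlipR
open Vale.Agent.P277.HD
open Vale.Agent.P272.K Vale.Agent.P285.H281.FD Set Filter

noncomputable section

namespace Vale.Agent.P277Z.Glc

namespace Brg

theorem flip_pow {k : ℕ} {X Z X' : CSp} {f : X.pt → Z.pt} {f' : X'.pt → Z.pt} {A : Set Z.pt}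
    {L : Fin k → Bd X.pt} {L' : Fin k → Bd X'.pt} {c c' : Fin k → ℕ} {ρ : Fin k → ℝ}
    (h : IsFlipR X Z X' f f' A L L' c c' ρ) {q : Fin k → ℕ} (hq : ∀ e, 1 ≤ q e) :
    IsFlipR X Z X' f f' A (fun e => (L e).pow (q e)) L' (fun e => c e * q e) c' ρ :=
  have k := Val.flip_pow ⟨h.1, h.2, h.3, h.4, h.5, h.6, h.7, h.8, h.9, h.10, h.11, h.12⟩ hq
  ⟨k.1, k.2, k.3, k.4, k.5, k.6, k.7, k.8, k.9, k.10, k.11, k.12⟩

/-- powers of the first line bundles -/
def pow₀ {k : ℕ} {ρ : Fin k → ℝ} (S : Seq k ρ) (q : Fin k → ℕ) (hq : ∀ e, 1 ≤ q e) : Seq k ρ where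
  X := S.X
  Z := S.Z
  f := S.f
  f' := S.f'
  A := S.A
  L j := match j with
    | 0 => fun e => (S.L 0 e).pow (q e)
    | j + 1 => S.L (j + 1)
  c j := match j with
    | 0 => fun e => S.c 0 e * q e
    | j + 1 => S.c (j + 1)
  hc j := match j with
    | 0 => fun e => Nat.mul_pos (S.hc 0 e) (hq e)
    | j + 1 => S.hc (j + 1)
  flip j := match j with
    | 0 => flip_pow (S.flip 0) hq
    | j + 1 => S.flip (j + 1)

theorem pow_one' {T : Type} (L : Bd T) : L.pow 1 = L := by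
  unfold Bd.pow
  simp only [pow_one]

theorem ne {k : ℕ} {ρ : Fin k → ℝ} (S : Seq k ρ) (j : ℕ) : Nonempty (S.X j).pt :=
  (S.flip j).small.dim.nonempty

end Brg

/-- **BRIDGE**, the klt case -/
theorem gklt_of (h : St.MOD (· < 1)) : StGklt := by
  intro D W exc hr hk he
  have h1 : ∀ l, Val.disc D.ρ ((Brg.pow₀ D.S (W.P 0) (W.hP 0)).c 0) (W.n 0) l = W.a 0 l :=
    fun l => Finset.sum_congr rfl fun e _ => by
      change _ / ((D.S.c 0 e * W.P 0 e : ℕ) : ℝ) = _
      rw [Pm₀.α, Nat.cast_mul, mul_div_assoc, mul_comm (D.S.c 0 e : ℝ)]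
  refine h D.k D.m D.ρ (Brg.pow₀ D.S (W.P 0) (W.hP 0)) W.toMf.lg W.χ W.M (W.p 0) exc (W.n 0)
    W.conn D.kah D.pos D.sum ⟨W.kahler, W.lb, W.nef, hr, cmp_iff.1 fun e => ?_⟩
    (fun l => ?_) fun l hl => ?_
  · have := W.cmp 0 le_rfl e
    rwa [mul_comm] at this
  · rw [h1]
    linarith [hk l]
  · rw [h1]
    exact he l fun a => hl ((Exc.res_iff hr l).1 a)

/-- **BRIDGE**, the log canonical case -/
theorem mod_of (h : StGlc) : St.MOD (· ≤ 1) := by
  intro k m ρ T V χ M p exc n hc hK hρ hs hP hl he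
  let D : Dat := ⟨k, ρ, m, hρ, hs, T, hK⟩
  let W₀ : Pm₀ D 4 :=
    { T := V.W, χ := χ, kahler := hP.kahler, r := V.r, G := V.G, connG := V.conn, snc := V.snc
      M := M
      p := fun j => match j with
        | 0 => p
        | j + 1 => fun _ => (Brg.ne T (j + 1)).some
      P := fun _ _ => 1
      n := fun _ => n }
  have h1 : ∀ l, W₀.a 0 l = Val.disc ρ (T.c 0) n l := fun l =>
    Finset.sum_congr rfl fun e _ => by
      change ρ e * ((n e l : ℝ) / (((1 : ℕ) : ℝ) * T.c 0 e)) = _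
      rw [Nat.cast_one, one_mul, mul_div_assoc]
  let W : Pm D 0 4 :=
    { toPm₀ := W₀
      lb := hP.lb
      nef := hP.nef
      hol := fun j hj => by
        obtain rfl := Nat.le_zero.1 hj
        exact ⟨hP.res.cont, hP.res.hol⟩
      comm := fun j hj => absurd hj j.not_lt_zero
      hP := fun _ _ => le_rfl
      cmp := fun j hj e => by
        obtain rfl := Nat.le_zero.1 hj
        have := (cmp_iff (V := W₀.toMf)).2 hP.cmp e
        change ∃ t, Cmp 4 p ((T.L 0 e).pow 1) ((W₀.NB e).pow (1 * T.c 0 e)) V.G (n e) t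
        rwa [Brg.pow_one', one_mul]
      lc := fun l => by
        rw [h1]
        linarith [hl l]
      mono := fun j hj => absurd hj j.not_lt_zero
      strict := fun j hj => absurd hj j.not_lt_zero
      const := fun j hj => absurd hj j.not_lt_zero }
  exact h D W exc hP.res fun l a => (h1 l).trans_le (he l fun b => a ((Exc.res_iff hP.res l).2 b))

end Vale.Agent.P277Z.Glc
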