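import Vale.Agent.P277Z.Glc.Pre

/-!
# P277, block GLC: identity and composition of crepant modifications
-/

open Vale.Agent.P277 hiding Amin IsFlipR
open Vale.Agent.P277.HD Vale.Agent.P277.PH
open Vale.Agent.P272.K Vale.Agent.P285.H281.FD Set Filter

noncomputable section

namespace Vale.Agent.P277Z.Glc

variable {D : Dat} {N'' N' N d : ℕ} {W'' : Pm D N'' d} {W' : Pm D N' d} {W : Pm D N d}

theorem Pm.mono_le (W : Pm D N d) {i j : ℕ} (hi : i ≤ j) (hj : j ≤ N) (l : Fin W.r) :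
    W.a i l ≤ W.a j l := by
  induction j, hi using Nat.le_induction with
  | base => exact le_rfl
  | succ j _ ih => exact (ih (by omega)).trans (W.mono j (by omega) l)

/-- the discrepancies of strict transforms -/
theorem Hom₀.α_eq0 (hJ : StJac) (h : Hom₀ W' W) {l : Fin W.r} {l' : Fin W'.r} (h0 : h.J l' = 0)
    (ho : h.o l l' ≠ 0) {j : ℕ} (hj : j ≤ N) (e : Fin D.k) : W'.α j e l' = W.α j e l := by
  have h1 := (hJ d _ _ h.toMd l').1
  rw [h0, ← Finset.add_sum_erase _ _ (Finset.mem_univ l)] at h1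
  have h2 : h.o l l' = 1 := by omega
  have h3 := Finset.sum_eq_zero_iff.1 (show ∑ k ∈ Finset.univ.erase l, h.o k l' = 0 by omega)
  rw [h.crep j hj, h0, Finset.sum_eq_single l (fun k _ hk => by simp [h3 k (by simpa using hk)])
    (by simp), h2]
  simp

theorem Hom₀.a_eq0 (hJ : StJac) (h : Hom₀ W' W) {l : Fin W.r} {l' : Fin W'.r} (h0 : h.J l' = 0)
    (ho : h.o l l' ≠ 0) {j : ℕ} (hj : j ≤ N) : W'.a j l' = W.a j l :=
  Finset.sum_congr rfl fun e _ => by rw [h.α_eq0 hJ h0 ho hj]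

theorem Hom.lc_down (hJ : StJac) (h : Hom W' W) {l : Fin W.r} {l' : Fin W'.r}
    (ho : h.o l l' ≠ 0) (ha : W'.a N' l' = -1) : W.a N l = -1 :=
  le_antisymm (by
    rw [← h.a_eq0 hJ (h.J0 l' ha) ho le_rfl, ← ha]
    exact W'.mono_le h.le le_rfl l') (W.lc' le_rfl l)

theorem Hom.U_map (hJ : StJac) (h : Hom W' W) {y : W'.T} (hy : y ∈ W'.U) : h.π y ∈ W.U :=
  fun l hl =>
    let ⟨l', h1, h2⟩ := (pre d _ _ h.toMd y l).1 hl
    h.lc_down hJ h2 (hy l' h1)

/-- the identity -/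
def Hom.refl (W : Pm D N d) : Hom W W where
  toMd := Md.refl _
  le := le_rfl
  hp _ _ _ := rfl
  hM _ := rfl
  crep j _ e l' := by simp [Md.refl]
  inj _ _ _ h := h
  J0 _ _ := rfl
  back _ h _ := h

/-- **(ID)** -/
theorem stId : StId := fun _ _ _ W => ⟨.refl W, fun _ => rfl, fun _ _ => rfl, fun _ => rfl⟩

/-- the composition -/
def Hom₀.comp (h : Hom₀ W' W) (h' : Hom₀ W'' W') : Hom₀ W'' W where
  toMd := h.toMd.comp h'.toMd
  le := h.le.trans h'.le
  hp j hj y := (h.hp j hj _).trans (h'.hp j (hj.trans h.le) y)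
  hM e := by rw [h'.hM, h.hM]; rfl
  crep j hj e l'' := by
    rw [h'.crep j (hj.trans h.le)]
    simp only [h.crep j hj, Md.comp, Nat.cast_add, Nat.cast_sum, Nat.cast_mul, mul_add,
      Finset.sum_add_distrib, Finset.mul_sum, Finset.sum_mul]
    rw [Finset.sum_comm, add_assoc, add_comm (_ * _ : ℝ)]
    refine congrArg₂ _ (Finset.sum_congr rfl fun _ _ => Finset.sum_congr rfl fun _ _ => by ring)
      (congrArg₂ _ (Finset.sum_congr rfl fun _ _ => by ring) rfl)

/-- the composition -/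
def Hom.comp (hJ : StJac) (h : Hom W' W) (h' : Hom W'' W') : Hom W'' W where
  toHom₀ := h.toHom₀.comp h'.toHom₀
  inj y hy y' e := h'.inj y hy y' (h.inj _ (h'.U_map hJ hy) _ e)
  J0 l'' ha := by
    show h'.J l'' + ∑ l', h.J l' * h'.o l' l'' = 0
    rw [h'.J0 l'' ha, zero_add]
    exact Finset.sum_eq_zero fun l' _ => mul_eq_zero.2 (or_iff_not_imp_right.2 fun ho =>
      h.J0 l' (h'.lc_down hJ ho ha))
  back y hy hf := h'.back y (h.back _ hy fun j h1 h2 => by
    rw [h'.hp j h2.le]; exact hf j h1 (h2.trans_le h'.le)) fun j h1 h2 => hf j (h.le.trans h1) h2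

/-- **(COMP)** -/
theorem comp_of (hJ : StJac) : StComp := fun _ _ _ _ _ _ _ _ h' h =>
  ⟨h.comp hJ h', fun _ => rfl, fun _ _ => rfl, fun _ => rfl⟩

end Vale.Agent.P277Z.Glc
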