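import Vale.Agent.P277Z.Val.Sub
import Vale.Agent.P277Z.Slc.Basic

/-!
# P277, GLC: the Jacobian of a map of submanifolds
-/

set_option linter.unusedSectionVars false

open scoped Manifold ContDiff Topology
open Vale.Agent.P272.K Vale.Agent.P277.PH Set Filter
open Vale.Agent.P277Z.Val (IsCo Sb)
open Vale.Agent.P277Z.Slc (Ind dd)

noncomputable section

namespace Vale.Agent.P277Z.Glc.Eb

variable {d d' : ℕ} {κ : Type} [Fintype κ] [DecidableEq κ]

theorem det_blk (Q : (Cm d × (κ → ℂ)) →ₗ[ℂ] (Cm d × (κ → ℂ))) (B : Cm d →ₗ[ℂ] Cm d) (c : κ → ℂ)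
    (h1 : ∀ u, Q (u, 0) = (B u, 0)) (h2 : ∀ z k, (Q z).2 k = c k * z.2 k) :
    LinearMap.det Q = LinearMap.det B * ∏ k, c k := by
  let b := (Pi.basisFun ℂ (Fin d)).prod (Pi.basisFun ℂ κ)
  have e1 : ∀ j, b (.inl j) = (Pi.single j 1, 0) := fun j => by
    ext <;> simp [b]
  have e2 : ∀ j, b (.inr j) = (0, Pi.single j 1) := fun j => by
    ext <;> simp [b]
  rw [← LinearMap.det_toMatrix b, ← LinearMap.det_toMatrix' B, ← Matrix.det_diagonal,
    ← Matrix.det_fromBlocks_zero₂₁ _ (LinearMap.toMatrix b b Q).toBlocks₁₂]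
  congr 1
  ext (i | i) (j | j)
  · rw [LinearMap.toMatrix_apply, e1, h1]
    simp [b]
  · rfl
  · rw [LinearMap.toMatrix_apply, e1, h1]
    simp [b]
  · rw [LinearMap.toMatrix_apply, e2]
    simp [b, h2, Matrix.diagonal_apply, Pi.single_apply]

variable (θ : (Cm d × (κ → ℂ)) ≃L[ℂ] Cm d')

theorem key_det {M N : Cm d' →L[ℂ] Cm d'} {A : Cm d →L[ℂ] Cm d'} {B : Cm d →L[ℂ] Cm d} {c : κ → ℂ}
    (h0 : M.det ≠ 0) (hM : ∀ u, M (A u) = θ (u, 0)) (hN : ∀ u, N (A u) = θ (B u, 0))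
    (h2 : ∀ x k, (θ.symm (N x)).2 k = c k * (θ.symm (M x)).2 k) :
    N.det = M.det * (B.det * ∏ k, c k) := by
  let L := LinearMap.equivOfDetNeZero (M : Cm d' →ₗ[ℂ] Cm d') h0
  let R : Cm d' →ₗ[ℂ] Cm d' := (N : Cm d' →ₗ[ℂ] Cm d') ∘ₗ (L.symm : Cm d' →ₗ[ℂ] Cm d')
  have hR : ∀ x, R (M x) = N x := fun x => congrArg N (L.symm_apply_apply x)
  have h3 := det_blk (θ.toLinearEquiv.symm.toLinearMap ∘ₗ R ∘ₗ
    θ.toLinearEquiv.symm.symm.toLinearMap) B.toLinearMap c (fun u => ?_) fun z k => ?_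
  · have h4 : (N : Cm d' →ₗ[ℂ] Cm d') = R ∘ₗ M := LinearMap.ext fun x => (hR x).symm
    rw [LinearMap.det_conj] at h3
    show LinearMap.det (N : Cm d' →ₗ[ℂ] Cm d') = _
    rw [h4, LinearMap.det_comp, h3, mul_comm]
  · show θ.symm (R (θ (u, 0))) = _
    rw [← hM, hR, hN, θ.symm_apply_apply]
    rfl
  · show (θ.symm (R (θ z))).2 k = _
    obtain ⟨x, hx⟩ := L.surjective (θ z)
    have h4 : M x = θ z := hx
    rw [← h4, hR, h2, h4, θ.symm_apply_apply]

variable {H H' W W' : Type} [TopologicalSpace H] [TopologicalSpace H'] [TopologicalSpace W]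
  [TopologicalSpace W'] [ChartedSpace (Cm d) H] [ChartedSpace (Cm d) H'] [ChartedSpace (Cm d') W]
  [ChartedSpace (Cm d') W'] [IsManifold 𝓘(ℂ, Cm d) ω H] [IsManifold 𝓘(ℂ, Cm d) ω H']
  [IsManifold 𝓘(ℂ, Cm d') ω W] [IsManifold 𝓘(ℂ, Cm d') ω W'] {ι : H → W} {ι' : H' → W'}

/-- the differential along the submanifold -/
theorem fd_along (hι : Sb d d' ι) {y : H} {e : Chart d H} (he : At e y) {c : Chart d' W}
    (hc : At c (ι y)) {t : W → Cm d'} (ht : AnalyticAt ℂ (fun z => t (c.symm z)) (c (ι y)))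
    {g : H → Cm d} (hg : AnalyticAt ℂ (fun z => g (e.symm z)) (e y))
    (h : ∀ᶠ s in 𝓝 y, t (ι s) = θ (g s, 0)) (u : Cm d) :
    fderiv ℂ (fun z => t (c.symm z)) (c (ι y)) (fderiv ℂ (fun z => c (ι (e.symm z))) (e y) u) =
      θ (fderiv ℂ (fun z => g (e.symm z)) (e y) u, 0) := by
  have h1 := HasFDerivAt.comp (g := fun z => t (c.symm z)) (f := fun z => c (ι (e.symm z))) (e y)
    (by rw [he.left_inv]; exact ht.differentiableAt.hasFDerivAt)
    (hι.holo y e c he hc).1.differentiableAt.hasFDerivAt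
  have h2 := θ.toContinuousLinearMap.hasFDerivAt.comp (e y)
    (hg.differentiableAt.hasFDerivAt.prodMk (hasFDerivAt_const (0 : κ → ℂ) (e y)))
  refine DFunLike.congr_fun (h1.unique (h2.congr_of_eventuallyEq ?_)) u
  filter_upwards [ev_symm he.2 h, ev_symm he.2 (hι.cont.continuousAt.eventually
    (c.eventually_left_inverse hc.2))] with z a b
  exact (congrArg t b).trans a

theorem fd_snd {t : W → Cm d'} {x : W} {c : Chart d' W}
    (ht : AnalyticAt ℂ (fun z => t (c.symm z)) (c x)) (v : Cm d') (k : κ) :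
    (θ.symm (fderiv ℂ (fun z => t (c.symm z)) (c x) v)).2 k =
      dd (fun w => (θ.symm (t w)).2 k) c x v :=
  DFunLike.congr_fun (((ContinuousLinearMap.proj (R := ℂ) (φ := fun _ : κ => ℂ) k).comp
    ((ContinuousLinearMap.snd ℂ (Cm d) _).comp θ.symm.toContinuousLinearMap)).hasFDerivAt.comp (c x)
    ht.differentiableAt.hasFDerivAt).fderiv.symm v

theorem hol_snd {t : W → Cm d'} {x : W} (ht : IsCo d' t x) (k : κ) :
    HolF d' (fun w => (θ.symm (t w)).2 k) x := fun c hc =>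
  (((ContinuousLinearMap.proj (R := ℂ) (φ := fun _ : κ => ℂ) k).comp
    ((ContinuousLinearMap.snd ℂ (Cm d) _).comp θ.symm.toContinuousLinearMap)).analyticAt _).comp (ht c hc).1

theorem fd_id {y : H} {e : Chart d H} (he : At e y) (u : Cm d) :
    fderiv ℂ (fun z => e (e.symm z)) (e y) u = u := by
  rw [EventuallyEq.fderiv_eq (f := fun z => z) (e.eventually_right_inverse' he.2), fderiv_fun_id]
  rfl

/-- coordinates which are adapted to the submanifold -/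
theorem exists_ad (hι : Sb d d' ι) {y : H} {e : Chart d H} (he : At e y) {ζ : κ → W → ℂ}
    (hζ : Ind d' ζ (ι y)) (h0 : ∀ᶠ s in 𝓝 y, ∀ k, ζ k (ι s) = 0) :
    ∃ t : W → Cm d', IsCo d' t (ι y) ∧ (∀ w k, (θ.symm (t w)).2 k = ζ k w) ∧
      ∀ᶠ s in 𝓝 y, t (ι s) = θ (e s, 0) := by
  choose F h1 h2 using fun i => hι.ext (Val.holF_chart he i)
  let t : W → Cm d' := fun w => θ (fun i => F i w, fun k => ζ k w)
  have h3 : ∀ w k, (θ.symm (t w)).2 k = ζ k w := fun w k => by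
    simp only [t, θ.symm_apply_apply]
  have h4 : ∀ᶠ s in 𝓝 y, t (ι s) = θ (e s, 0) := by
    filter_upwards [eventually_all.2 h2, h0] with s a b
    exact congrArg θ (Prod.ext (funext fun i => (a i).symm) (funext b))
  refine ⟨t, fun c hc => ?_, h3, h4⟩
  have h5 : AnalyticAt ℂ (fun z => t (c.symm z)) (c (ι y)) :=
    (θ.toContinuousLinearMap.analyticAt _).comp ((analyticAt_pi_iff.2 fun i => h1 i c hc).prod
      (analyticAt_pi_iff.2 fun k => hζ.1 k c hc))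
  refine Val.locIso_of_inj h5 ?_
  have h6 := fd_along θ hι he hc h5 (chg_analyticAt he he) h4
  have h7 := fd_snd θ h5
  simp only [fd_id he] at h6
  simp only [h3] at h7
  set M := fderiv ℂ (fun z => t (c.symm z)) (c (ι y))
  refine (LinearMap.injective_iff_surjective (f := (M : Cm d' →ₗ[ℂ] Cm d'))).2 fun z => ?_
  obtain ⟨x, hx⟩ := (Slc.ind_iff_surj _).1 (hζ.2 c hc) (θ.symm z).2
  have h8 := h6 ((θ.symm z).1 - (θ.symm (M x)).1)
  refine ⟨x + _, (M.map_add x _).trans ((congrArg (M x + ·) h8).trans ?_)⟩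
  rw [← θ.symm.injective.eq_iff, map_add, θ.symm_apply_apply]
  refine Prod.ext (by simp) (funext fun k => ?_)
  rw [← hx]
  simpa using h7 x k

theorem jac_eq (hι' : Sb d d' ι') {π : W' → W} {g : H' → Cm d} {s : H'} {e' : Chart d H'}
    {c' : Chart d' W'} {c : Chart d' W} (he' : At e' s) (hc' : At c' (ι' s))
    (hc : At c (π (ι' s))) (hπ : Val.HolM d' d' π (ι' s))
    (hg : AnalyticAt ℂ (fun z => g (e'.symm z)) (e' s)) {t' : W' → Cm d'} {t : W → Cm d'}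
    (ht' : IsCo d' t' (ι' s)) (ht : IsCo d' t (π (ι' s)))
    (h1 : ∀ᶠ p in 𝓝 s, t' (ι' p) = θ (e' p, 0)) (h2 : ∀ᶠ p in 𝓝 s, t (π (ι' p)) = θ (g p, 0))
    {a : κ → W' → ℂ} (ha : ∀ j, HolF d' (a j) (ι' s))
    (h3 : ∀ᶠ w in 𝓝 (ι' s), ∀ j, (θ.symm (t (π w))).2 j = a j w * (θ.symm (t' w)).2 j) :
    (fderiv ℂ (fun z => t (c.symm z)) (c (π (ι' s)))).det *
      (fderiv ℂ (fun z => c (π (c'.symm z))) (c' (ι' s))).det =
    (fderiv ℂ (fun z => t' (c'.symm z)) (c' (ι' s))).det *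
      ((fderiv ℂ (fun z => g (e'.symm z)) (e' s)).det * ∏ j, a j (ι' s)) := by
  have h4 : AnalyticAt ℂ (fun z => t (π (c'.symm z))) (c' (ι' s)) :=
    analyticAt_pi_iff.2 fun i => hπ.2 _ (ht.hol i) c' hc'
  have h5 : AnalyticAt ℂ (fun z => c (π (c'.symm z))) (c' (ι' s)) :=
    analyticAt_pi_iff.2 fun i => hπ.2 _ (Val.holF_chart hc i) c' hc'
  have h6 := Val.det_comp (φ := fun z => t (c.symm z)) (θ := fun z => c (π (c'.symm z)))
    (by rw [hc'.left_inv]; exact (ht c hc).1.differentiableAt) h5.differentiableAt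
  rw [hc'.left_inv] at h6
  rw [← h6, EventuallyEq.fderiv_eq (f := fun z => t (π (c'.symm z)))
    ((ev_symm hc'.2 (hπ.1.eventually (c.eventually_left_inverse hc.2))).mono
      fun z hz => congrArg t hz)]
  refine key_det θ (ht' c' hc').2 (fun u => ?_)
    (fd_along θ (t := fun w => t (π w)) hι' he' hc' h4 hg h2) fun x j => ?_
  · rw [fd_along θ hι' he' hc' (ht' c' hc').1 (chg_analyticAt he' he') h1, fd_id he']
  · rw [fd_snd θ (t := fun w => t (π w)) h4, fd_snd θ (ht' c' hc').1,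
      Slc.dd_congr (h3.mono fun _ a => a j) hc',
      Slc.dd_mul (a := fun w => (θ.symm (t' w)).2 j) (ha j) (hol_snd θ ht' j) ?_ hc']
    · rfl
    · rw [h1.self_of_nhds, θ.symm_apply_apply]
      rfl

theorem hol_jac {t : W' → Cm d'} {x : W'} {c : Chart d' W'} (hc : At c x)
    (ht : AnalyticAt ℂ (fun z => t (c.symm z)) (c x)) :
    HolF d' (fun w => (fderiv ℂ (fun z => t (c.symm z)) (c w)).det) x :=
  (Val.crd_chart hc).holF (Val.an_jac ht)

/-- the Jacobian of the induced map of submanifolds -/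
theorem jac_unit (hd : d + Fintype.card κ = d') (hι' : Sb d d' ι') (hι : Sb d d' ι) {π : W' → W}
    (hπ : ∀ w, Val.HolM d' d' π w) {k : H' → H} {y : H'} (hk : Val.HolM d d k y)
    (hc₀ : ∀ s, ι (k s) = π (ι' s)) {e' : Chart d H'} {e : Chart d H} {c' : Chart d' W'}
    {c : Chart d' W} (he' : At e' y) (he : At e (k y)) (hc' : At c' (ι' y))
    (hc : At c (π (ι' y))) {ζ' : κ → W' → ℂ} {ζ : κ → W → ℂ} (hζ' : Ind d' ζ' (ι' y))
    (hζ : Ind d' ζ (π (ι' y))) (z' : ∀ᶠ s in 𝓝 y, ∀ j, ζ' j (ι' s) = 0)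
    (z : ∀ᶠ s in 𝓝 (k y), ∀ j, ζ j (ι s) = 0) {a : κ → W' → ℂ} (ha : ∀ j, HolF d' (a j) (ι' y))
    (h : ∀ᶠ w in 𝓝 (ι' y), ∀ j, ζ j (π w) = a j w * ζ' j w) :
    ∃ v : H' → ℂ, HolF d v y ∧ v y ≠ 0 ∧ ∀ᶠ s in 𝓝 y,
      (fderiv ℂ (fun z => e (k (e'.symm z))) (e' s)).det * ∏ j, a j (ι' s) =
        v s * (fderiv ℂ (fun z => c (π (c'.symm z))) (c' (ι' s))).det := by
  let θ : (Cm d × (κ → ℂ)) ≃L[ℂ] Cm d' := ContinuousLinearEquiv.ofFinrankEq (by simp [hd])
  obtain ⟨t', a1, a2, a3⟩ := exists_ad θ hι' he' hζ' z'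
  obtain ⟨t, b1, b2, b3⟩ := exists_ad θ hι he (by rwa [hc₀]) z
  rw [hc₀] at b1
  have c1 := hι'.holF (hol_jac hc' (a1 c' hc').1)
  have c2 := hι'.holF ((hπ _).2 _ (hol_jac hc (b1 c hc).1))
  have c3 : AnalyticAt ℂ (fun z => e (k (e'.symm z))) (e' y) :=
    analyticAt_pi_iff.2 fun i => hk.2 _ (Val.holF_chart he i) e' he'
  have c4 := hι'.cont.continuousAt (x := y)
  have c5 := (hπ _).1.comp c4
  have c6 : HolF d (fun s => (fderiv ℂ (fun z => t' (c'.symm z)) (c' (ι' s))).det⁻¹) y :=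
    fun p hp => (c1 p hp).fun_inv (by rw [hp.left_inv]; exact (a1 c' hc').2)
  refine ⟨_, c2.mul c6, mul_ne_zero (b1 c hc).2 (inv_ne_zero (a1 c' hc').2), ?_⟩
  filter_upwards [Slc.At.near he', c4.eventually (Slc.At.near hc'), c5.eventually (Slc.At.near hc),
    (e'.continuousAt he'.2).eventually c3.eventually_analyticAt, c4.eventually a1.eventually,
    c5.eventually b1.eventually, a3.eventually_nhds, (hk.1.eventually b3).eventually_nhds,
    c4.eventually (eventually_all.2 fun j => Val.holF_ev (ha j)), c4.eventually h.eventually_nhds]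
    with s s1 s2 s3 s4 s5 s6 s7 s8 s9 s10
  have s11 := jac_eq θ hι' (g := fun p => e (k p)) s1 s2 s3 (hπ _) s4 s5 s6 s7
    (by simpa only [hc₀] using s8) s9 (by simpa only [a2, b2] using s10)
  rw [mul_right_comm, s11, mul_right_comm, mul_inv_cancel₀ (s5 c' s2).2, one_mul]

end Vale.Agent.P277Z.Glc.Eb
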