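import Vale.Agent.P277Z.Glc.Num
import Vale.Agent.P277Z.Glc.Adj2
import Vale.Agent.P277Z.Glc.EmbA

/-!
# P277, GLC: modifications of strata
-/

open scoped Manifold ContDiff Topology
open Vale.Agent.P277 hiding Amin IsFlipR
open Vale.Agent.P277.HD Vale.Agent.P277.PH
open Vale.Agent.P272.K Vale.Agent.P285.H281.FD Set Filter
open Vale.Agent.P277Z.Slc (LEq)
open Vale.Agent.P277Z.Val (holF_cont holF_ev Sb)

noncomputable section

namespace Vale.Agent.P277Z.Glc

variable {D : Dat} {N' N d d' : ℕ} {W' : Pm D N' d'} {W : Pm D N d'} {I' : Finset (Fin W'.r)}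
  {I : Finset (Fin W.r)} {T' : Pm D N' d} {T : Pm D N d}

/-- a holomorphic monomial -/
theorem Mon.natH {V : Mf d} {n : Fin V.r → ℕ} {f : V.T → ℂ} {y : V.T} (hf : HolF d f y)
    (h : Mon d V.G (fun l => n l) f y) {ζ : Fin V.r → V.T → ℂ} (hζ : ∀ l, LEq d (V.G l) y (ζ l)) :
    ∃ u, HolF d u y ∧ u y ≠ 0 ∧ ∀ᶠ x in 𝓝 y, f x = u x * ∏ l, ζ l x ^ n l := by
  obtain ⟨u, h1, h2, h3⟩ := h.any hζ
  exact ⟨u, h1, h2, V.ev_eq_of_off hf (h1.mul (holF_prod _ fun l _ => holF_npow (hζ l).holF _))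
    (by simpa only [zpow_natCast] using h3)⟩

namespace Emb

variable (E : Emb T W I)

theorem sbH : Sb d d' E.ι :=
  ⟨E.hol.1, E.inj, fun y e e' he he' => ⟨analyticAt_pi_iff.2 fun i =>
    E.hol.2 y _ (Val.holF_chart he' i) e he, E.imm y e e' he he'⟩⟩

theorem α_eqH (j : ℕ) (e : Fin D.k) (l : Fin T.r) : T.α j e l = W.α j e (E.par l) := by
  simp only [Pm₀.α, E.hn, E.hP]

theorem a_eqH (j : ℕ) (l : Fin T.r) : T.a j l = W.a j (E.par l) := by
  simp only [Pm₀.a, E.α_eqH]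

theorem mem_parH {y : T.T} {l : Fin T.r} (h : y ∈ T.G l) : E.ι y ∈ W.G (E.par l) :=
  (E.mem y _ (E.par_not l)).2 ⟨l, rfl, h⟩

theorem U_iffH {y : T.T} : y ∈ T.U ↔ E.ι y ∈ W.U := by
  refine ⟨fun h l hl => ?_, fun h l hl => (E.a_eqH N l).trans (h _ (E.mem_parH hl))⟩
  by_cases k : l ∈ I
  · exact W.a_of (E.lc l k N le_rfl)
  · obtain ⟨l₀, rfl, a⟩ := (E.mem y l k).1 hl
    exact (E.a_eqH N l₀).symm.trans (h _ a)

/-- restriction of a monomial -/
theorem resH {n : Fin W.r → ℕ} {f : W.T → ℂ} {y : T.T} (hf : HolF d' f (E.ι y))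
    (hm : Mon d' W.G (fun l => n l) f (E.ι y)) (h0 : ∀ l ∈ I, n l = 0) :
    Mon d T.G (fun l => n (E.par l)) (fun t => f (E.ι t)) y := by
  obtain ⟨ζ, hζ⟩ := W.exEq (E.ι y)
  obtain ⟨u, h1, h2, h3⟩ := hm.natH hf hζ
  refine Ad.mon_par (J := Iᶜ) (n := fun l => n l) (ζ := fun k => ζ k ∘ E.ι) (u := u ∘ E.ι) T.closed
    (fun l => Finset.mem_compl.2 (E.par_not l)) (fun l₁ l₂ a b c => ?_)
    (fun l a => E.leq y l _ a (hζ _)) (fun k _ => E.hol.2 y _ (hζ k).holF)
    (fun k a b => (E.mem y k (Finset.mem_compl.1 a)).1 ((hζ k).mem.1 b)) (E.hol.2 y _ h1) h2 ?_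
  · by_contra e
    exact disjoint_left.1 (E.disj _ _ e c) a b
  · filter_upwards [E.hol.1.continuousAt.eventually h3] with x a _
    simp only [a, zpow_natCast]
    refine congrArg _ (Finset.prod_subset (Finset.subset_univ _) fun k _ hk => ?_).symm
    rw [h0 k (by simpa using hk), pow_zero]

end Emb

section md

variable (hP : StPre) (hJ : StJac) (hU : StUniq) {h : Md W'.toMf W.toMf} (E' : Emb T' W' I')
  (E : Emb T W I) (ho : h.Over I I') {k : T'.T → T.T} (hk : HolM d d k)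
  (hc : ∀ y, E.ι (k y) = h.π (E'.ι y))

include hJ ho in
theorem over_zeroH {l : Fin W.r} (hl : l ∉ I) : ∀ l' ∈ I', h.o l l' = 0 := fun l' a => by
  obtain ⟨j, b, s⟩ := ho.2 l' a
  by_contra e
  exact hl (s.left hJ e ▸ b)

include hP hJ E' E ho hk hc in
theorem emb_ord (l : Fin T.r) : ∃ o : Fin T'.r → ℕ, ∀ y ζ, LEq d (T.G l) (k y) ζ →
    Mon d T'.G (fun l' => o l') (ζ ∘ k) y := by
  choose ζ hζ using T.exEq
  have key : ∀ y {a b : T.T → ℂ}, LEq d (T.G l) (k y) a → LEq d (T.G l) (k y) b → ∃ u,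
      HolF d u y ∧ u y ≠ 0 ∧ ∀ᶠ x in 𝓝 y, x ∉ ⋃ l, T'.G l → b (k x) = u x * a (k x) := by
    intro y a b ha hb
    obtain ⟨u, h1, h2, h3⟩ := ha.unit hb
    exact ⟨u ∘ k, hk.2 y u h1, h2, (hk.1.continuousAt.eventually h3).mono fun _ c _ => c⟩
  refine (exists_mon_globN (V := T'.toMf) (fun y => ζ (k y) l ∘ k)
    (fun y => hk.2 y _ (hζ _ l).holF) (fun y => ?_) fun y => ?_).imp fun o h1 y ξ hξ => ?_
  rotate_right
  · obtain ⟨u, a, b, c⟩ := key y (hζ _ l) hξ
    exact (h1 y).unit a b c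
  · filter_upwards [hk.1.continuousAt.eventually (hζ (k y) l).1] with x a b c
    have h1 := E.mem_parH (a.1 c)
    rw [hc] at h1
    obtain ⟨j, h2, h3⟩ := (hP _ _ _ h _ _).1 h1
    obtain ⟨l', -, h4⟩ := (E'.mem x j fun e => h3 (over_zeroH hJ ho (E.par_not l) j e)).1 h2
    exact b (mem_iUnion.2 ⟨l', h4⟩)
  · filter_upwards [hk.1.continuousAt.eventually (hζ (k y) l).near] with z a
      using key z a (hζ _ l)

include hJ hU E' E ho hk hc in
theorem emb_jac (y : T'.T) (e' : Chart d T'.T) (e : Chart d T.T) (he' : At e' y) (he : At e (k y)) :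
    Mon d T'.G (fun l' => h.J (E'.par l') - ∑ j ∈ I, (h.o j (E'.par l') : ℤ))
      (fun s => (fderiv ℂ (fun z => e (k (e'.symm z))) (e' s)).det) y := by
  classical
  choose τ t1 t2 using fun j : I => ho.1 j j.2
  obtain ⟨ζ', z1, z2⟩ := Slc.snc_of_isSnc W'.snc (E'.ι y)
  obtain ⟨ζ, z3, z4⟩ := Slc.snc_of_isSnc W.snc (h.π (E'.ι y))
  have hc' := at_chartAt (n := d') (E'.ι y)
  have hc₁ := at_chartAt (n := d') (h.π (E'.ι y))
  choose u u1 u2 u3 using fun j : I =>
    (h.ord _ j _ (z3 j)).natH (h.hol.2 _ _ (z3 j).holF) z1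
  let n : I → Fin W'.r → ℕ := fun j l => if l = τ j then 0 else h.o j l
  let a : I → W'.T → ℂ := fun j w => u j w * ∏ l, ζ' l w ^ n j l
  have a1 : ∀ j, HolF d' (a j) (E'.ι y) := fun j =>
    (u1 j).mul (holF_prod _ fun l _ => holF_npow (z1 l).holF _)
  have a2 : ∀ j, Mon d T'.G (fun l => h.o j.1 (E'.par l)) (fun s => a j (E'.ι s)) y := fun j => by
    refine (E'.resH (n := n j) (a1 j) ⟨ζ', u j, z1, u1 j, u2 j, .of_forall fun _ _ => by
      simp only [a, zpow_natCast]⟩ fun l hl => ?_).change fun l _ => ?_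
    · obtain ⟨i, -, s⟩ := ho.2 l hl
      refine ite_eq_left_iff.2 fun b => ?_
      by_contra c
      exact b ((hU _ _ _ h j).unique ⟨s.1, c⟩ (t2 j))
    · exact congrArg _ (if_neg fun b : E'.par l = τ j => E'.par_not l (b ▸ t1 j))
  have key := Eb.jac_unit (κ := I) (by simpa using E.card) E'.sbH E.sbH
    (fun w => ⟨h.hol.1.continuousAt, h.hol.2 w⟩) ⟨hk.1.continuousAt, hk.2 y⟩ hc he' he hc' hc₁
    (ζ' := fun j => ζ' (τ j)) (ζ := fun j => ζ j)
    (z2.comp (fun j : I => ⟨τ j, E'.sub y _ (t1 j)⟩) fun i j b =>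
      Subtype.ext ((t2 j).left hJ ((show τ i = τ j from congrArg Subtype.val b) ▸ (t2 i).2)))
    (z4.comp (fun j : I => ⟨j, hc y ▸ E.sub _ _ j.2⟩) fun i j b =>
      Subtype.ext (congrArg Subtype.val b :))
    ((E'.hol.1.continuousAt.eventually (leq_iff z1)).mono fun s b j => (b _).2 (E'.sub s _ (t1 j)))
    ((E.hol.1.continuousAt.eventually (hc y ▸ leq_iff z3)).mono fun s b j =>
      (b _).2 (E.sub s _ j.2)) a1 ?_
  · obtain ⟨v, v1, v2, v3⟩ := key
    have b1 := E'.resH (Eb.hol_jac (t := fun w => chartAt (Cm d') (h.π (E'.ι y)) (h.π w)) hc'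
      (analyticAt_pi_iff.2 fun i => h.hol.2 _ _ (Val.holF_chart hc₁ i) _ hc'))
      (h.jac _ _ _ hc' hc₁) fun l hl => (ho.2 l hl).elim fun _ b => b.2.1
    have b2 := Mon.prod (V := T'.toMf) Finset.univ fun j _ => a2 j
    refine ((b1.div b2).unit v1 v2 ?_).change fun l _ => ?_
    · filter_upwards [v3, b2.ne] with s b3 b4 b5
      rw [← mul_div_assoc]
      exact eq_div_of_mul_eq (b4 b5) b3
    · rw [Finset.sum_coe_sort I fun j => (h.o j (E'.par l) : ℤ)]
  · filter_upwards [eventually_all.2 u3] with w b j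
    refine (b j).trans ?_
    simp only [a]
    rw [mul_assoc, ← Finset.prod_erase_mul _ _ (Finset.mem_univ (τ j)),
      ← Finset.prod_erase_mul _ _ (Finset.mem_univ (τ j)), (t2 j).eq hJ, if_pos rfl, pow_one]
    simp only [n, if_true, pow_zero, mul_one]
    congr 2
    exact Finset.prod_congr rfl fun l hl => by rw [if_neg (Finset.ne_of_mem_erase hl)]

end md

/-- the induced map of the strata -/
theorem Emb.exists_mapH (E : Emb T W I) {ι : T'.T → W.T} (hι : HolM d d' ι)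
    (hr : range ι = range E.ι) :
    ∃ k : T'.T → T.T, HolM d d k ∧ Function.Surjective k ∧ ∀ y, E.ι (k y) = ι y := by
  choose k hk using fun y => (hr ▸ mem_range_self y : ι y ∈ range E.ι)
  have h1 : Continuous k := (E.hol.1.isClosedEmbedding E.inj).isInducing.continuous_iff.2
    ((funext hk : E.ι ∘ k = ι) ▸ hι.1)
  refine ⟨k, ⟨h1, fun y g hg => ?_⟩, fun t => ?_, hk⟩
  · obtain ⟨F, a, b⟩ := E.sbH.ext hg
    rw [hk] at a
    refine (hι.2 y F a).congr ?_
    filter_upwards [h1.continuousAt.eventually b] with x hx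
    exact (congrArg F (hk x).symm).trans hx.symm
  · obtain ⟨y, hy⟩ := (hr ▸ mem_range_self t : E.ι t ∈ range ι)
    exact ⟨y, E.inj ((hk y).trans hy)⟩

/-- (EMBH) -/
theorem embH_of (hP : StPre) (hJ : StJac) (hU : StUniq) : StEmbH := by
  intro D N' N d d' W' W h I' I T' T E' E ho hr
  classical
  obtain ⟨k, hk, hs, hc⟩ := E.exists_mapH (T' := T') (ι := fun y => h.π (E'.ι y))
    ⟨h.hol.1.comp E'.hol.1, fun y g hg => E'.hol.2 y _ (h.hol.2 _ g hg)⟩
    ((range_comp _ _).trans hr)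
  choose o h1 using emb_ord hP hJ E' E ho hk hc
  have h2 := emb_jac hJ hU E' E ho hk hc
  have hi : ∀ y ∈ T'.U, ∀ y', k y' = k y → y' = y := fun y a y' b =>
    E'.inj (h.inj _ (E'.U_iffH.1 a) _ (by rw [← hc, ← hc, b]))
  let J : Fin T'.r → ℕ := fun l' => (h.J (E'.par l') - ∑ j ∈ I, (h.o j (E'.par l') : ℤ)).toNat
  have h3 : ∀ l', (J l' : ℤ) = h.J (E'.par l') - ∑ j ∈ I, (h.o j (E'.par l') : ℤ) := fun l' => by
    obtain ⟨y, hy⟩ := (T'.connG l').nonempty
    have a := at_chartAt (n := d) y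
    have b := at_chartAt (n := d) (k y)
    exact Int.toNat_of_nonneg ((h2 y _ _ a b).nonneg' (holF_cont (Eb.hol_jac
      (t := fun w => chartAt (Cm d) (k y) (k w)) a (analyticAt_pi_iff.2 fun i =>
        hk.2 _ _ (Val.holF_chart b i) _ a))) (.of_forall fun _ _ => rfl) hy)
  let B : Md T'.toMf T.toMf :=
    { π := k, hol := hk, surj := hs, o := o, J := J
      ord := fun y l => h1 l y
      jac := fun y e' e a b => by simpa only [h3] using h2 y e' e a b
      inj₀ := fun y a => hi y fun l b => absurd (mem_iUnion.2 ⟨l, b⟩) a }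
  have h4 : ∀ j ∉ I, ∀ l', ∑ l with E.par l = j, o l l' = h.o j (E'.par l') := fun j hj l' => by
    obtain ⟨y, hy⟩ := (T'.connG l').nonempty
    obtain ⟨ζ, hζ⟩ := W.exEq (h.π (E'.ι y))
    have a := E'.resH (h.hol.2 _ _ (hζ j).holF) (h.ord _ j _ (hζ j)) (over_zeroH hJ ho hj)
    rw [← hc] at hζ
    have b := (E.resH (n := fun i => if j = i then 1 else 0) (hζ j).holF
      (by simpa using Mf.mon_leq (hζ j)) fun i hi => if_neg fun c : j = i => hj (c ▸ hi)).compMd B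
    have c := (b.congr (.of_forall fun x _ => congrArg (ζ j) (hc x).symm)).unique a hy
    rw [← Nat.cast_inj (R := ℤ), ← c, Finset.sum_filter]
    push_cast
    exact Finset.sum_congr rfl fun l _ => by simp [eq_comm, B]
  refine ⟨{ B with
    le := h.le
    hp := fun j hj y => by rw [E.hp, E'.hp, ← h.hp j hj, ← hc]
    hM := fun e => ?_
    crep := fun j hj e l' => ?_
    inj := hi
    J0 := fun l' a => ?_
    back := fun y a b => E'.U_iffH.2 (h.back _ (hc y ▸ E.U_iffH.1 a) fun j c c' =>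
      E'.hp j y ▸ b j c c') }, hc⟩
  · rw [E'.hM, h.hM, E.hM]
    exact congrArg (fun f => pull f (W.M e)) (funext hc).symm
  · have a : (J l' : ℝ) = h.J (E'.par l') - ∑ i ∈ I, (h.o i (E'.par l') : ℝ) := by
      exact_mod_cast h3 l'
    show _ = ∑ l, (o l l' : ℝ) * T.α j e l + D.m e * (J l' : ℝ)
    rw [E'.α_eqH, h.crep j hj, a, ← Finset.sum_fiberwise_of_maps_to (t := Iᶜ) (g := E.par)
      (fun l _ => Finset.mem_compl.2 (E.par_not l)), ← Finset.sum_add_sum_compl I,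
      Finset.sum_congr rfl fun i hi => by rw [E.lc i hi j hj], ← Finset.sum_mul]
    have b : ∀ i ∈ Iᶜ, ∑ l with E.par l = i, (o l l' : ℝ) * T.α j e l =
        h.o i (E'.par l') * W.α j e i := fun i hi => by
      rw [← h4 i (Finset.mem_compl.1 hi), Nat.cast_sum, Finset.sum_mul]
      exact Finset.sum_congr rfl fun l hl => by rw [E.α_eqH, (Finset.mem_filter.1 hl).2]
    rw [Finset.sum_congr rfl b]
    ring
  · have b := h3 l'
    rw [h.J0 _ ((E'.a_eqH _ _).symm.trans a)] at b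
    have c : (0 : ℤ) ≤ ∑ j ∈ I, (h.o j (E'.par l') : ℤ) := Finset.sum_nonneg fun _ _ => by positivity
    show J l' = 0
    omega

end Vale.Agent.P277Z.Glc
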