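import Vale.Agent.P277Z.Glc.Sk
import Vale.Agent.P277Z.St.Ord
import Vale.Agent.P277Z.Val.Jz

/-!
# P277, block GLC: being exceptional does not depend on the time
-/

open scoped Manifold ContDiff Topology
open Vale.Agent.P277 hiding Amin IsFlipR
open Vale.Agent.P277.HD
open Vale.Agent.P272.K Vale.Agent.P285.H281.FD Set Filter

noncomputable section

namespace Vale.Agent.P277Z.Glc

namespace Exc

variable {X Z X' : CSp} {f : X.pt → Z.pt} {f' : X'.pt → Z.pt} {A : Set Z.pt} {k : ℕ} {S : Set X.pt}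

theorem dimLe_flip' (h : IsSmall X Z f A) (h' : IsSmall X' Z f' A) (hS : DimLe X k S) :
    DimLe X' k (f' ⁻¹' (f '' S \ A)) :=
  h'.dimLe_preimage (hS.image fun x _ => h.holMap x)

theorem dimLe_flip (h : IsSmall X Z f A) (h' : IsSmall X' Z f' A) (hS : DimLe X k S) (hk : 2 ≤ k) :
    DimLe X' k (f' ⁻¹' (f '' S)) :=
  ((dimLe_flip' h h' hS).union (h'.dim.le hk)).mono fun x hx =>
    (em (f' x ∈ A)).elim Or.inr fun a => Or.inl ⟨hx, a⟩

theorem amin_sub (h : IsSmall X Z f A) : Amin f ⊆ A := by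
  rintro z ⟨x, x', hx, hx', hne⟩
  by_contra hz
  exact hne ((h.inj x x' (hx ▸ hz) (hx'.trans hx.symm)).symm)

/-- the exceptional components of a log resolution are the contracted ones -/
theorem res_iff {V : Val.Lg} {p : V.W → X.pt} {exc : Finset (Fin V.r)} (h : Val.Res V X p exc)
    (l : Fin V.r) : DimLe X 2 (p '' V.G l) ↔ l ∈ exc := by
  refine ⟨fun hd => of_not_not fun hl => Val.U.not_thin_G V l (Val.U.thinM_mono
    ((St.thin_pre h.emb hd (V.conn l).1.some).union (Val.U.thin_notGen V l)) fun y hy => ?_),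
    fun hl => h.dim.mono (image_mono (subset_biUnion_of_mem (u := V.G) hl))⟩
  by_cases k : Val.U.Gen V l y
  · refine Or.inl ⟨fun a => ?_, mem_image_of_mem p hy⟩
    obtain ⟨j, k1, k2⟩ := mem_iUnion₂.1 a
    exact k.2 j (fun e => hl (e ▸ k1)) k2
  · exact Or.inr ⟨hy, k⟩

end Exc

/-- **EXC** -/
theorem exc : StExc := by
  refine fun D N W l => ⟨fun j hj => ⟨fun h => ?_, fun h => ?_⟩, fun j _ h => ?_,
    fun exc h => Exc.res_iff h l⟩
  · refine (Exc.dimLe_flip (D.S.flip j).small (D.S.flip j).small' h le_rfl).mono ?_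
    rintro _ ⟨y, hy, rfl⟩
    exact ⟨_, ⟨y, hy, rfl⟩, (W.comm j hj y).symm⟩
  · refine (Exc.dimLe_flip (D.S.flip j).small' (D.S.flip j).small h le_rfl).mono ?_
    rintro _ ⟨y, hy, rfl⟩
    exact ⟨_, ⟨y, hy, rfl⟩, W.comm j hj y⟩
  · refine (D.S.flip j).small.dim.mono ?_
    rintro _ ⟨y, hy, rfl⟩
    exact Exc.amin_sub (D.S.flip j).small (h y hy)

end Vale.Agent.P277Z.Glc
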