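import Vale.Agent.P277Z.Glc.Sep
import Vale.Agent.P277Z.Glc.Exc
import Vale.Agent.P277Z.Glc.BIso
import Vale.Agent.P277Z.Ex.Sk

/-!
# P277, block GLC: the dlt model
-/

open scoped Topology
open Vale.Agent.P277 hiding Amin IsFlipR
open Vale.Agent.P277.HD Set Filter

noncomputable section

namespace Vale.Agent.P277Z.Glc

open SepH

theorem ext_of (hX : Ex.EXS) (hC : GH.StComp) (hM : StMd) (hL : StPull) (hP : StPre)
    (hJ : StJac) : StExt := by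
  classical
  intro D N W exc hr he
  have h1 : ∀ l, Val.disc D.ρ (fun e => W.P N e * D.S.c N e) (W.n N) l = W.a N l :=
    fun l => Finset.sum_congr rfl fun e _ => by rw [Pm₀.α, Nat.cast_mul, mul_div_assoc]
  let S : Finset (Fin W.r) := Finset.univ.filter fun l => W.a N l = -1
  have hS : ∀ l, l ∈ S ↔ W.a N l = -1 := fun l => by simp [S]
  obtain ⟨V', π, χ', new, s, Y, g, ψ, Λ, u, a1, a2, a3, a4, a5, a6, a7, Ψ, τ, a8, a9, a10⟩ :=
    hX D.k D.ρ D.m W.toMf.lg W.χ W.M (D.S.X N) (fun e => (D.S.L N e).pow (W.P N e))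
      (fun e => W.P N e * D.S.c N e) (W.p N) exc (W.n N) S (fun e => (D.pos e).le) D.sum
      (D.S.flip N).normal (fun e => lb_pow ((D.S.flip N).lb e) _)
      (fun e => Nat.mul_pos (W.hP N e) (D.S.hc N e))
      ⟨W.kahler, W.lb, W.nef, hr, cmp_iff.1 fun e => W.cmp N le_rfl e⟩
      (fun l => h1 l ▸ W.lc' le_rfl l)
      (fun l hl => h1 l ▸ he l fun a => hl ((Exc.res_iff hr l).1 a))
      (fun l _ hl => h1 l ▸ lt_of_le_of_ne (W.lc' le_rfl l) fun a => hl ((hS l).2 a.symm))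
      fun l hl => by rw [h1, (hS l).1 hl]; norm_num
  obtain ⟨exc', c1, -⟩ := hC V' _ _ π _ new exc (D.S.flip N).normal u.blw.res hr
    fun y hy => (u.pre y).2 hy
  obtain ⟨U, B, new', e1, hn⟩ := hM W.toMf V' π new u.blw.res fun y hy => (u.pre y).2 hy
  cases e1
  obtain ⟨W', h, e2⟩ := hL D N 4 W U B
  cases e2
  have hp : ∀ y, W.p N (h.π y) = W'.p N y := h.hp N le_rfl
  have k0 : ∀ l, h.ST l (s l) := fun l => by
    obtain ⟨z, hz⟩ := W'.gen_one (s l)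
    exact ⟨(hn _).2 fun c => (u.new _).1 c ⟨l, rfl⟩,
      o_ne hP h.toMd hz (u.str.img l ▸ mem_image_of_mem _ ((hz _).2 rfl) : h.π z ∈ W.toMf.lg.G l)⟩
  have k1 : ∀ l, W'.a N (s l) = W.a N l := fun l => h.a_st hJ (k0 l) le_rfl
  have k2 : ∀ l ∈ exc \ S, W.a N l ≠ -1 := fun l hl c => (Finset.mem_sdiff.1 hl).2 ((hS l).2 c)
  have k3 : ∀ l' ∈ new', ∃ l ∈ exc \ S, h.o l l' ≠ 0 := fun l' hl => by
    obtain ⟨z, hz⟩ := W'.gen_one l'
    obtain ⟨l, b1, b2⟩ := mem_iUnion₂.1 (u.blw.sub l' hl (mem_image_of_mem _ ((hz l').2 rfl)))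
    exact ⟨l, b1, o_ne hP h.toMd hz b2⟩
  have k4 : ∀ l' ∈ new', W'.a N l' ≠ -1 := fun l' hl c =>
    let ⟨l, b1, b2⟩ := k3 l' hl
    k2 l b1 ((h.lc_up hJ le_rfl c).1 l b2)
  have k5 : ∀ l' ∉ new', ∃ l, s l = l' := fun l' hl => by_contra fun c => hl ((u.new l').2 c)
  have k6 : ∀ l' ∉ new' ∪ (exc \ S).image s, ∃ l, s l = l' ∧ (l ∈ exc → l ∈ S) := fun l' hl => by
    rw [Finset.mem_union, not_or] at hl
    obtain ⟨l, rfl⟩ := k5 l' hl.1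
    exact ⟨l, rfl, fun b => by_contra fun c =>
      hl.2 (Finset.mem_image_of_mem _ (Finset.mem_sdiff.2 ⟨b, c⟩))⟩
  have k7 : ∀ l, W'.p N '' W'.G (s l) = W.p N '' W.G l := fun l => by
    rw [← funext hp, ← image_image]
    exact congrArg _ (u.str.img l)
  have k8 : W'.Nk = W.p N '' ⋃ l ∈ S, W.G l := by
    ext x
    constructor
    · rintro ⟨y, ⟨l', b1, b2⟩, rfl⟩
      obtain ⟨l, rfl⟩ := k5 l' fun c => k4 l' c b1
      obtain ⟨z, b3, b4⟩ := k7 l ▸ mem_image_of_mem (W'.p N) b2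
      exact ⟨z, mem_iUnion₂.2 ⟨l, (hS l).2 (k1 l ▸ b1), b3⟩, b4⟩
    · rintro ⟨y, b, rfl⟩
      obtain ⟨l, b1, b2⟩ := mem_iUnion₂.1 b
      obtain ⟨z, b3, b4⟩ := (k7 l).symm ▸ mem_image_of_mem (W.p N) b2
      exact ⟨z, ⟨s l, (k1 l).trans ((hS l).1 b1), b3⟩, b4⟩
  refine ⟨W', exc', by rwa [Pm.Res, ← funext hp], ⟨h, fun y hy y' => u.blw.res.inj y y' fun c => ?_,
    fun l' hl => (hn l').2 fun c => k4 l' c hl, fun y hy _ l' hl => ?_⟩, Y, ψ, _, g, Λ,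
    fun l => Ψ l, ⟨a5, ⟨g, a6.hol, fun y => (a2 y).trans (hp y)⟩, fun l' hl => ?_, fun l' hl => ?_⟩,
    a1, k8 ▸ a6, fun y => (a2 y).trans (hp y), a3, a4, k8 ▸ a7, ⟨fun i _ => τ i, fun y i _ hi _ => ?_,
    fun y i i₁ _ _ _ hi hi₁ _ _ => ?_⟩, fun l' hl => ?_, fun l' hl b => ?_⟩
  · obtain ⟨l, b1, b2⟩ := mem_iUnion₂.1 c
    exact k4 l b1 (hy l b2)
  · by_cases c : l' ∈ new'
    · obtain ⟨l, b1, b2⟩ := k3 l' c
      exact absurd (hy l (h.sub hP b2 hl)) (k2 l b1)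
    · obtain ⟨l, rfl⟩ := k5 l' c
      exact (k1 l).trans (hy l (h.sub hP (k0 l).2 hl))
  · refine lt_of_le_of_ne (W'.lc' le_rfl l') (Ne.symm ?_)
    rcases Finset.mem_union.1 hl with c | c
    · exact k4 l' c
    · obtain ⟨l, b, rfl⟩ := Finset.mem_image.1 c
      exact k1 l ▸ k2 l b
  · obtain ⟨l, rfl, b⟩ := k6 l' hl
    refine or_iff_not_imp_right.2 fun c => (k1 l).trans ((hS l).1 (b ?_))
    rw [not_not, Pm.Exc, k7] at c
    exact (Exc.res_iff hr l).1 c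
  · exact ((mon_iff_val (V := W'.toMf)).1 fun ζ hζ => a8.div y i ζ hi hζ).2
  · have := a8.sec.change i i₁ y hi hi₁
    change τ i y = (Λ.g i i₁ (ψ y))⁻¹ * τ i₁ y at this
    change τ i₁ y = Λ.g i i₁ (ψ y) * τ i y * 1
    rw [this, mul_one, mul_inv_cancel_left₀ (a3.ne_zero i i₁ _ hi hi₁)]
  · obtain ⟨l, rfl⟩ := k5 l' fun c => k4 l' c hl
    exact Int.natCast_pos.2 (a9 l ((hS l).2 (k1 l ▸ hl)))
  · obtain ⟨l, rfl, c⟩ := k6 l' hl
    have c' : l ∉ S := fun e => b ((k1 l).trans ((hS l).1 e))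
    exact Int.natCast_eq_zero.2 (a10 l (fun e => c' (c e)) c')

end Vale.Agent.P277Z.Glc
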