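import Vale.Agent.P277Z.Glc.Lift2
import Vale.Agent.P277Z.Glc.Sk
import Vale.Agent.P277Z.Glc.Sing
import Vale.Agent.P277Z.GH.Sk
import Vale.Agent.P277Z.Val.Man
import Vale.Agent.P277Z.Val.Ident
import Vale.Agent.P272.K.C2.Wirt

/-!
# P277, block GLC: flips outside the log canonical centres, on a dlt model
-/

open scoped Manifold ContDiff Topology ComplexOrder
open Vale.Agent.P277 hiding Amin IsFlipR
open Vale.Agent.P277.HD Vale.Agent.P277.PH
open Vale.Agent.P272.K Vale.Agent.P285.H281.FD Set Filter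

noncomputable section

namespace Vale.Agent.P277Z.Glc

namespace Grel

/-- the identity theorem for the preimage of an analytic set -/
theorem dense_pre {T : Type} [TopologicalSpace T] [ChartedSpace (Cm 4) T]
    [IsManifold 𝓘(ℂ, Cm 4) ω T] [PreconnectedSpace T] {X : CSp} {p : T → X.pt} (hp : HolX 4 X p)
    {E : Set X.pt} (hE : IsAn X univ E) (hne : ∃ y, p y ∉ E) : Dense (p ⁻¹' E)ᶜ := by
  rw [← interior_eq_empty_iff_dense_compl]
  refine (isClopen_iff.1 ⟨isClosed_of_closure_subset fun y hy => ?_, isOpen_interior⟩).resolve_right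
    fun h => hne.elim fun y hy => hy (interior_subset (h.ge (mem_univ y)) : y ∈ p ⁻¹' E)
  obtain ⟨k, h, h1, h2⟩ := hE (p y) (mem_univ _)
  have hc := Val.crd_chart (at_chartAt (n := 4) y)
  have h3 := hp.1.continuousAt.eventually h2
  have h4 : ∀ i, ∀ᶠ x in 𝓝 y, h i (p x) = 0 := fun i => by
    have h5 := Val.ev_zero_of_freq (hp.2 y _ (h1 i) _ (at_chartAt y)) (hc.cont.frequently
      (((mem_closure_iff_frequently.1 hy).and_eventually
        (h3.eventually_nhds.and hc.eventually)).mono fun x a => a.2.2.tend.eventually (by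
          filter_upwards [mem_interior_iff_mem_nhds.1 a.1, a.2.1] with z b c using c.1 b i)))
    filter_upwards [hc.cont.eventually h5, hc.left] with x a b
    rwa [b] at a
  refine mem_interior_iff_mem_nhds.2 ?_
  filter_upwards [h3, eventually_all.2 h4] with x a b using a.2 b

/-- a projective modification of `X j` along a set which comes from `N₀` -/
structure Stg (D : Dat) (N₀ : Set (D.S.X 0).pt) (j : ℕ) where
  Y : CSp
  q : Y.pt → (D.S.X j).pt
  N : Set (D.S.X j).pt
  P : Bd Y.pt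
  normal : IsNormal 4 Y
  iso : IsoOff Y (D.S.X j) q N
  lb : IsLBx Y P
  trv : TrivOn Y (q ⁻¹' Nᶜ) P
  amp : RelAmple Y (D.S.X j) q P
  dense : Dense (q ⁻¹' {x | IsReg 4 (D.S.X j) x})
  cor : ∀ x ∈ N, ∃ x₀ ∈ N₀, Cor ∅ (fun x : (D.S.X 0).pt => x) D.S.f D.S.f' j x₀ x

variable {D : Dat} {N₀ : Set (D.S.X 0).pt}

theorem step (h : ∀ x ∈ N₀, x ∉ D.hit) (ε : ℝ) (j : ℕ) (s : Stg D N₀ j) :
    ∃ (s' : Stg D N₀ (j + 1)) (Z : CSp) (F : s.Y.pt → Z.pt) (F' : s'.Y.pt → Z.pt) (A : Set Z.pt),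
      IsFlipR s.Y Z s'.Y F F' A (liftFam s.q (D.S.L j) s.P) (liftFam s'.q (D.S.L (j + 1)) s'.P)
        (Fin.snoc (α := fun _ => ℕ) (D.S.c j) 1) (Fin.snoc (α := fun _ => ℕ) (D.S.c (j + 1)) 1)
        (Fin.snoc (α := fun _ => ℝ) D.ρ ε) := by
  have hN : ∀ x ∈ s.N, D.S.f j x ∉ Amin (D.S.f j) := fun x hx e => by
    obtain ⟨x₀, a, b⟩ := s.cor x hx
    exact h x₀ a (mem_iUnion.2 ⟨j + 1, j, j.lt_succ_self, x, b, e⟩)
  obtain ⟨Z, Y', F, F', A, q', P', a1, a2, a3, a4, a5, a6⟩ := lift2 (D.S.hc j) (D.S.flip j) ε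
    s.normal s.iso hN s.lb s.trv s.amp s.dense
  refine ⟨⟨Y', q', _, P', a6.normal', a1, a2, a3, a4, a5, ?_⟩, Z, F, F', A, a6⟩
  rintro x' ⟨x, hx, e⟩
  obtain ⟨x₀, a, b⟩ := s.cor x hx
  exact ⟨x₀, a, x, b, e, hN x hx⟩

/-- the iteration -/
def iter (nx : ∀ j, Stg D N₀ j → Stg D N₀ (j + 1)) (s₀ : Stg D N₀ 0) : ∀ j, Stg D N₀ j
  | 0 => s₀
  | j + 1 => nx j (iter nx s₀ j)

theorem lb_triv {d : ℕ} {T : Type} [TopologicalSpace T] [ChartedSpace (Cm d) T] :
    IsLB d (triv T) :=
  ⟨fun _ => isOpen_univ, fun _ => ⟨(), trivial⟩, fun _ _ _ _ _ _ _ => contDiffAt_const,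
    fun _ _ _ _ _ => one_ne_zero, fun _ _ _ _ _ _ _ => mul_one _⟩

theorem nef_triv {d : ℕ} (V : Mf d) : Nef V.χ (triv V.T) := fun δ hδ =>
  ⟨fun _ _ => 0, ⟨fun _ _ _ _ _ => contDiffAt_const, fun _ _ _ _ _ => by simp [triv]⟩,
    fun _ e x he _ => by
      rw [C2.cHess_const, zero_add]
      exact ((V.kahler.posDef e x he).smul (Complex.zero_lt_real.2 hδ)).posSemidef⟩

theorem exists_eps {r : ℕ} (a : Fin r → ℝ) (n : Fin r → ℤ) :
    ∃ ε > (0 : ℝ), ∀ l, (-1 < a l → -1 < a l + ε * n l) ∧ ε * n l ≤ 1 := by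
  have h : ∀ᶠ ε in 𝓝 (0 : ℝ), ∀ l, (-1 < a l → -1 < a l + ε * n l) ∧ ε * n l ≤ 1 :=
    eventually_all.2 fun l => Eventually.and (by
      by_cases h : -1 < a l
      · exact (continuousAt_const.eventually_lt (f := fun _ : ℝ => (-1 : ℝ))
          (g := fun ε : ℝ => a l + ε * n l) (by fun_prop) (by simpa using h)).mono fun _ h _ => h
      · simp [h]) ((ContinuousAt.eventually_lt (f := fun ε : ℝ => ε * n l) (g := fun _ => 1)
        (by fun_prop) continuousAt_const (by simp)).mono fun _ h => h.le)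
  obtain ⟨ε, h1, h2⟩ := ((h.filter_mono nhdsWithin_le_nhds).and
    (self_mem_nhdsWithin (s := Ioi (0 : ℝ)))).exists
  exact ⟨ε, h2, h1⟩

end Grel

open Grel in
/-- (GREL₁) -/
theorem grel1_of (hG : StGklt) (_ : StExc) (hR : GH.StKR) (hK : GH.StKProj) : StGrel₁ := by
  intro D W Y q ex g P n H hE hU
  have hX := (D.S.flip 0).normal
  have hd : Dense (g ⁻¹' {x | IsReg 4 (D.S.X 0) x}) := by
    have : Nonempty _ := hX.sing.nonempty
    obtain ⟨x, hx⟩ := hX.dense.nonempty
    obtain ⟨y, rfl⟩ := (H.iso.surj.comp H.dlt.res.surj) x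
    refine (H.dlt.res.surj.denseRange.dense_image H.dlt.res.cont (dense_pre (W.hol 0 le_rfl)
      (sing_an hX.dense) ⟨y, fun h => h (H.fac y ▸ hx)⟩)).mono ?_
    rintro _ ⟨z, hz, rfl⟩
    change IsReg 4 _ (g (q z))
    rw [H.fac]
    exact not_not.1 hz
  obtain ⟨ε, hε, he⟩ := exists_eps (W.a 0) n
  choose nx Z F F' A hF using step (D := D) (N₀ := W.Nk) (by
    rintro _ ⟨y, ⟨l, a, b⟩, rfl⟩
    exact hU l a y b) ε
  let s := iter nx ⟨Y, g, W.Nk, P, H.normal, H.iso, H.lb, H.trv, H.amp, hd,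
    fun x hx => ⟨x, hx, notMem_empty _, rfl⟩⟩
  let D' : Dat :=
    { k := D.k + 1
      ρ := Fin.snoc (α := fun _ => ℝ) D.ρ ε
      m := Fin.snoc (α := fun _ => ℕ) D.m 0
      pos := fun e => Fin.lastCases (by simpa using hε) (fun e => by simpa using D.pos e) e
      sum := by simpa [Fin.sum_univ_castSucc] using D.sum
      S :=
        { X := fun j => (s j).Y
          Z := fun j => Z j (s j)
          f := fun j => F j (s j)
          f' := fun j => F' j (s j)
          A := fun j => A j (s j)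
          L := fun j => liftFam (s j).q (D.S.L j) (s j).P
          c := fun j => Fin.snoc (α := fun _ => ℕ) (D.S.c j) 1
          hc := fun j e => Fin.lastCases (by simp) (fun e => by simpa using D.S.hc j e) e
          flip := fun j => hF j (s j) }
      kah := fun j => hK _ _ _ _ _ (hR _ (D.kah j)) (s j).iso.hol (s j).dense (s j).lb (s j).amp }
  let W₀ : Pm₀ D' 4 :=
    { toMf := W.toMf
      M := Fin.snoc (α := fun _ => Bd W.T) W.M (triv W.T)
      p := fun j => match j with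
        | 0 => q
        | j + 1 => fun _ => Classical.choice (s (j + 1)).normal.sing.nonempty
      P := fun _ => Fin.snoc (α := fun _ => ℕ) (W.P 0) 1
      n := fun _ => Fin.snoc (α := fun _ => Fin W.r → ℤ) (W.n 0) n }
  have ha : ∀ l, W₀.a 0 l = W.a 0 l + ε * n l := fun l => by
    simp [W₀, D', Pm₀.a, Pm₀.α, Fin.sum_univ_castSucc]
  have hlt : ∀ l, -1 < W₀.a 0 l := fun l => by
    rw [ha]
    rcases (W.lc l).eq_or_lt with h | h
    · have : (0 : ℝ) < n l := by exact_mod_cast H.pos l h.symm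
      nlinarith [mul_pos hε this]
    · exact (he l).1 h
  let W' : Pm D' 0 4 :=
    { toPm₀ := W₀
      lb := fun e => Fin.lastCases (by simpa [W₀] using lb_triv)
        (fun e => by simpa [W₀] using W.lb e) e
      nef := fun e => Fin.lastCases (by simpa [W₀] using nef_triv W.toMf)
        (fun e => by simpa [W₀] using W.nef e) e
      hol := fun j hj => by
        obtain rfl := Nat.le_zero.1 hj
        exact ⟨H.dlt.res.cont, H.dlt.res.hol⟩
      comm := fun _ h => absurd h (Nat.not_lt_zero _)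
      hP := fun _ e => Fin.lastCases (by simp [W₀]) (fun e => by simpa [W₀] using W.hP 0 e) e
      cmp := fun j hj e => by
        obtain rfl := Nat.le_zero.1 hj
        change ∃ t, Cmp 4 q ((liftFam g (D.S.L 0) P e).pow (Fin.snoc (α := fun _ => ℕ) (W.P 0) 1 e))
          ((((Bd.can 4 W.T).pow (Fin.snoc (α := fun _ => ℕ) D.m 0 e)).mul
            (Fin.snoc (α := fun _ => Bd W.T) W.M (triv W.T) e)).pow
            (Fin.snoc (α := fun _ => ℕ) (W.P 0) 1 e * Fin.snoc (α := fun _ => ℕ) (D.S.c 0) 1 e))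
          W.G (Fin.snoc (α := fun _ => Fin W.r → ℤ) (W.n 0) n e) t
        refine Fin.lastCases ?_ (fun e => ?_) e
        · rw [liftFam_last, Fin.snoc_last, Fin.snoc_last, Fin.snoc_last, Fin.snoc_last,
            Fin.snoc_last]
          obtain ⟨t, ht⟩ := H.cmp
          refine ⟨fun i _ => t i (), fun y i _ hi _ => ht.div y i () hi trivial,
            fun y i i₁ _ _ hy hi hi₁ _ _ => ?_⟩
          simpa [Bd.pow, Bd.mul, triv] using ht.change y i i₁ () () hy hi hi₁ trivial trivial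
        · rw [liftFam_cast, Fin.snoc_castSucc, Fin.snoc_castSucc, Fin.snoc_castSucc,
            Fin.snoc_castSucc, Fin.snoc_castSucc]
          obtain ⟨t, ht⟩ := W.cmp 0 le_rfl e
          rw [show W.p 0 = fun y => g (q y) from funext fun y => (H.fac y).symm] at ht
          exact ⟨t, ht.div, ht.change⟩
      lc := fun l => (hlt l).le
      mono := fun _ h => absurd h (Nat.not_lt_zero _)
      strict := fun _ h => absurd h (Nat.not_lt_zero _)
      const := fun _ h => absurd h (Nat.not_lt_zero _) }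
  refine hG D' W' ex H.dlt.res hlt fun l hl => ?_
  have h1 : l ∉ ex := fun h => hl (H.dlt.res.dim.mono
    (image_mono (subset_biUnion_of_mem (u := W.G) h)))
  change W₀.a 0 l ≤ 0
  rw [ha]
  by_cases h : W.a 0 l = -1
  · linarith [(he l).2]
  · rw [H.zero l h1 h]
    simpa using hE l ((H.dlt.nex l h1).resolve_left h)

end Vale.Agent.P277Z.Glc
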