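import Vale.Agent.P277Z.Glc.Api
import Vale.Agent.P277Z.Val.Imm
import Vale.Agent.P277Z.Val.RkA
import Vale.Agent.P277Z.Pj.Bdd

/-!
# P277, block GLC: the order of the Jacobian of a modification
-/

set_option linter.unusedSectionVars false

open scoped Manifold ContDiff Topology
open Vale.Agent.P277 Vale.Agent.P277.PH
open Vale.Agent.P272.K Set Filter Metric Function
open Vale.Agent.P277.T3 (ThinM thinM_biUnion)
open Vale.Agent.P277Z.Val (Crd Nch OrdEq OrdGe Tm inc tl eqn crd_chart an_jac det_comp)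
open Vale.Agent.P277Z.Val.U (an_loc)

noncomputable section

namespace Vale.Agent.P277Z.Glc

namespace Jc

/-- the Jacobian determinant -/
abbrev jdt {n : ℕ} (γ : Cm n → Cm n) (w : Cm n) : ℂ := (fderiv ℂ γ w).det

theorem jd_chg {M M' : Type} [TopologicalSpace M] [TopologicalSpace M'] {n : ℕ}
    [ChartedSpace (Cm n) M] [IsManifold 𝓘(ℂ, Cm n) ω M] [ChartedSpace (Cm n) M']
    [IsManifold 𝓘(ℂ, Cm n) ω M'] {π : M' → M} {y : M'} (hπ : ∀ y, Val.HolM n n π y)
    {c₁' c₂' : M' → Cm n} {ξ₁' ξ₂' : Cm n → M'} {c₁ c₂ : M → Cm n} {ξ₁ ξ₂ : Cm n → M}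
    (h₁' : Crd c₁' ξ₁' y) (h₂' : Crd c₂' ξ₂' y) (h₁ : Crd c₁ ξ₁ (π y)) (h₂ : Crd c₂ ξ₂ (π y)) :
    ∀ᶠ x in 𝓝 y, jdt (fun w => c₂ (π (ξ₂' w))) (c₂' x) =
      jdt (fun w => c₂ (ξ₁ w)) (c₁ (π x)) * jdt (fun w => c₁' (ξ₂' w)) (c₂' x) *
        jdt (fun w => c₁ (π (ξ₁' w))) (c₁' x) := by
  filter_upwards [h₁'.eventually, (hπ y).1.eventually h₁.eventually, h₂'.eventually,
    (hπ y).1.eventually h₂.eventually] with x e1 e2 e3 e4
  have f1 := (e3.chg e1).1
  have f2 := an_loc (hπ x) e1 e2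
  have f3 := (e2.chg e4).1
  have f4 : (fun z => c₂ (π (ξ₂' z))) =ᶠ[𝓝 (c₂' x)]
      fun z => c₂ (ξ₁ (c₁ (π (ξ₁' (c₁' (ξ₂' z)))))) := by
    filter_upwards [e3.tend.eventually e1.left,
      ((hπ x).1.tendsto.comp e3.tend).eventually e2.left] with z g1 g2
    rw [g1]
    exact (congrArg c₂ g2).symm
  have f5 : AnalyticAt ℂ (fun z => c₁ (π (ξ₁' (c₁' (ξ₂' z))))) (c₂' x) :=
    AnalyticAt.comp (g := fun w => c₁ (π (ξ₁' w))) (by rwa [e3.inv]) f1
  rw [jdt, f4.fderiv_eq, det_comp (φ := fun w => c₂ (ξ₁ w))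
    (by rw [e3.inv, e1.inv]; exact f3.differentiableAt) f5.differentiableAt,
    det_comp (φ := fun w => c₁ (π (ξ₁' w))) (by rw [e3.inv]; exact f2.differentiableAt)
      f1.differentiableAt, e3.inv, e1.inv, mul_right_comm, mul_assoc]

variable {d m : ℕ}

theorem holM {V' V : Mf d} (h : Md V' V) (y : V'.T) : Val.HolM d d h.π y :=
  ⟨h.hol.1.continuousAt, fun f hf => h.hol.2 y f hf⟩

/-- the Jacobian in arbitrary coordinates -/
theorem mon_jd {V' V : Mf d} (h : Md V' V) {y : V'.T} {c' : V'.T → Cm d} {ξ' : Cm d → V'.T}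
    {c : V.T → Cm d} {ξ : Cm d → V.T} (h' : Crd c' ξ' y) (hc : Crd c ξ (h.π y)) :
    Mon d V'.G (fun l => h.J l) (fun x => jdt (fun w => c (h.π (ξ' w))) (c' x)) y := by
  have he' := at_chartAt (n := d) y
  have he := at_chartAt (n := d) (h.π y)
  have f1 := (crd_chart he).chg hc
  have f2 := h'.chg (crd_chart he')
  exact (h.jac y _ _ he' he).unit
    (((holM h y).2 _ ((crd_chart he).holF (an_jac f1.1))).mul (h'.holF (an_jac f2.1)))
    (mul_ne_zero f1.2 f2.2)
    ((jd_chg (holM h) (crd_chart he') h' (crd_chart he) hc).mono fun _ e _ => e)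

variable {V' V : Mf (m + 1)} {l' : Fin V'.r} {y x : V'.T} {Φ' : Chart (m + 1) V'.T} {ρ' : ℝ}
  {lab' : Fin V'.r → Option (Fin (m + 1))}

/-- monomials at a general point of a component -/
theorem ordEq_mon (h' : Nch V'.G y Φ' ρ' lab') (hl : lab' l' = some 0) (hx : x ∈ Φ'.source)
    (hg : ∀ k, x ∈ V'.G k ↔ k = l') {f : V'.T → ℂ} {n : Fin V'.r → ℕ} (hf : HolF (m + 1) f x)
    (h : Mon (m + 1) V'.G (fun l => n l) f x) : OrdEq (fun w => f (Φ'.symm w)) (Φ' x) (n l') := by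
  classical
  have hc := h'.crd x hx
  obtain ⟨u, h1, h2, h3⟩ := (h.change (n' := fun k => if k = l' then n l' else 0) fun k hk => by
    rw [(hg k).1 hk, if_pos rfl]).any (nch_leq h' hx)
  have h4 := V'.ev_eq_of_off (g := fun z => u z * Φ' z 0 ^ n l') hf
    (h1.mul (holF_npow (hc.hol 0) _)) (h3.mono fun z e e' => by
      rw [e e', Finset.prod_eq_single l' (fun k _ hk => by simp [hk]) (by simp)]
      simp [eqn, hl])
  refine ⟨fun w => u (Φ'.symm w), hc.an.hol (by rwa [hc.inv]),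
    by simpa only [hc.inv] using h2, ?_⟩
  filter_upwards [hc.tend.eventually h4, hc.right] with w e1 e2
  rw [e1, e2, mul_comm]

theorem ordEq_jd (h : Md V' V) (h' : Nch V'.G y Φ' ρ' lab') (hl : lab' l' = some 0)
    (hx : x ∈ Φ'.source) (hg : ∀ k, x ∈ V'.G k ↔ k = l') {c : V.T → Cm (m + 1)}
    {ξ : Cm (m + 1) → V.T} (hc : Crd c ξ (h.π x)) :
    OrdEq (jdt fun w => c (h.π (Φ'.symm w))) (Φ' x) (h.J l') :=
  (ordEq_mon h' hl hx hg ((h'.crd x hx).holF (an_jac (an_loc (holM h x) (h'.crd x hx) hc)))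
    (mon_jd h (h'.crd x hx) hc)).congr ((h'.crd x hx).right.mono fun _ e =>
      congrArg (jdt fun w => c (h.π (Φ'.symm w))) e)

/-- (KEY) the restriction to a component along which the Jacobian vanishes is nowhere immersive -/
theorem key (h : Md V' V) (hJ : h.J l' ≠ 0) (h' : Nch V'.G y Φ' ρ' lab') (hl : lab' l' = some 0)
    (hx : x ∈ Φ'.source) (hg : ∀ k, x ∈ V'.G k ↔ k = l') {c : V.T → Cm (m + 1)}
    {ξ : Cm (m + 1) → V.T} (hc : Crd c ξ (h.π x)) :
    ¬ Injective (fderiv ℂ (fun z => c (h.π (Φ'.symm (inc m z)))) (tl m (Φ' x))) := by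
  intro hi
  have hc' := h'.crd x hx
  have h0 : Φ' x 0 = 0 := (h'.iff1 hl hx).1 ((hg l').2 rfl)
  have hγ := an_loc (holM h x) hc' hc
  have h1 : ∀ᶠ z in 𝓝 x, Φ' z 0 ≠ 0 → z ∉ ⋃ k, V'.G k := by
    filter_upwards [Φ'.open_source.mem_nhds hx, eventually_all.2 fun k => (show ∀ᶠ z in 𝓝 x,
      z ∈ V'.G k → k = l' from by
        by_cases e : k = l'
        · simp [e]
        · exact eventually_of_mem ((V'.closed k).isOpen_compl.mem_nhds fun e' => e ((hg k).1 e'))
            fun _ a b => absurd b a)] with z e1 e2 e3 e4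
    obtain ⟨k, hk⟩ := mem_iUnion.1 e4
    exact e3 ((h'.iff1 hl e1).1 (e2 k hk ▸ hk))
  have h2 := Val.Rk.locIso_of_tan hγ h0 (hc'.right.and (hc'.tend.eventually
    (h1.and ((holM h x).1.eventually hc.left)))) (fun w a w' b e _ e' => by
      have e1 := h.inj₀ _ (a.2.1 (by rwa [a.1])) _
        (b.2.2.symm.trans ((congrArg ξ e'.symm).trans a.2.2))
      rw [← a.1, ← e1, b.1]) fun v e1 e2 => by
    rw [HasFDerivAt.fderiv (f := fun z => c (h.π (Φ'.symm (inc m z))))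
      (HasFDerivAt.comp (g := fun w => c (h.π (Φ'.symm w))) _
        (by rw [Val.inc_tl h0]; exact hγ.differentiableAt.hasFDerivAt) (inc m).hasFDerivAt)] at hi
    have e3 : tl m v = 0 := hi (by
      rw [map_zero, ContinuousLinearMap.comp_apply, Val.inc_tl e1]
      exact e2)
    rw [← Val.inc_tl e1, e3, map_zero]
  exact h2.2 (((ordEq_jd h h' hl hx hg hc).ge.zero_on
    (Nat.one_le_iff_ne_zero.2 hJ)).self_of_nhds h0)

theorem exists_gen (V' : Mf (m + 1)) (l' : Fin V'.r) : ∃ y, ∀ k, y ∈ V'.G k ↔ k = l' :=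
  (V'.connG l').nonempty.elim fun _ hy => (V'.gen1 hy).exists

theorem dpos {V' : Mf d} (l' : Fin V'.r) : ∃ m, d = m + 1 := by
  obtain ⟨y, hy⟩ := (V'.connG l').nonempty
  exact ⟨d - 1, by have := V'.card_le (I := {l'}) (by simpa using hy); simp at this; omega⟩

theorem dpos₂ (h : Md V' V) (hJ : h.J l' ≠ 0) : ∃ k, m = k + 1 := by
  obtain ⟨y, hy⟩ := exists_gen V' l'
  obtain ⟨Φ', ρ', lab', h', hl, -⟩ := V'.snc.nch1 ((hy l').2 rfl) 0 (.of_forall fun _ => trivial)
  rcases m with _ | k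
  · exact absurd (fun _ _ _ => Subsingleton.elim _ _)
      (key h hJ h' hl h'.src hy (crd_chart (at_chartAt _)))
  · exact ⟨k, rfl⟩

end Jc

open Jc

/-- (JAC) -/
theorem jac : StJac := by
  classical
  intro d V' V h l'
  obtain ⟨m, rfl⟩ := dpos l'
  obtain ⟨y, hy⟩ := exists_gen V' l'
  obtain ⟨Φ, ρ, lab, hc, -⟩ := V.snc.nch (h.π y) (.of_forall fun _ => trivial)
  obtain ⟨Φ', ρ', lab', h', hl, hp⟩ := V'.snc.nch1 ((hy l').2 rfl) 0
    ((h.hol.1.continuousAt.eventually hc.nhds).and (show ∀ᶠ x in 𝓝 y, ∀ k, x ∈ V'.G k → k = l' from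
      eventually_all.2 fun k => by
        by_cases e : k = l'
        · simp [e]
        · exact eventually_of_mem ((V'.closed k).isOpen_compl.mem_nhds fun e' => e ((hy k).1 e'))
            fun _ a b => absurd b a))
  have h0 : Φ' y 0 = 0 := congrFun h'.zero 0
  have hγ := an_loc (holM h y) (h'.crd y h'.src) (hc.crd _ hc.src)
  have hJ := ordEq_jd h h' hl h'.src hy (hc.crd _ hc.src)
  have ho : ∀ l, OrdEq (fun w => eqn Φ lab l (h.π (Φ'.symm w))) (Φ' y) (h.o l l') := fun l =>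
    ordEq_mon h' hl h'.src hy (h.hol.2 y _ (nch_leq hc hc.src l).holF)
      (h.ord y l _ (nch_leq hc hc.src l))
  have hn : ∀ l, lab l = none → h.o l l' = 0 := fun l e => by
    have := ho l
    simp only [eqn, e, Option.elim_none] at this
    exact this.unique h0 (Val.ordEq_zero analyticAt_const one_ne_zero)
  set g : Fin (m + 1) → ℕ := fun i => ∑ l with lab l = some i, h.o l l' with hg
  have h1 : ∀ l i, lab l = some i → g i = h.o l l' := fun l i e =>
    Finset.sum_eq_single l (fun k hk hk' => absurd (hc.inj _ _ i (Finset.mem_filter.1 hk).2 e) hk')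
      (by simp [e])
  have h2 : ∀ i, OrdGe (fun w => Φ (h.π (Φ'.symm w)) i) (Φ' y) (g i) := fun i => by
    by_cases e : ∃ l, lab l = some i
    · obtain ⟨l, e⟩ := e
      have := (ho l).ge
      simp only [eqn, e, Option.elim_some] at this
      rwa [h1 l i e]
    · rw [show g i = 0 from Finset.sum_eq_zero fun l hl => absurd ⟨l, (Finset.mem_filter.1 hl).2⟩ e]
      exact Val.ordGe_zero (analyticAt_pi_iff.1 hγ i)
  have h3 : ∑ l, h.o l l' = ∑ i, g i := by
    simp only [hg, Finset.sum_filter]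
    rw [Finset.sum_comm]
    refine Finset.sum_congr rfl fun l _ => ?_
    cases e : lab l with
    | none => simp [hn l e]
    | some j => simp
  refine ⟨?_, fun hJ0 l => ?_⟩
  · set I := Finset.univ.filter fun i => 1 ≤ g i with hI
    have e1 : ∑ i, (g i - 1) + (m - (m + 1 - I.card)) ≤ h.J l' := Val.jac_le h0 h2
      (Val.rank_Tm_le hγ I fun i hi => (h2 i).mono (Finset.mem_filter.1 hi).2) hJ
    have e2 : ∑ i, g i = ∑ i, (g i - 1) + I.card := by
      rw [hI, Finset.card_filter, ← Finset.sum_add_distrib]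
      refine Finset.sum_congr rfl fun i _ => ?_
      split_ifs <;> omega
    have e3 : I.card ≤ m + 1 := by simpa using Finset.card_le_univ I
    omega
  · obtain ⟨k, rfl⟩ := dpos₂ h hJ0
    have e1 : ∑ i, (g i - 1) + (k + 1 - k) ≤ h.J l' := Val.jac_le h0 h2 (by
      filter_upwards [hγ.eventually_analyticAt, Φ'.open_target.mem_nhds (Φ'.map_source h'.src)]
        with w e1 e2 e3
      have e4 := Φ'.map_target e2
      have e5 := key h hJ0 h' hl e4 (fun j => ⟨(hp _ e4).2 j, fun e => e ▸ (h'.iff1 hl e4).2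
        (by rwa [Φ'.right_inv e2])⟩) (hc.crd _ (hp _ e4).1)
      rw [Φ'.right_inv e2] at e5
      rw [Val.Tm_eq e1.differentiableAt e3, Val.rank_Jm]
      by_contra e6
      have e7 := LinearMap.finrank_range_add_finrank_ker (fderiv ℂ (fun z =>
        Φ (h.π (Φ'.symm (inc (k + 1) z)))) (tl (k + 1) w) : Cm (k + 1) →ₗ[ℂ] Cm (k + 1 + 1))
      rw [Module.finrank_fin_fun] at e7
      exact e5 (LinearMap.ker_eq_bot.1 (Submodule.finrank_eq_zero.1 (by omega)))) hJ
    cases e : lab l with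
    | none => simp [hn l e]
    | some i =>
      have e2 : g i - 1 ≤ ∑ i, (g i - 1) :=
        Finset.single_le_sum (f := fun i => g i - 1) (fun _ _ => Nat.zero_le _) (Finset.mem_univ i)
      rw [h1 l i e] at e2
      omega

/-- the Jacobian does not vanish at the general points of the components with `J = 0` -/
theorem Md.locIso {d : ℕ} {V' V : Mf d} (h : Md V' V) {y : V'.T}
    (hy : ∀ l, y ∈ V'.G l → h.J l = 0) {c' : V'.T → Cm d} {ξ' : Cm d → V'.T} {c : V.T → Cm d}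
    {ξ : Cm d → V.T} (h' : Crd c' ξ' y) (hc : Crd c ξ (h.π y)) :
    Val.LocIso (fun w => c (h.π (ξ' w))) (c' y) := by
  have h1 := an_loc (holM h y) h' hc
  obtain ⟨g, h2, h3, h4⟩ := (mon_jd h h' hc).ext fun _ _ => Int.natCast_nonneg _
  refine ⟨h1, fun e => ?_⟩
  obtain ⟨l, e1, e2⟩ := h3.1 ((V'.eq_of_off (Val.holF_cont (h'.holF (an_jac h1)))
    (Val.holF_cont h2) h4).symm.trans e)
  exact e2 (by simp [hy l e1])

/-- (THIN) on the manifold -/
theorem Md.thinM {k : ℕ} {V' V : Mf (k + 2)} (h : Md V' V) {l' : Fin V'.r} (hJ : h.J l' ≠ 0) :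
    ThinM (k + 2) k (h.π '' V'.G l') := by
  have : SecondCountableTopology V'.T := ChartedSpace.secondCountable_of_sigmaCompact (Cm (k + 2)) _
  have loc : ∀ y ∈ V'.G l', ∃ N ∈ 𝓝 y, ThinM (k + 2) k (h.π '' (N ∩ V'.G l')) := by
    intro y hy
    have he := at_chartAt (n := k + 2) (h.π y)
    set e := chartAt (Cm (k + 2)) (h.π y)
    obtain ⟨Φ', ρ', lab', h', hl, hp⟩ := V'.snc.nch1 hy 0
      (h.hol.1.continuousAt.eventually (e.open_source.mem_nhds he.2))
    have hB : IsOpen (inc (k + 1) ⁻¹' ball 0 ρ') := isOpen_ball.preimage (inc _).continuous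
    have hF : ∀ z ∈ inc (k + 1) ⁻¹' ball 0 ρ',
        AnalyticAt ℂ (fun z => e (h.π (Φ'.symm (inc (k + 1) z)))) z := fun z hz => by
      have e1 := h'.symm_mem hz
      have e2 := an_loc (holM h _) (h'.crd _ e1.1) (crd_chart ⟨he.1, hp _ e1.1⟩)
      rw [e1.2] at e2
      exact e2.comp ((inc _).analyticAt z)
    have h1 := Pj.Bdd.cv_conn hB ((convex_ball _ _).is_linear_preimage
      ((inc (k + 1)).restrictScalars ℝ).isLinear).isPreconnected
      ⟨0, by simpa using h'.pos⟩ hF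
    refine ⟨_, h'.nhds, Val.U.thinM_mono (H335.HY.thinM_of_cv he.1 h1 ?_) ?_⟩
    · rintro _ ⟨z, hz, rfl⟩
      exact e.map_source (hp _ (h'.symm_mem hz.1).1)
    · rintro _ ⟨x, ⟨e1, e2⟩, rfl⟩
      have e3 := Val.inc_tl ((h'.iff1 hl e1).1 e2)
      have e4 : tl (k + 1) (Φ' x) ∈ inc (k + 1) ⁻¹' ball 0 ρ' := by
        rw [mem_preimage, e3, ← h'.tgt]
        exact Φ'.map_source e1
      refine ⟨_, ⟨_, ⟨e4, fun hi => ?_⟩, rfl⟩, by
        simp only [e3, Φ'.left_inv e1, e.left_inv (hp _ e1)]⟩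
      obtain ⟨P, hP⟩ := Val.U.exists_P (hF _ e4) hi
      obtain ⟨x', f1, f2, f3⟩ := ((V'.gen1 e2).and_eventually (Eventually.and
        (Φ'.open_source.mem_nhds e1) ((((tl (k + 1)).continuous.tendsto _).comp
          (h'.crd x e1).cont).eventually (hP.eventually.and (hF _ e4).eventually_analyticAt)))).exists
      exact key h hJ h' hl f2 f1 (crd_chart ⟨he.1, hp _ f2⟩) (Val.U.inj_of_P f3.2 P f3.1.2)
  choose! N hN hd using loc
  obtain ⟨t, t1, t2, t3⟩ := TopologicalSpace.countable_cover_nhdsWithin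
    (f := N) (s := V'.G l') fun p hp => mem_nhdsWithin_of_mem_nhds (hN p hp)
  refine Val.U.thinM_mono (thinM_biUnion t2 fun p hp => hd p (t1 hp)) ?_
  rintro _ ⟨x, hx, rfl⟩
  obtain ⟨p, hp, e⟩ := mem_iUnion₂.1 (t3 hx)
  exact mem_iUnion₂.2 ⟨p, hp, x, ⟨e, hx⟩, rfl⟩

/-- (THIN) -/
theorem thin : StThin := by
  intro d V' V h l' hJ X p hp
  obtain ⟨m, rfl⟩ := dpos l'
  obtain ⟨k, rfl⟩ := dpos₂ h hJ
  refine ⟨k, rfl, ?_⟩
  rw [← image_image p h.π]
  exact (H60.Z.thinM_iff.1 (h.thinM hJ)).image (Z := X) (f := p) fun x _ =>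
    ⟨hp.1.continuousAt, hp.2 x⟩

end Vale.Agent.P277Z.Glc
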