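import Vale.Agent.P277Z.Glc.Num
import Vale.Agent.P277Z.Glc.BIso
import Vale.Agent.P277Z.GH.Sk
import Vale.Agent.P277Z.Val.USk
import Vale.Agent.P277.HD.Conv

/-!
# P277, block GLC: one more flip (MODEL)
-/

open scoped Manifold ContDiff Topology
open Vale.Agent.P277 hiding Amin IsFlipR
open Vale.Agent.P277.HD Vale.Agent.P277.PH
open Vale.Agent.P272.K Vale.Agent.P285.H281.FD Set Filter Function
open Vale.Agent.P277.H615 (comb)

noncomputable section

namespace Vale.Agent.P277Z.Glc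

namespace Mo

theorem cmp_flip {d : ℕ} {T : Type} [TopologicalSpace T] [ChartedSpace (Cm d) T]
    [IsManifold 𝓘(ℂ, Cm d) ω T] [T2Space T] [CompactSpace T] {r : ℕ} {G : Fin r → Set T}
    {X Z X' : CSp} {f : X.pt → Z.pt} {f' : X'.pt → Z.pt} {A : Set Z.pt} {p : T → X.pt}
    {p' : T → X'.pt} {L : Bd X.pt} {L' : Bd X'.pt} {M : Bd T} (hL : IsLBx X L) (hL' : IsLBx X' L')
    (hM : ∀ j, IsOpen (M.U j)) (hp : Continuous p) (hp' : Continuous p') {a b P Q Q' : ℕ}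
    {s : L.ι → L'.ι → Z.pt → ℂ} (hs : IsIso f f' A (L.pow a) (L'.pow b) s)
    (hc : ∀ y, f' (p' y) = f (p y)) (hA : ∀ y, f (p y) ∈ A → y ∈ ⋃ l, G l) {n μ : Fin r → ℤ}
    (hμ : ∀ y i j, p y ∈ L.U i → p' y ∈ L'.U j → Mon d G μ (fun y => s i j (f (p y))) y)
    {t : L.ι → M.ι → T → ℂ} (ht : Cmp d p (L.pow P) (M.pow Q) G n t) (hQ : Q * a = Q') :
    ∃ t', Cmp d p' (L'.pow (b * P)) (M.pow Q') G (fun l => a * n l - P * μ l) t' := by
  choose I hI using fun y => hL.cover (p y)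
  have key : ∀ y i i₁ k k₁ j j₁, y ∉ ⋃ l, G l → p y ∈ L.U i → p y ∈ L.U i₁ → p' y ∈ L'.U k →
      p' y ∈ L'.U k₁ → y ∈ M.U j → y ∈ M.U j₁ → t i₁ j₁ y ^ a / s i₁ k₁ (f (p y)) ^ P =
        L'.g k k₁ (p' y) ^ (b * P) * (t i j y ^ a / s i k (f (p y)) ^ P) * M.g j₁ j y ^ Q' := by
    intro y i i₁ k k₁ j j₁ hy hi hi₁ hk hk₁ hj hj₁
    have e1 : t i₁ j₁ y = L.g i i₁ (p y) ^ P * t i j y * M.g j₁ j y ^ Q :=
      ht.change y i i₁ j j₁ hy hi hi₁ hj hj₁
    have e2 : s i₁ k₁ (f (p y)) = L.g i i₁ (p y) ^ a * s i k (f (p y)) * L'.g k₁ k (p' y) ^ b :=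
      hs.change _ _ i i₁ k k₁ (mt (hA y) hy) (hc y) hi hi₁ hk hk₁
    have e3 := hL.ne_zero i i₁ _ hi hi₁
    have e4 := hL'.ne_zero k k₁ _ hk hk₁
    have e5 := (hs.holo _ _ i k (mt (hA y) hy) (hc y) hi hk).2
    rw [e1, e2, eq_inv_of_mul_eq_one_right (lb_symm hL' hk hk₁), ← hQ]
    simp only [mul_pow, inv_pow, ← pow_mul, mul_comm P a]
    field_simp
  refine ⟨fun k j y => t (I y) j y ^ a / s (I y) k (f (p y)) ^ P, fun y k j hk hj =>
    (((ht.div y _ j (hI y) hj).pow a).div ((hμ y _ k (hI y) hk).pow P)).congr ?_,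
    fun y k k₁ j j₁ hy hk hk₁ hj hj₁ => key y _ _ k k₁ j j₁ hy (hI y) (hI y) hk hk₁ hj hj₁⟩
  filter_upwards [hp.continuousAt.eventually_mem ((hL.isOpen _).mem_nhds (hI y)),
    hp'.continuousAt.eventually_mem ((hL'.isOpen _).mem_nhds hk), (hM j).mem_nhds hj]
    with x h1 h2 h3 h4
  have e1 : t (I y) j x = L.g (I y) (I y) (p x) ^ P * t (I y) j x * M.g j j x ^ Q :=
    ht.change x _ _ j j h4 h1 h1 h3 h3
  rw [lb_self hL h1, one_pow, one_mul, eq_comm, mul_eq_left₀ (ht.ne h4 h1 h3)] at e1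
  rw [key x _ _ k k j j h4 h1 (hI x) h2 h2 h3 h3, lb_self hL' h2, ← hQ, pow_mul (M.g j j x), e1,
    one_pow, one_pow, one_mul, mul_one]

theorem neg {k : ℕ} (hk : 1 ≤ k) {a μ : Fin k → ℤ} (h : ∀ o, ∑ e, comb a o e * μ e < 0)
    {x : Fin k → ℝ} (hx : ∀ e, (a e : ℝ) ≤ x e ∧ x e ≤ a e + 1) : ∑ e, x e * μ e < 0 := by
  have h0 : (k : ℝ) ≠ 0 := Nat.cast_ne_zero.2 (by omega)
  have h1 : ∀ o, (0 : ℝ) < -((∑ e, comb a o e * μ e : ℤ) : ℝ) := fun o =>
    neg_pos.2 (Int.cast_lt_zero.2 (h o))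
  refine (H615.sum_comb hk (fun e => ?_) ?_ (h1 none).le (fun e => (h1 (some e)).le) hx).2 (h1 none)
    fun e => h1 (some e)
  · simp [comb, add_mul, Finset.sum_add_distrib, h0]
  · simp [comb]

variable {D : Dat} {N d : ℕ} (W : Pm D N d) (p' : W.T → (D.S.X (N + 1)).pt) (P' : Fin D.k → ℕ)
  (n' : Fin D.k → Fin W.r → ℤ)

/-- the data with new values at the time `N + 1` -/
abbrev nx₀ : Pm₀ D d :=
  { W.toPm₀ with p := update W.p (N + 1) p', P := update W.P (N + 1) P', n := update W.n (N + 1) n' }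

/-- `G l` lies over the flipped set -/
def Ov (l : Fin W.r) : Prop := ∀ y ∈ W.G l, D.Fl N (W.p N y)

theorem nx_p {j : ℕ} (hj : j ≤ N) : (nx₀ W p' P' n').p j = W.p j :=
  update_of_ne (Nat.lt_succ_of_le hj).ne _ _

theorem nx_α {j : ℕ} (hj : j ≤ N) (e l) : (nx₀ W p' P' n').α j e l = W.α j e l := by
  simp only [Pm₀.α, update_of_ne (Nat.lt_succ_of_le hj).ne]

theorem nx_a {j : ℕ} (hj : j ≤ N) (l) : (nx₀ W p' P' n').a j l = W.a j l := by
  simp only [Pm₀.a, nx_α W p' P' n' hj]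

/-- what is needed at the time `N + 1` -/
structure Nx : Prop where
  hol : HolX d (D.S.X (N + 1)) p'
  comm : ∀ y, D.S.f' N (p' y) = D.S.f N (W.p N y)
  hP : ∀ e, 1 ≤ P' e
  cmp : ∀ e, ∃ t, Cmp d p' ((D.S.L (N + 1) e).pow (P' e))
    ((W.NB e).pow (P' e * D.S.c (N + 1) e)) W.G (n' e) t
  lt : ∀ l, Ov W l → W.a N l < (nx₀ W p' P' n').a (N + 1) l
  eq : ∀ l, ¬ Ov W l → ∀ e, W.α N e l = (nx₀ W p' P' n').α (N + 1) e l
  cover : ∀ y, D.Fl N (W.p N y) → ∃ l, y ∈ W.G l ∧ Ov W l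

variable {W p' P' n'}

theorem Nx.eqa (h : Nx W p' P' n') {l} (hl : ¬ Ov W l) :
    W.a N l = (nx₀ W p' P' n').a (N + 1) l := by
  simp only [Pm₀.a, h.eq l hl]

/-- the model over `X 0, …, X (N + 1)` -/
def Nx.pm (h : Nx W p' P' n') : Pm D (N + 1) d where
  toPm₀ := nx₀ W p' P' n'
  lb := W.lb
  nef := W.nef
  hol j hj := by
    rcases Nat.of_le_succ hj with hj | rfl
    · rw [nx_p W p' P' n' hj]
      exact W.hol j hj
    · exact (congrArg (HolX d _) (update_self (N + 1) p' W.p)).mpr h.hol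
  comm j hj y := by
    rw [nx_p W p' P' n' (Nat.le_of_lt_succ hj)]
    rcases Nat.lt_succ_iff_lt_or_eq.1 hj with hj | rfl
    · rw [nx_p W p' P' n' hj]
      exact W.comm j hj y
    · simpa only [nx₀, update_self] using h.comm y
  hP j e := by
    by_cases hj : j = N + 1
    · simpa only [nx₀, hj, update_self] using h.hP e
    · simpa only [nx₀, update_of_ne hj] using W.hP j e
  cmp j hj e := by
    change ∃ t, Cmp d (update W.p (N + 1) p' j) ((D.S.L j e).pow (update W.P (N + 1) P' j e))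
      ((W.NB e).pow (update W.P (N + 1) P' j e * D.S.c j e)) W.G (update W.n (N + 1) n' j e) t
    rcases Nat.of_le_succ hj with hj | rfl
    · have := (Nat.lt_succ_of_le hj).ne
      rw [update_of_ne this, update_of_ne this, update_of_ne this]
      exact W.cmp j hj e
    · rw [update_self, update_self, update_self]
      exact h.cmp e
  lc l := (W.lc l).trans_eq (nx_a W p' P' n' N.zero_le l).symm
  mono j hj l := by
    rw [nx_a W p' P' n' (Nat.le_of_lt_succ hj)]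
    rcases Nat.lt_succ_iff_lt_or_eq.1 hj with hj | rfl
    · rw [nx_a W p' P' n' hj]
      exact W.mono j hj l
    · exact (em _).elim (fun k => (h.lt l k).le) fun k => (h.eqa k).le
  strict j hj y := by
    simp only [update_of_ne (Nat.ne_of_lt hj), nx_a W p' P' n' (Nat.le_of_lt_succ hj)]
    rcases Nat.lt_succ_iff_lt_or_eq.1 hj with hj | rfl
    · simp only [nx_a W p' P' n' hj]
      exact W.strict j hj y
    · exact fun k => (h.cover y k).imp fun l => And.imp_right (h.lt l)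
  const j hj l := by
    simp only [update_of_ne (Nat.ne_of_lt hj), nx_α W p' P' n' (Nat.le_of_lt_succ hj)]
    rcases Nat.lt_succ_iff_lt_or_eq.1 hj with hj | rfl
    · simp only [nx_α W p' P' n' hj]
      exact W.const j hj l
    · exact fun ⟨y, a, b⟩ => h.eq l fun k => b (k y a)

end Mo

open Mo in
theorem model_of (h1 : GH.StGraph) (h2 : Val.StCmpS) (h3 : StMd) (h4 : StPull) (h5 : StPre)
    (h6 : StJac) : StModel := by
  intro D N W exc hres
  obtain ⟨V', π, p', new, exc', r1, -, hE, hnew, hc, -, r3⟩ := h1 _ _ _ _ _ _ _ _ _ _ _ _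
    (D.S.hc N) (D.S.hc (N + 1)) (D.S.flip N) W.lg (W.p N) exc hres
  obtain ⟨U, B, new', e1, hJ⟩ := h3 W.toMf V' π new r1 fun y h => (hE y).2 (Or.inl h)
  cases e1
  obtain ⟨W₁, h, e2⟩ := h4 D N 4 W U B
  cases e2
  have hp := h.hp N le_rfl
  simp only [hp] at hE hnew hc
  obtain ⟨p₁, q₁, s, d, a, hd, hcp, hF, hx⟩ := H615.exists_flipD (D.S.flip N).old (D.S.hc N)
  have hk : 1 ≤ D.k := Nat.pos_of_ne_zero fun k => by
    have := D.sum
    rw [Finset.sum_eq_zero fun e _ => (k ▸ e).elim0] at this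
    exact zero_ne_one this
  obtain ⟨μ, hμ⟩ := h2 W₁.lg _ _ _ _ _ _ _ _ p₁ q₁ s a hF hk (W₁.p N) p'
    ⟨⟨(W₁.hol N le_rfl).1, (W₁.hol N le_rfl).2⟩, ⟨r3.cont, r3.hol⟩, hc,
      fun y k => (hE y).2 (Or.inr k)⟩
  have hα : ∀ e l, (nx₀ W₁ p' (fun e => q₁ e * W₁.P N e)
      fun e l => p₁ e * W₁.n N e l - W₁.P N e * μ e l).α (N + 1) e l =
        W₁.α N e l - μ e l / (D.S.c N e * p₁ e) := fun e l => by
    have a1 : (D.S.c N e : ℝ) ≠ 0 := Nat.cast_ne_zero.2 (Nat.one_le_iff_ne_zero.1 (D.S.hc N e))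
    have a2 : (p₁ e : ℝ) ≠ 0 := Nat.cast_ne_zero.2 (Nat.one_le_iff_ne_zero.1 (hF.hp e))
    have a3 : (W₁.P N e : ℝ) ≠ 0 := Nat.cast_ne_zero.2 (Nat.one_le_iff_ne_zero.1 (W₁.hP N e))
    simp only [Pm₀.α, update_self]
    rw [← Nat.cast_mul, mul_right_comm, mul_comm (q₁ e), ← hcp e]
    push_cast
    field_simp
  have H : Nx W₁ p' (fun e => q₁ e * W₁.P N e)
      fun e l => p₁ e * W₁.n N e l - W₁.P N e * μ e l := by
    refine ⟨⟨r3.cont, r3.hol⟩, hc, fun e => Nat.mul_pos (hF.hq e) (W₁.hP N e), fun e => ?_,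
      fun l hl => ?_, fun l hl e => by rw [hα, hμ.zero l hl, Int.cast_zero, zero_div, sub_zero],
      hμ.cover⟩
    · obtain ⟨t, ht⟩ := W₁.cmp N le_rfl e
      refine cmp_flip (M := W₁.NB e) (hF.lb e) (hF.lb' e)
        (fun j => (Slc.isLB_can.isOpen j.1).inter ((W₁.lb e).isOpen j.2)) (W₁.hol N le_rfl).1
        r3.cont (hF.iso e) hc (fun y k => (hE y).2 (Or.inr k)) (fun y i j hi hj => ?_) ht
        (by rw [mul_assoc, hcp e]; ring)
      obtain ⟨ζ, hζ⟩ := W₁.exEq y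
      obtain ⟨u, k⟩ := hμ.mon y ζ e i j hζ hi hj
      exact ⟨ζ, u, hζ, k⟩
    · have k := neg hk (hμ.neg l · hl) hx
      simp only [mul_assoc, ← Finset.mul_sum] at k
      simp only [Pm₀.a, hα, mul_sub, Finset.sum_sub_distrib, lt_sub_iff_add_lt, add_lt_iff_neg_left,
        ← mul_div_assoc, mul_div_right_comm]
      exact neg_of_mul_neg_right k (Nat.cast_nonneg d)
  have hn : ∀ l, H.pm.a (N + 1) l = -1 → l ∉ new' := fun l hl k =>
    (H.lt l (hnew l k)).not_ge (hl.le.trans (W₁.lc' le_rfl l))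
  refine ⟨H.pm, exc', by simpa only [Pm.Res, Nx.pm, nx₀, update_self] using r3,
    ⟨{ toMd := h.toMd
       le := N.le_succ
       hp := fun j hj y => (h.hp j hj y).trans (congrFun (nx_p W₁ p' _ _ hj) y).symm
       hM := h.hM
       crep := fun j hj e l => (nx_α W₁ p' _ _ hj e l).trans (h.crep j hj e l)
       inj := fun y hy y' => r1.inj y y' fun k => ?_
       J0 := fun l hl => (hJ l).2 (hn l hl)
       back := fun y hy k l' hl' => ?_ }⟩⟩
  · obtain ⟨l, k1, k2⟩ := mem_iUnion₂.1 k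
    exact hn l (hy l k2) k1
  · have k1 : ¬ D.Fl N (W₁.p N y) := nx_p W₁ p' _ _ le_rfl ▸ k N le_rfl N.lt_succ_self
    have k2 : ¬ Ov W₁ l' := fun k => k1 (k y hl')
    obtain ⟨z, z1, z2⟩ := ((W₁.gen1 hl').and_eventually
      ((hF.small.cont.comp (W₁.hol N le_rfl).1).continuousAt.eventually_mem
        (hF.small.isClosed.isOpen_compl.mem_nhds k1))).exists
    obtain ⟨l, z3⟩ := mem_iUnion.1
      (((hE z).1 (mem_iUnion.2 ⟨l', (z1 l').2 rfl⟩)).resolve_right z2)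
    obtain ⟨l'', z4, z5⟩ := (h5 4 _ _ h.toMd z l).1 z3
    obtain rfl := (z1 l'').1 z4
    exact (H.eqa k2).symm.trans ((h.a_st h6 ⟨(hJ l'').2 fun k => k2 (hnew l'' k), z5⟩ le_rfl).trans
      (hy l (h.sub h5 z5 hl')))

end Vale.Agent.P277Z.Glc
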