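import Vale.Agent.P277Z.Glc.Api
import Vale.Agent.P272.K.Inv.Chart

/-!
# P277, block GLC: the pull back of a model
-/

set_option linter.unusedSectionVars false

open scoped Manifold ContDiff Topology
open Vale.Agent.P277 hiding Amin IsFlipR
open Vale.Agent.P277.HD Vale.Agent.P277.PH
open Vale.Agent.P272.K Vale.Agent.P285.H281.FD Set Filter

noncomputable section

namespace Vale.Agent.P277Z.Glc

namespace Pl

variable {d : ℕ}

section
variable {T : Type} [TopologicalSpace T] [ChartedSpace (Cm d) T] [IsManifold 𝓘(ℂ, Cm d) ω T]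

theorem det_jacM {e e' : Chart d T} {x : T} (he : At e x) (he' : At e' x) :
    (jacM e e' x).det = (fderiv ℂ (fun z => e' (e.symm z)) (e x)).det := by
  rw [Val.det_eq_Jm]
  congr 1
  ext p q
  rw [jacM_eq, jmat_apply (transition_differentiableAt he he')]
  rfl

theorem open_at (e : Chart d T) : IsOpen {x | At e x} := isOpen_iff_mem_nhds.2 fun _ hx =>
  (e.open_source.eventually_mem hx.2).mono fun _ h => ⟨hx.1, h⟩

variable [T2Space T] [CompactSpace T] {r : ℕ} {X : Type} {p : T → X} {L : Bd X} {N N' : Bd T}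
  {G : Fin r → Set T} {n n' : Fin r → ℤ} {t : L.ι → N.ι → T → ℂ} {t' : N.ι → N'.ι → T → ℂ}

/-- composition of comparisons -/
theorem trans (h : Cmp d p L N G n t) (h' : Cmp d (fun y => y) N N' G n' t')
    (hL : ∀ i, IsOpen (p ⁻¹' L.U i)) (hN : ∀ y, ∃ a, ∀ᶠ x in 𝓝 y, x ∈ N.U a)
    (hN' : ∀ j, IsOpen (N'.U j)) (h1 : ∀ a, ∀ y ∈ N.U a, N.g a a y = 1) :
    ∃ s, Cmp d p L N' G (fun l => n l + n' l) s := by
  choose k hk using hN
  have key : ∀ y i j a b, y ∉ ⋃ l, G l → p y ∈ L.U i → y ∈ N'.U j → y ∈ N.U a → y ∈ N.U b →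
      t i b y * t' b j y = t i a y * t' a j y := fun y i j a b h0 hi hj ha hb => by
    have e2 := h.change y i i b a h0 hi hi hb ha
    have e3 := h.change y i i a a h0 hi hi ha ha
    have e4 := h'.change y a b j j h0 ha hb hj hj
    have e5 := h'.change y a a j j h0 ha ha hj hj
    have k1 := h.ne h0 hi ha
    have k2 := h'.ne h0 ha hj
    have k3 : L.g i i (p y) * N.g a a y = 1 := mul_left_cancel₀ k1 (by linear_combination -e3)
    have k4 : N.g a a y * N'.g j j y = 1 := mul_left_cancel₀ k2 (by linear_combination -e5)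
    have k5 : N'.g j j y = L.g i i (p y) := by linear_combination L.g i i (p y) * k4 - N'.g j j y * k3
    rw [e4, k5]
    linear_combination -t' a j y * e2
  refine ⟨fun i j y => t i (k y) y * t' (k y) j y, fun y i j hi hj => ?_,
    fun y i i₁ j j₁ h0 hi hi₁ hj hj₁ => ?_⟩
  · refine ((h.div y i _ hi (hk y).self_of_nhds).mul (h'.div y _ j (hk y).self_of_nhds hj)).congr ?_
    filter_upwards [hk y, (hL i).mem_nhds hi, (hN' j).mem_nhds hj] with x a b c e
      using key x i j _ _ e b c a (hk x).self_of_nhds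
  · have ha := (hk y).self_of_nhds
    rw [h.change y i i₁ _ _ h0 hi hi₁ ha ha, h'.change y _ _ j j₁ h0 ha ha hj hj₁, h1 _ y ha]
    ring

end

variable {V' V : Mf d}

/-- the canonical bundles -/
theorem cmp_can (B : Md V' V) : Cmp d B.π (Bd.can d V.T) (Bd.can d V'.T) V'.G (fun l => B.J l)
    fun (e : Chart d V.T) (e' : Chart d V'.T) y =>
      (fderiv ℂ (fun z => e (B.π (e'.symm z))) (e' y)).det where
  div y e e' a b := B.jac y e' e b a
  change y (e e₁ : Chart d V.T) (e' e₁' : Chart d V'.T) _ (a : At e (B.π y)) (b : At e₁ (B.π y))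
      (c : At e' y) (f : At e₁' y) := by
    have k1 : AnalyticAt ℂ (fun z => e (B.π (e'.symm z))) (e' y) :=
      analyticAt_pi_iff.2 fun i => B.hol.2 y _ (Val.holF_chart a i) e' c
    have k2 := Val.det_comp (φ := fun z => e (B.π (e'.symm z))) (θ := fun z => e' (e₁'.symm z))
      (w := e₁' y) (by rw [f.left_inv]; exact k1.differentiableAt) (transition_differentiableAt f c)
    have k3 : AnalyticAt ℂ (fun z => e (B.π (e₁'.symm z))) (e₁' y) :=
      analyticAt_pi_iff.2 fun i => B.hol.2 y _ (Val.holF_chart a i) e₁' f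
    have k4 := Val.det_comp (φ := fun z => e₁ (e.symm z)) (θ := fun z => e (B.π (e₁'.symm z)))
      (w := e₁' y) (by rw [f.left_inv]; exact transition_differentiableAt a b) k3.differentiableAt
    have k5 : (fun z => e (B.π (e'.symm (e' (e₁'.symm z))))) =ᶠ[𝓝 (e₁' y)]
        fun z => e (B.π (e₁'.symm z)) :=
      (ev_symm f.2 (e'.eventually_left_inverse c.2)).mono fun z hz => by simp only [hz]
    have k6 : (fun z => e₁ (e.symm (e (B.π (e₁'.symm z))))) =ᶠ[𝓝 (e₁' y)]
        fun z => e₁ (B.π (e₁'.symm z)) :=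
      (ev_symm f.2 (B.hol.1.continuousAt.eventually (e.eventually_left_inverse a.2))).mono
        fun z hz => by simp only [hz]
    rw [k5.fderiv_eq, f.left_inv] at k2
    rw [k6.fderiv_eq, f.left_inv, k2] at k4
    rw [k4, mul_assoc]
    exact congrArg₂ _ (det_jacM a b).symm (congrArg _ (det_jacM f c).symm)

theorem cmp_self (B : Md V' V) {M : Bd V.T} (hM : IsLB d M) :
    Cmp d B.π M (pull B.π M) V'.G (fun _ => 0) fun i j y => M.g j i (B.π y) where
  div y i j a b := Mf.mon_unit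
    (B.hol.2 y (M.g j i) fun c hc => (hM.holo j i c _ hc b a).analyticAt) (hM.ne_zero j i _ b a)
  change y i i₁ j j₁ _ a b c e := by
    rw [← hM.cocycle j₁ j i₁ _ e c b, ← hM.cocycle j i i₁ _ c a b]
    simp only [pull]
    ring

variable {D : Dat}

/-- the data of the pull back -/
def up (W : Pm₀ D d) (B : Md V' W.toMf) : Pm₀ D d where
  toMf := V'
  M e := pull B.π (W.M e)
  p j y := W.p j (B.π y)
  P := W.P
  n j e l' := ∑ l, W.n j e l * B.o l l' + (W.P j e * D.S.c j e : ℕ) * (D.m e * B.J l' + 0)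

variable {N : ℕ} (W : Pm D N d) (B : Md V' W.toMf)

theorem up_α (j : ℕ) (e : Fin D.k) (l' : Fin V'.r) :
    (up W.toPm₀ B).α j e l' = ∑ l, B.o l l' * W.α j e l + D.m e * B.J l' := by
  have h1 : (W.P j e : ℝ) ≠ 0 := Nat.cast_ne_zero.2 (Nat.one_le_iff_ne_zero.1 (W.hP j e))
  have h2 : (D.S.c j e : ℝ) ≠ 0 := Nat.cast_ne_zero.2 (Nat.one_le_iff_ne_zero.1 (D.S.hc j e))
  simp only [Pm₀.α, up]
  push_cast
  rw [add_div, Finset.sum_div, add_zero, mul_div_cancel_left₀ _ (mul_ne_zero h1 h2)]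
  exact congrArg (· + _) (Finset.sum_congr rfl fun l _ => by ring)

theorem up_a (j : ℕ) (l' : Fin V'.r) :
    (up W.toPm₀ B).a j l' = ∑ l, B.o l l' * W.a j l + B.J l' := by
  simp only [Pm₀.a, up_α, mul_add, Finset.sum_add_distrib, Finset.mul_sum]
  rw [Finset.sum_comm]
  refine congrArg₂ _ (Finset.sum_congr rfl fun l _ => Finset.sum_congr rfl fun e _ => by ring) ?_
  simp only [← mul_assoc, ← Finset.sum_mul, D.sum, one_mul]

theorem up_cmp {j : ℕ} (hj : j ≤ N) (e : Fin D.k) : ∃ t, Cmp d ((up W.toPm₀ B).p j)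
    ((D.S.L j e).pow (W.P j e)) (((up W.toPm₀ B).NB e).pow (W.P j e * D.S.c j e)) V'.G
      ((up W.toPm₀ B).n j e) t := by
  obtain ⟨t, ht⟩ := W.cmp j hj e
  refine trans (ht.compMd B) (cmp_pull.2
    ((((cmp_can B).pow (D.m e)).mul (cmp_self B (W.lb e))).pow (W.P j e * D.S.c j e)))
    (fun i => (((D.S.flip j).lb e).isOpen i).preimage ((W.hol j hj).1.comp B.hol.1)) (fun y => ?_)
    (fun i => (open_at i.1).inter (((W.lb e).isOpen i.2).preimage B.hol.1)) fun a y h => ?_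
  · obtain ⟨i, hi⟩ := (W.lb e).cover (B.π y)
    exact ⟨(chartAt (Cm d) (B.π y), i), B.hol.1.continuousAt.eventually
      (((open_at _).inter ((W.lb e).isOpen i)).mem_nhds ⟨at_chartAt _, hi⟩)⟩
  · have k : (W.M e).g a.2 a.2 (B.π y) = 1 :=
      mul_left_cancel₀ ((W.lb e).ne_zero _ _ _ h.2 h.2)
        (((W.lb e).cocycle _ _ _ _ h.2 h.2 h.2).trans (mul_one _).symm)
    show ((jacM a.1 a.1 (B.π y)).det ^ _ * (W.M e).g a.2 a.2 (B.π y)) ^ _ = 1
    rw [jacM_self h.1, k, Matrix.det_one, one_pow, one_mul, one_pow]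

end Pl

open Pl in
/-- (PULL) -/
theorem pull_of (hP : StPre) (hJ : StJac) : StPull := by
  intro D N d W V' B
  have m : ∀ j < N, ∀ l', ∀ l ∈ Finset.univ,
      (B.o l l' : ℝ) * W.a j l ≤ B.o l l' * W.a (j + 1) l := fun j hj l' l _ =>
    mul_le_mul_of_nonneg_left (W.mono j hj l) (Nat.cast_nonneg _)
  refine ⟨⟨up W.toPm₀ B, fun e => B.hol.lb (W.lb e), fun e =>
    B.hol.nef W.kahler.toIsHermitian V'.kahler.toIsHermitian (W.nef e),
    fun j hj => (W.hol j hj).comp B.hol, fun j hj y => W.comm j hj (B.π y), W.hP,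
    fun j hj => up_cmp W B hj, fun l' => ?_, fun j hj l' => ?_, fun j hj y hy => ?_,
    fun j hj l' ⟨y, h1, h2⟩ e => ?_⟩,
    ⟨B, le_rfl, fun _ _ _ => rfl, fun _ => rfl, fun j _ => up_α W B j⟩, rfl⟩
  · have h1 : ((∑ l, B.o l l' : ℕ) : ℝ) ≤ (B.J l' + 1 : ℕ) := Nat.cast_le.2 (hJ d _ _ B l').1
    have h2 : ∑ l, (B.o l l' : ℝ) * -1 ≤ ∑ l, B.o l l' * W.a 0 l :=
      Finset.sum_le_sum fun l _ => mul_le_mul_of_nonneg_left (W.lc l) (Nat.cast_nonneg _)
    rw [up_a W B 0 l']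
    rw [← Finset.sum_mul] at h2
    push_cast at h1
    linarith
  · rw [up_a W B j l', up_a W B (j + 1) l']
    exact add_le_add_left (Finset.sum_le_sum (m j hj l')) _
  · obtain ⟨l, h1, h2⟩ := W.strict j hj (B.π y) hy
    obtain ⟨l', h3, h4⟩ := (hP d _ _ B y l).1 h1
    refine ⟨l', h3, ?_⟩
    rw [up_a W B j l', up_a W B (j + 1) l']
    exact add_lt_add_left (Finset.sum_lt_sum (m j hj l') ⟨l, Finset.mem_univ l,
      mul_lt_mul_of_pos_left h2 (Nat.cast_pos.2 (Nat.pos_of_ne_zero h4))⟩) _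
  · rw [up_α W B j e l', up_α W B (j + 1) e l']
    refine congrArg (· + _) (Finset.sum_congr rfl fun l _ => ?_)
    by_cases h : B.o l l' = 0
    · simp [h]
    · rw [W.const j hj l ⟨B.π y, (hP d _ _ B y l).2 ⟨l', h1, h⟩, h2⟩ e]

end Vale.Agent.P277Z.Glc
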