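import Vale.Agent.P277Z.Glc.Sk0
import Vale.Agent.P277Z.Cvx.Dio

/-!
# P277, block GLC: positive points are positive combinations of integral points
-/

open P277Z.Cvx

namespace Vale.Agent.P277Z.Glc

theorem RatC.exists_le {ι : Type} [Finite ι] (δ : ι → ℝ) (h : ∀ i, 0 < δ i) :
    ∃ ε > 0, ∀ i, ε ≤ δ i := by
  rcases isEmpty_or_nonempty ι with h0 | h0
  · exact ⟨1, one_pos, fun i => h0.elim i⟩
  · obtain ⟨i, hi⟩ := Finite.exists_min δ
    exact ⟨δ i, h i, hi⟩

theorem ratC : StRatC := by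
  intro k b ρ u hρ hu
  choose δ hδ hd using fun i : Fin b =>
    appr_eq (a := fun e => (u i e : ℝ)) (c := 0) (fun e => ⟨_, rfl⟩) ⟨0, by simp⟩
  obtain ⟨ε, hε, hle⟩ := RatC.exists_le (Sum.elim δ ρ) (by rintro (i | e); exacts [hδ i, hρ e])
  obtain ⟨n, w, y, hw, -, hy, hs⟩ := hull_fin (dio ρ one_pos hε)
  have hpos : ∀ a e, 0 < y a e := fun a e => by
    have h1 := (norm_le_pi_norm (ρ - y a) e).trans_lt (Appr.norm_lt one_pos (hy a))
    have h2 := hle (Sum.inr e)
    rw [Pi.sub_apply, Real.norm_eq_abs, abs_lt] at h1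
    simp only [Sum.elim_inr] at h2
    linarith [h1.2]
  have heq : ∀ a i, ∑ e, (u i e : ℝ) * y a e = 0 := fun a i =>
    hd i ρ (hu i) 1 one_pos (y a) (Appr.mono (hle (Sum.inl i)) (hy a))
  choose m hm hi _ using hy
  choose z hz using hi
  have hm' : ∀ a, (0 : ℝ) < m a := fun a => by exact_mod_cast hm a
  have hz' : ∀ a e, (m a : ℝ) * y a e = z a e := hz
  have hz0 : ∀ a e, 0 < z a e := fun a e => by
    have := mul_pos (hm' a) (hpos a e)
    rw [hz'] at this
    exact_mod_cast this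
  have hR : ∀ a e, (((z a e).toNat : ℕ) : ℝ) = m a * y a e := fun a e => by
    rw [hz', ← Int.cast_natCast, Int.toNat_of_nonneg (hz0 a e).le]
  refine ⟨n, fun a e => (z a e).toNat, fun a => w a / m a, fun a => div_pos (hw a) (hm' a),
    fun a e => by have := hz0 a e; dsimp only; omega, fun a i => ?_, fun e => ?_⟩
  · have h1 : ∑ e, (u i e : ℝ) * ((z a e).toNat : ℕ) = 0 := by
      simp only [hR, mul_left_comm _ (m a : ℝ), ← Finset.mul_sum, heq, mul_zero]
    exact_mod_cast h1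
  · rw [← hs, Finset.sum_apply]
    refine Finset.sum_congr rfl fun a _ => ?_
    rw [hR, Pi.smul_apply, smul_eq_mul, ← mul_assoc, div_mul_cancel₀ _ (hm' a).ne']

end Vale.Agent.P277Z.Glc
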