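import Vale.Agent.P277Z.Glc.Sk0

/-!
# P277, block GLC: change of the generators (REGEN)
-/

open scoped Topology
open Vale.Agent.P277 Vale.Agent.P277.HD
open Vale.Agent.P272.K Vale.Agent.P285.H281.FD Set Filter

noncomputable section

namespace Vale.Agent.P277Z.Glc

namespace Rg

variable {X Z : CSp}

theorem hol_zpow {g : X.pt → ℂ} {x : X.pt} (hg : X.Hol g x) (h0 : g x ≠ 0) (n : ℤ) :
    X.Hol (fun y => g y ^ n) x := by
  cases n with
  | ofNat m => simpa using hol_pow hg m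
  | negSucc m =>
    simpa [zpow_negSucc] using hol_inv (hol_pow hg (m + 1)) (pow_ne_zero _ h0)

/-- `θ` is an isomorphism from the line bundle `L` to the line bundle `M`: it maps the section `s` of
`L` to the section with the coefficients `θ j i * s i`. -/
structure BIso (X : CSp) (L M : Bd X.pt) (θ : M.ι → L.ι → X.pt → ℂ) : Prop where
  holo : ∀ j i x, x ∈ M.U j → x ∈ L.U i → X.Hol (θ j i) x
  ne : ∀ j i x, x ∈ M.U j → x ∈ L.U i → θ j i x ≠ 0
  left : ∀ j j' i x, x ∈ M.U j → x ∈ M.U j' → x ∈ L.U i → θ j i x = M.g j j' x * θ j' i x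
  right : ∀ j i i' x, x ∈ M.U j → x ∈ L.U i → x ∈ L.U i' → θ j i' x = θ j i x * L.g i i' x

theorem BIso.inv {L M : Bd X.pt} {θ : M.ι → L.ι → X.pt → ℂ} (h : BIso X L M θ) :
    BIso X (Bd.inv L) (Bd.inv M) (fun j i x => (θ j i x)⁻¹) where
  holo j i x hj hi := hol_inv (h.holo j i x hj hi) (h.ne j i x hj hi)
  ne j i x hj hi := inv_ne_zero (h.ne j i x hj hi)
  left j j' i x hj hj' hi := by
    show (θ j i x)⁻¹ = (M.g j j' x)⁻¹ * (θ j' i x)⁻¹
    rw [h.left j j' i x hj hj' hi, mul_inv]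
  right j i i' x hj hi hi' := by
    show (θ j i' x)⁻¹ = (θ j i x)⁻¹ * (L.g i i' x)⁻¹
    rw [h.right j i i' x hj hi hi', mul_inv]

/-- relative ampleness only depends on the isomorphism class of the line bundle -/
theorem BIso.relAmple {L M : Bd X.pt} {θ : M.ι → L.ι → X.pt → ℂ} (h : BIso X L M θ)
    (hop : ∀ i, IsOpen (L.U i)) (hop' : ∀ j, IsOpen (M.U j)) (hcov : ∀ x, ∃ i, x ∈ L.U i)
    {f : X.pt → Z.pt} (hf : Continuous f) (ha : RelAmple X Z f L) : RelAmple X Z f M := by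
  intro z
  obtain ⟨V, k, N, s, hV, hz, hk, hs, h0, hsep, hgen⟩ := ha z
  choose σ hσ using hcov
  have key : ∀ l j i x, f x ∈ V → x ∈ M.U j → x ∈ L.U i →
      θ j (σ x) x ^ k * s l (σ x) x = θ j i x ^ k * s l i x := by
    intro l j i x hx hj hi
    have e1 : s l i x = L.g i (σ x) x ^ k * s l (σ x) x := (hs l).change i (σ x) x hx hi (hσ x)
    rw [e1, h.right j i (σ x) x hj hi (hσ x), mul_pow, mul_assoc]
  have keyE : ∀ j i x, f x ∈ V → x ∈ M.U j → x ∈ L.U i →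
      ∀ᶠ y in 𝓝 x, θ j i y ≠ 0 ∧ ∀ l, θ j (σ y) y ^ k * s l (σ y) y = θ j i y ^ k * s l i y := by
    intro j i x hx hj hi
    filter_upwards [(hV.preimage hf).mem_nhds hx, (hop' j).mem_nhds hj, (hop i).mem_nhds hi]
      with y hy hyj hyi
    exact ⟨h.ne j i y hyj hyi, fun l => key l j i y hy hyj hyi⟩
  refine ⟨V, k, N, fun l j x => θ j (σ x) x ^ k * s l (σ x) x, hV, hz, hk, fun l => ⟨?_, ?_⟩,
    ?_, ?_, ?_⟩
  · intro j x hx hj
    refine hol_congr (hol_mul (hol_pow (h.holo j (σ x) x hj (hσ x)) k)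
      ((hs l).holo (σ x) x hx (hσ x))) ?_
    filter_upwards [keyE j (σ x) x hx hj (hσ x)] with y hy
    exact hy.2 l
  · intro j j' x hx hj hj'
    show θ j (σ x) x ^ k * s l (σ x) x = M.g j j' x ^ k * (θ j' (σ x) x ^ k * s l (σ x) x)
    rw [h.left j j' (σ x) x hj hj' (hσ x), mul_pow, mul_assoc]
  · intro x j hx hj
    obtain ⟨l, hl⟩ := h0 x (σ x) hx (hσ x)
    exact ⟨l, mul_ne_zero (pow_ne_zero _ (h.ne j (σ x) x hj (hσ x))) hl⟩
  · intro x x' j j' hx hxx hne hj hj'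
    obtain ⟨l, m, hlm⟩ := hsep x x' (σ x) (σ x') hx hxx hne (hσ x) (hσ x')
    refine ⟨l, m, fun e => hlm ?_⟩
    have a1 := pow_ne_zero k (h.ne j (σ x) x hj (hσ x))
    have a2 := pow_ne_zero k (h.ne j' (σ x') x' hj' (hσ x'))
    apply mul_left_cancel₀ (mul_ne_zero a1 a2)
    linear_combination e
  · intro x j l hx hj hl u hu
    have hl' : s l (σ x) x ≠ 0 := right_ne_zero_of_mul hl
    obtain ⟨Mn, g, G, hg, hG, he⟩ := hgen x (σ x) l hx (hσ x) hl' u hu
    have a1 := pow_ne_zero k (h.ne j (σ x) x hj (hσ x))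
    refine ⟨Mn, g, G, hg, ?_, ?_⟩
    · simpa only [mul_div_mul_left _ _ a1] using hG
    · filter_upwards [he, keyE j (σ x) x hx hj (hσ x)] with y hy hy2
      have a2 := pow_ne_zero k hy2.1
      simp only [hy2.2, mul_div_mul_left _ _ a2]
      exact hy

theorem lin_lb {k : ℕ} {L : Fin k → Bd X.pt} (hL : ∀ e, IsLBx X (L e)) (n : Fin k → ℤ) :
    IsLBx X (HD.Bd.lin L n) where
  isOpen i := by
    have : (HD.Bd.lin L n).U i = ⋂ e, (L e).U (i e) := by
      ext x; simp [HD.Bd.lin]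
    rw [this]
    exact isOpen_iInter_of_finite fun e => (hL e).isOpen _
  cover x := by
    choose σ hσ using fun e => (hL e).cover x
    exact ⟨σ, hσ⟩
  holo i j x hi hj :=
    hol_prod Finset.univ fun e _ =>
      hol_zpow ((hL e).holo _ _ x (hi e) (hj e)) ((hL e).ne_zero _ _ x (hi e) (hj e)) (n e)
  ne_zero i j x hi hj := by
    show (∏ e, (L e).g (i e) (j e) x ^ n e) ≠ 0
    exact Finset.prod_ne_zero_iff.2 fun e _ => zpow_ne_zero _ ((hL e).ne_zero _ _ x (hi e) (hj e))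
  cocycle i j l x hi hj hl := by
    show (∏ e, (L e).g (i e) (j e) x ^ n e) * (∏ e, (L e).g (j e) (l e) x ^ n e) =
      ∏ e, (L e).g (i e) (l e) x ^ n e
    rw [← Finset.prod_mul_distrib]
    refine Finset.prod_congr rfl fun e _ => ?_
    rw [← mul_zpow, (hL e).cocycle _ _ _ x (hi e) (hj e) (hl e)]

theorem zpow_sum' {α : Type} (s : Finset α) {u : ℂ} (hu : u ≠ 0) (n : α → ℤ) :
    u ^ (∑ a ∈ s, n a) = ∏ a ∈ s, u ^ n a := by
  classical
  induction s using Finset.induction_on with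
  | empty => simp
  | insert a s ha ih => rw [Finset.sum_insert ha, Finset.prod_insert ha, zpow_add₀ hu, ih]

/-- a combination of combinations -/
theorem lin_lin {k k' : ℕ} {L : Fin k → Bd X.pt} (hL : ∀ e, IsLBx X (L e))
    (m : Fin k' → Fin k → ℤ) (n : Fin k' → ℤ) :
    BIso X (HD.Bd.lin L fun e => ∑ a, m a e * n a)
      (HD.Bd.lin (fun a => HD.Bd.lin L (m a)) n)
      (fun j i x => ∏ a, (HD.Bd.lin L (m a)).g (j a) i x ^ n a) where
  holo j i x hj hi :=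
    hol_prod Finset.univ fun a _ =>
      hol_zpow ((lin_lb hL (m a)).holo _ _ x (hj a) hi)
        ((lin_lb hL (m a)).ne_zero _ _ x (hj a) hi) (n a)
  ne j i x hj hi :=
    Finset.prod_ne_zero_iff.2 fun a _ =>
      zpow_ne_zero _ ((lin_lb hL (m a)).ne_zero _ _ x (hj a) hi)
  left j j' i x hj hj' hi := by
    show (∏ a, (HD.Bd.lin L (m a)).g (j a) i x ^ n a) =
      (∏ a, (HD.Bd.lin L (m a)).g (j a) (j' a) x ^ n a) * ∏ a, (HD.Bd.lin L (m a)).g (j' a) i x ^ n a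
    rw [← Finset.prod_mul_distrib]
    refine Finset.prod_congr rfl fun a _ => ?_
    rw [← mul_zpow, (lin_lb hL (m a)).cocycle _ _ _ x (hj a) (hj' a) hi]
  right j i i' x hj hi hi' := by
    have e1 : (HD.Bd.lin L fun e => ∑ a, m a e * n a).g i i' x =
        ∏ a, (HD.Bd.lin L (m a)).g i i' x ^ n a := by
      show (∏ e, (L e).g (i e) (i' e) x ^ (∑ a, m a e * n a)) =
        ∏ a, (∏ e, (L e).g (i e) (i' e) x ^ m a e) ^ n a
      simp only [← Finset.prod_zpow, ← zpow_mul]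
      rw [Finset.prod_comm]
      exact Finset.prod_congr rfl fun e _ =>
        zpow_sum' _ ((hL e).ne_zero _ _ x (hi e) (hi' e)) _
    rw [e1, ← Finset.prod_mul_distrib]
    refine Finset.prod_congr rfl fun a _ => ?_
    rw [← mul_zpow, (lin_lb hL (m a)).cocycle (j a) i i' x (hj a) hi hi']

theorem near {k k' : ℕ} (R : Fin k' → Fin k → ℕ) (x : Fin k' → ℝ) (c : Fin k → ℕ) {ε : ℝ}
    (hε : 0 < ε) (n : Fin k' → ℤ) (d : ℕ)
    (h : ∀ a, |(n a * (∏ e, c e : ℕ) : ℝ) / d - x a| < ε / (1 + ∑ e, ∑ a, (R a e : ℝ))) (e : Fin k) :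
    |(((∑ a, ((R a e * ((∏ e', c e') / c e) : ℕ) : ℤ) * n a : ℤ) : ℝ) * c e) / d -
      ∑ a, x a * R a e| < ε := by
  have hd : ((∏ e', c e') / c e) * c e = ∏ e', c e' :=
    Nat.div_mul_cancel (Finset.dvd_prod_of_mem _ (Finset.mem_univ e))
  have hd' : ((((∏ e', c e') / c e : ℕ) : ℝ)) * c e = ((∏ e', c e' : ℕ) : ℝ) := by
    exact_mod_cast hd
  have e1 : (((∑ a, ((R a e * ((∏ e', c e') / c e) : ℕ) : ℤ) * n a : ℤ) : ℝ) * c e) / d -
      ∑ a, x a * R a e = ∑ a, ((n a * (∏ e, c e : ℕ) : ℝ) / d - x a) * R a e := by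
    rw [Int.cast_sum, Finset.sum_mul, Finset.sum_div, ← Finset.sum_sub_distrib]
    refine Finset.sum_congr rfl fun a _ => ?_
    rw [← hd', Int.cast_mul, Int.cast_natCast, Nat.cast_mul]
    ring
  set S : ℝ := ∑ e, ∑ a, (R a e : ℝ) with hS
  have hS0 : 0 ≤ S := Finset.sum_nonneg fun _ _ => Finset.sum_nonneg fun _ _ => Nat.cast_nonneg _
  have hle : ∑ a, (R a e : ℝ) ≤ S :=
    Finset.single_le_sum (f := fun e => ∑ a, (R a e : ℝ))
      (fun _ _ => Finset.sum_nonneg fun _ _ => Nat.cast_nonneg _) (Finset.mem_univ e)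
  have hp : 0 < ε / (1 + S) := by positivity
  rw [e1]
  calc |∑ a, ((n a * (∏ e, c e : ℕ) : ℝ) / d - x a) * R a e|
      ≤ ∑ a, |((n a * (∏ e, c e : ℕ) : ℝ) / d - x a) * R a e| := Finset.abs_sum_le_sum_abs _ _
    _ ≤ ∑ a, ε / (1 + S) * R a e := by
        refine Finset.sum_le_sum fun a _ => ?_
        rw [abs_mul, Nat.abs_cast]
        exact mul_le_mul_of_nonneg_right (h a).le (Nat.cast_nonneg _)
    _ = ε / (1 + S) * ∑ a, (R a e : ℝ) := by rw [Finset.mul_sum]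
    _ ≤ ε / (1 + S) * S := mul_le_mul_of_nonneg_left hle hp.le
    _ < ε / (1 + S) * (1 + S) := mul_lt_mul_of_pos_left (by linarith) hp
    _ = ε := by field_simp

/-- products of powers of isomorphisms -/
theorem isIso_lin {X' : CSp} {k : ℕ} {f : X.pt → Z.pt} {f' : X'.pt → Z.pt} {A : Set Z.pt}
    {L : Fin k → Bd X.pt} {L' : Fin k → Bd X'.pt} {p q : Fin k → ℕ}
    {t : ∀ e, (L e).ι → (L' e).ι → Z.pt → ℂ}
    (ht : ∀ e, IsIso f f' A ((L e).pow (p e)) ((L' e).pow (q e)) (t e)) (m m' r : Fin k → ℕ)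
    (P Q : ℕ) (h : ∀ e, m e * P = p e * r e) (h' : ∀ e, m' e * Q = q e * r e) :
    IsIso f f' A ((HD.Bd.lin L fun e => (m e : ℤ)).pow P) ((HD.Bd.lin L' fun e => (m' e : ℤ)).pow Q)
      (fun i j z => ∏ e, t e (i e) (j e) z ^ r e) where
  holo x x' i j hA hx hi hj :=
    ⟨hol_prod Finset.univ fun e _ => hol_pow ((ht e).holo x x' _ _ hA hx (hi e) (hj e)).1 _,
      Finset.prod_ne_zero_iff.2 fun e _ =>
        pow_ne_zero _ ((ht e).holo x x' _ _ hA hx (hi e) (hj e)).2⟩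
  change x x' i i₁ j j₁ hA hx hi hi₁ hj hj₁ := by
    show (∏ e, t e (i₁ e) (j₁ e) (f x) ^ r e) =
      (∏ e, (L e).g (i e) (i₁ e) x ^ (m e : ℤ)) ^ P * (∏ e, t e (i e) (j e) (f x) ^ r e) *
        (∏ e, (L' e).g (j₁ e) (j e) x' ^ (m' e : ℤ)) ^ Q
    rw [← Finset.prod_pow, ← Finset.prod_pow, ← Finset.prod_mul_distrib,
      ← Finset.prod_mul_distrib]
    refine Finset.prod_congr rfl fun e _ => ?_
    have e1 : t e (i₁ e) (j₁ e) (f x) = (L e).g (i e) (i₁ e) x ^ p e * t e (i e) (j e) (f x) *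
        (L' e).g (j₁ e) (j e) x' ^ q e :=
      (ht e).change x x' _ _ _ _ hA hx (hi e) (hi₁ e) (hj e) (hj₁ e)
    rw [e1, zpow_natCast, zpow_natCast, ← pow_mul, ← pow_mul, h e, h' e, mul_pow, mul_pow,
      ← pow_mul, ← pow_mul]

end Rg

open Rg in
theorem regen_flip : StRegen := by
  intro k k' R x X Z X' f f' A L L' c c' hc hc' h
  have hC : 1 ≤ ∏ e, c e := Finset.one_le_prod' fun e _ => hc e
  have hC' : 1 ≤ ∏ e, c' e := Finset.one_le_prod' fun e _ => hc' e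
  refine ⟨h.normal, h.normalZ, h.normal', h.small, h.small', h.ninj, h.ninj',
    fun a => lin_lb h.lb _, fun a => lin_lb h.lb' _, fun a => ?_, ?_, ?_⟩
  · choose p q hp hq hpq t ht using h.iso
    have hW : 1 ≤ ∏ e, c e * p e := Finset.one_le_prod' fun e _ => Nat.mul_pos (hc e) (hp e)
    refine ⟨(∏ e, c' e) * ∏ e, c e * p e, (∏ e, c e) * ∏ e, c e * p e, Nat.mul_pos hC' hW,
      Nat.mul_pos hC hW, by ring, _, isIso_lin ht _ _
        (fun e => R a e * (∏ e, c e) * (∏ e, c' e) * ((∏ e, c e * p e) / (c e * p e))) _ _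
        (fun e => ?_) (fun e => ?_)⟩
    · obtain ⟨u, hu⟩ := Finset.dvd_prod_of_mem c (Finset.mem_univ e)
      obtain ⟨w, hw⟩ := Finset.dvd_prod_of_mem (fun e => c e * p e) (Finset.mem_univ e)
      rw [hw, hu, Nat.mul_div_cancel_left _ (hc e),
        Nat.mul_div_cancel_left _ (Nat.mul_pos (hc e) (hp e))]
      ring
    · obtain ⟨u, hu⟩ := Finset.dvd_prod_of_mem c' (Finset.mem_univ e)
      obtain ⟨w, hw⟩ := Finset.dvd_prod_of_mem (fun e => c e * p e) (Finset.mem_univ e)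
      rw [hw, hu, Nat.mul_div_cancel_left _ (hc' e),
        Nat.mul_div_cancel_left _ (Nat.mul_pos (hc e) (hp e)), hpq e]
      ring
  · obtain ⟨ε, hε, ha⟩ := h.ample
    refine ⟨ε / (1 + ∑ e, ∑ a, (R a e : ℝ)), by positivity, fun n d hd hn => ?_⟩
    exact (lin_lin h.lb (fun a e => ((R a e * ((∏ e', c e') / c e) : ℕ) : ℤ)) n).inv.relAmple
      (lin_lb h.lb 0).isOpen (lin_lb (L := regen R L c) (fun a => lin_lb h.lb _) n).isOpen
      (lin_lb h.lb 0).cover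
      h.small.cont (ha _ d hd (near R x c hε n d hn))
  · obtain ⟨ε, hε, ha⟩ := h.ample'
    refine ⟨ε / (1 + ∑ e, ∑ a, (R a e : ℝ)), by positivity, fun n d hd hn => ?_⟩
    exact (lin_lin h.lb' (fun a e => ((R a e * ((∏ e', c' e') / c' e) : ℕ) : ℤ)) n).relAmple
      (lin_lb h.lb' _).isOpen (lin_lb (fun a => lin_lb h.lb' _) n).isOpen (lin_lb h.lb' _).cover
      h.small'.cont (ha _ d hd (near R x c' hε n d hn))

end Vale.Agent.P277Z.Glc
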