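import Vale.Agent.P277Z.Glc.Sk
import Vale.Agent.P277Z.Glc.RatC
import Vale.Agent.P277Z.Glc.Regen
import Vale.Agent.P277Z.Slc.Unit
import Vale.Agent.P272.K.C2.Wirt

/-!
# P277, block GLC: change of the generators of a model
-/

open scoped Manifold ContDiff Topology ComplexOrder
open Vale.Agent.P277 hiding Amin IsFlipR
open Vale.Agent.P277.HD Vale.Agent.P277.PH
open Vale.Agent.P272.K Vale.Agent.P285.H281.FD Set Filter
open Vale.Agent.P277Z.Slc (LEq)

noncomputable section

namespace Vale.Agent.P277Z.Glc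

namespace Rw

theorem alg {ι : Type} [Fintype ι] {t t₁ g h : ι → ℂ} {J : ℂ} {m P c u v : ι → ℕ} (R : ι → ℕ)
    {Q C : ℕ} (hu : ∀ e, u e * c e = C) (hv : ∀ e, v e * P e = Q)
    (H : ∀ e, t₁ e = g e ^ P e * t e * (J ^ m e * h e) ^ (P e * c e)) :
    ∏ e, t₁ e ^ (R e * u e * v e) = (∏ e, g e ^ ((R e * u e : ℕ) : ℤ)) ^ Q *
      (∏ e, t e ^ (R e * u e * v e)) * (J ^ (∑ e, R e * m e) * ∏ e, h e ^ (R e : ℤ)) ^ (Q * C) := by
  simp only [zpow_natCast, ← Finset.prod_pow_eq_pow_sum, ← Finset.prod_mul_distrib,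
    ← Finset.prod_pow]
  refine Finset.prod_congr rfl fun e _ => ?_
  rw [H e, ← hu e, ← hv e]
  ring

theorem cHess_lin {n : ℕ} {ι : Type} (s : Finset ι) (c : ι → ℝ) {f : ι → Cm n → ℝ} {z : Cm n}
    (hf : ∀ a, ContDiffAt ℝ 2 (f a) z) :
    cHess (fun y => ∑ a ∈ s, c a * f a y) z = ∑ a ∈ s, (c a : ℂ) • cHess (f a) z := by
  classical
  induction s using Finset.induction_on with
  | empty => simpa using C2.cHess_const (z := z) (0 : ℝ)
  | insert a s ha ih =>
    simp only [Finset.sum_insert ha]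
    rw [C2.cHess_add (contDiffAt_const.mul (hf a))
      (ContDiffAt.sum fun b _ => contDiffAt_const.mul (hf b)), ih, C2.cHess_const_mul _ (hf a)]

variable {d k : ℕ} {T : Type} [TopologicalSpace T] [ChartedSpace (Cm d) T] {M : Fin k → Bd T}

theorem lb_lin (h : ∀ e, IsLB d (M e)) (R : Fin k → ℕ) : IsLB d (HD.Bd.lin M fun e => R e) where
  isOpen i := by
    simp only [HD.Bd.lin, ofPred_forall]
    exact isOpen_iInter_of_finite fun e => (h e).isOpen (i e)
  cover x := by
    choose i hi using fun e => (h e).cover x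
    exact ⟨i, hi⟩
  holo i j e x he hi hj := by
    simp only [HD.Bd.lin, zpow_natCast]
    exact contDiffAt_prod fun a _ => ((h a).holo _ _ e x he (hi a) (hj a)).pow _
  ne_zero i j x hi hj :=
    (Finset.prod_ne_zero_iff (s := Finset.univ)).2 fun a _ =>
      zpow_ne_zero _ ((h a).ne_zero _ _ x (hi a) (hj a))
  cocycle i j l x hi hj hl := by
    simp only [HD.Bd.lin, ← Finset.prod_mul_distrib, ← mul_zpow]
    exact Finset.prod_congr rfl fun a _ => by rw [(h a).cocycle _ _ _ x (hi a) (hj a) (hl a)]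

theorem nef_lin {χ : Chart d T → Cm d → Matrix (Fin d) (Fin d) ℂ} (hχ : IsHermitian χ)
    (h : ∀ e, IsLB d (M e)) (hn : ∀ e, Nef χ (M e)) (R : Fin k → ℕ) :
    Nef χ (HD.Bd.lin M fun e => R e) := by
  intro δ hδ
  have hp : (0 : ℝ) < 1 + ∑ e, (R e : ℝ) := by positivity
  choose ψ hψ hc using fun e => hn e _ (div_pos hδ hp)
  refine ⟨fun i x => ∑ e, R e * ψ e (i e) x, ⟨fun i e x he hi => ContDiffAt.sum fun a _ =>
    contDiffAt_const.mul ((hψ a).smooth _ e x he (hi a)), fun i j x hi hj => ?_⟩,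
    fun i e x he hi => ?_⟩
  · simp only [HD.Bd.lin, zpow_natCast, norm_prod, norm_pow, ← Finset.prod_pow]
    rw [Real.log_prod fun a _ => pow_ne_zero _ (pow_ne_zero _
      (norm_ne_zero_iff.2 ((h a).ne_zero _ _ x (hi a) (hj a)))), ← Finset.sum_add_distrib]
    refine Finset.sum_congr rfl fun a _ => ?_
    rw [(hψ a).change _ _ x (hi a) (hj a)]
    simp only [Real.log_pow]
    ring
  · have h1 : ((δ / (1 + ∑ e, (R e : ℝ)) : ℝ) : ℂ) * (1 + ∑ e, (R e : ℂ)) = δ := by
      exact_mod_cast div_mul_cancel₀ δ hp.ne'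
    have h2 := (((hχ.posDef e x he).posSemidef.smul
      (Complex.zero_le_real.2 (div_pos hδ hp).le))).add (Matrix.posSemidef_sum Finset.univ
      fun a _ => (hc a (i a) e x he (hi a)).smul (Nat.cast_nonneg (α := ℂ) (R a)))
    rw [cHess_lin _ _ fun a => ((hψ a).smooth _ e x he (hi a)).of_le (by norm_cast), ← h1]
    convert h2 using 1
    rw [mul_comm]
    simp only [smul_add, Finset.sum_add_distrib, smul_smul, add_mul, one_mul, add_smul,
      Finset.sum_mul, Finset.sum_smul, Complex.ofReal_natCast]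
    abel

variable [T2Space T] [CompactSpace T] [IsManifold 𝓘(ℂ, Cm d) ω T]

theorem mon_prod [Nonempty (Fin k)] {r : ℕ} {G : Fin r → Set T} {n : Fin k → Fin r → ℤ}
    {f : Fin k → T → ℂ} {y : T} (h : ∀ e, Mon d G (n e) (f e) y) (w : Fin k → ℕ) :
    Mon d G (fun l => ∑ e, w e * n e l) (fun x => ∏ e, f e x ^ w e) y := by
  have := ChartedSpace.secondCountable_of_sigmaCompact (Cm d) T
  choose ζ u hζ hu h0 he using h
  obtain ⟨e₀⟩ : Nonempty (Fin k) := inferInstance
  choose v hv v0 hve using fun e l => Slc.stUnit d T (G l) y _ _ (hζ e₀ l) (hζ e l)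
  refine ⟨ζ e₀, fun x => ∏ e, (u e x * ∏ l, v e l x ^ n e l) ^ w e, hζ e₀, fun c hc => ?_,
    Finset.prod_ne_zero_iff.2 fun e _ => pow_ne_zero _ (mul_ne_zero (h0 e)
      (Finset.prod_ne_zero_iff.2 fun l _ => zpow_ne_zero _ (v0 e l))), ?_⟩
  · refine Finset.analyticAt_fun_prod _ fun e _ => AnalyticAt.fun_pow ((hu e c hc).fun_mul
      (Finset.analyticAt_fun_prod _ fun l _ => (hv e l c hc).fun_zpow ?_)) _
    rw [c.left_inv hc.2]
    exact v0 e l
  · filter_upwards [eventually_all.2 he, eventually_all.2 fun e => eventually_all.2 (hve e),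
      eventually_all.2 fun l => (hζ e₀ l).1] with x h1 h2 h3 hx
    have h4 : ∀ l, ζ e₀ l x ≠ 0 := fun l a => hx (mem_iUnion.2 ⟨l, (h3 l).1 a⟩)
    have h5 : ∀ l, ζ e₀ l x ^ (∑ e, w e * n e l) = ∏ e, (ζ e₀ l x ^ n e l) ^ w e := fun l => by
      rw [Rg.zpow_sum' _ (h4 _)]
      exact Finset.prod_congr rfl fun e _ => by rw [mul_comm, zpow_mul, zpow_natCast]
    rw [Finset.prod_congr rfl fun l _ => h5 l, Finset.prod_comm, ← Finset.prod_mul_distrib]
    refine Finset.prod_congr rfl fun e _ => ?_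
    rw [h1 e hx, Finset.prod_congr rfl fun l _ => congrArg (· ^ n e l) (h2 e l), Finset.prod_pow,
      ← mul_pow, mul_assoc, ← Finset.prod_mul_distrib]
    simp only [mul_zpow]

end Rw

open Rw in
theorem reg_of (hR : StRatC) (hG : StRegen) : StReg := by
  classical
  intro D W exc hres heff
  have hα : ∀ e l, (((W.n 0 e l : ℚ) / (W.P 0 e * D.S.c 0 e) + D.m e : ℚ) : ℝ) =
      W.α 0 e l + D.m e := fun e l => by simp [Pm₀.α]
  obtain ⟨k', R, x, hx, -, hu, hρ⟩ := hR D.k W.r D.ρ (fun l e => if W.a 0 l = -1 then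
    (W.n 0 e l : ℚ) / (W.P 0 e * D.S.c 0 e) + D.m e else 0) D.pos fun l => by
      split_ifs with h
      · simp only [hα, mul_add, Finset.sum_add_distrib, mul_comm _ (D.ρ _), D.sum]
        exact add_eq_zero_iff_eq_neg.2 h
      · simp
  have hs : ∀ F : Fin D.k → ℝ, ∑ a, x a * ∑ e, R a e * F e = ∑ e, D.ρ e * F e := fun F => by
    simp only [hρ, Finset.mul_sum, Finset.sum_mul, mul_assoc]
    exact Finset.sum_comm
  have hk : Nonempty (Fin D.k) := by
    by_contra h
    rw [not_nonempty_iff] at h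
    simpa using D.sum
  let D' : Dat :=
    { k := k', ρ := x, m := fun a => ∑ e, R a e * D.m e, pos := hx
      sum := by
        push_cast
        rw [hs, D.sum]
      S := { D.S with
        L := fun j => regen R (D.S.L j) (D.S.c j)
        c := fun j _ => ∏ e, D.S.c j e
        hc := fun j _ => Finset.one_le_prod' fun e _ => D.S.hc j e
        flip := fun j => hG _ _ R x _ _ _ _ _ _ _ _ _ _ (D.S.hc j) (D.S.hc (j + 1))
          (funext hρ ▸ D.S.flip j) }
      kah := D.kah }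
  let w : ℕ → Fin k' → Fin D.k → ℕ := fun j a e =>
    R a e * ((∏ e, D.S.c j e) / D.S.c j e) * ((∏ e, W.P j e) / W.P j e)
  have hc : ∀ j e, (∏ e, D.S.c j e) / D.S.c j e * D.S.c j e = ∏ e, D.S.c j e := fun j e =>
    Nat.div_mul_cancel (Finset.dvd_prod_of_mem _ (Finset.mem_univ e))
  have hP : ∀ j e, (∏ e, W.P j e) / W.P j e * W.P j e = ∏ e, W.P j e := fun j e =>
    Nat.div_mul_cancel (Finset.dvd_prod_of_mem _ (Finset.mem_univ e))
  let W₀ : Pm₀ D' 4 :=
    { toMf := W.toMf, M := fun a => HD.Bd.lin W.M fun e => R a e, p := W.p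
      P := fun j _ => ∏ e, W.P j e, n := fun j a l => ∑ e, w j a e * W.n j e l }
  have h1 : ∀ j a l, W₀.α j a l = ∑ e, R a e * W.α j e l := fun j a l => by
    show ((∑ e, w j a e * W.n j e l : ℤ) : ℝ) / ((∏ e, W.P j e : ℕ) * (∏ e, D.S.c j e : ℕ)) = _
    rw [Int.cast_sum, Finset.sum_div]
    refine Finset.sum_congr rfl fun e _ => ?_
    have a1 : ((∏ e, W.P j e : ℕ) : ℝ) ≠ 0 :=
      Nat.cast_ne_zero.2 (Finset.prod_ne_zero_iff.2 fun e _ => (W.hP j e).trans_lt' one_pos |>.ne')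
    have a2 : ((∏ e, D.S.c j e : ℕ) : ℝ) ≠ 0 :=
      Nat.cast_ne_zero.2 (Finset.prod_ne_zero_iff.2 fun e _ => (D.S.hc j e).trans_lt' one_pos |>.ne')
    rw [← hP j e, Nat.cast_mul] at a1
    rw [← hc j e, Nat.cast_mul] at a2
    have := left_ne_zero_of_mul a1
    have := right_ne_zero_of_mul a1
    have := left_ne_zero_of_mul a2
    have := right_ne_zero_of_mul a2
    nth_rewrite 1 [← hP j e, ← hc j e]
    simp only [w, Pm₀.α, Int.cast_mul, Int.cast_natCast, Nat.cast_mul]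
    field_simp
  have h2 : ∀ j l, W₀.a j l = W.a j l := fun j l => by
    simp only [Pm₀.a, h1]
    exact hs _
  let W' : Pm D' 0 4 :=
    { toPm₀ := W₀
      lb := fun a => lb_lin W.lb _
      nef := fun a => nef_lin W.kahler.toIsHermitian W.lb W.nef _
      hol := W.hol
      comm := W.comm
      hP := fun j _ => Finset.one_le_prod' (s := Finset.univ) fun e _ => W.hP j e
      cmp := fun j hj a => by
        choose t ht using W.cmp j hj
        exact ⟨fun i q y => ∏ e, t e (i e) (q.1, q.2 e) y ^ w j a e,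
          fun y i q hi hq => mon_prod (fun e => (ht e).div y _ (q.1, q.2 e) (hi e) ⟨hq.1, hq.2 e⟩) _,
          fun y i i₁ q q₁ hy hi hi₁ hq hq₁ => alg (R a) (hc j) (hP j) fun e =>
            (ht e).change y _ _ (q.1, q.2 e) (q₁.1, q₁.2 e) hy (hi e) (hi₁ e) ⟨hq.1, hq.2 e⟩ ⟨hq₁.1, hq₁.2 e⟩⟩
      lc := fun l => (W.lc l).trans_eq (h2 0 l).symm
      mono := fun _ h => absurd h (Nat.not_lt_zero _)
      strict := fun _ h => absurd h (Nat.not_lt_zero _)
      const := fun _ h => absurd h (Nat.not_lt_zero _) }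
  refine ⟨D', W', exc, hres, fun l hl => (h2 0 l).trans_le (heff l hl), fun l hl a => ?_⟩
  have h3 := congrArg (fun q : ℚ => (q : ℝ)) (hu a l)
  simp only [if_pos ((h2 0 l).symm.trans hl), Rat.cast_sum, Rat.cast_mul, hα, Rat.cast_natCast,
    mul_add, Finset.sum_add_distrib, Rat.cast_zero, mul_comm _ (R a _ : ℝ)] at h3
  refine (h1 0 a l).trans ((eq_neg_of_add_eq_zero_left h3).trans ?_)
  simp [D']

theorem reg : StReg := reg_of ratC regen_flip

end Vale.Agent.P277Z.Glc
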