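import Vale.Agent.P277Z.Glc.SBrSk
import Vale.Agent.P277Z.Glc.Adj2

/-!
# P277, block GLC, threefold strata: restriction of ample bundles and of divisors
-/

open scoped Manifold ContDiff Topology ComplexOrder
open Vale.Agent.P277 hiding Amin IsFlipR
open Vale.Agent.P277.HD Vale.Agent.P277.PH
open Vale.Agent.P272.K Vale.Agent.P285.H281.FD Set Filter
open Vale.Agent.P277.H60.Z (XH)

noncomputable section

namespace Vale.Agent.P277Z.Glc

open Pr

namespace SAmp

/-- restriction of `RelAmple` to a subspace -/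
theorem relAmple_imm {Y X Z : CSp} {φ : Y.pt → X.pt} (h1 : ∀ y, HolMap Y X φ y)
    (h2 : Function.Injective φ)
    (h3 : ∀ y g, Y.Hol g y → ∃ G, X.Hol G (φ y) ∧ ∀ᶠ y' in 𝓝 y, g y' = G (φ y'))
    {M : Bd X.pt} {f : X.pt → Z.pt} (ha : RelAmple X Z f M) :
    RelAmple Y Z (fun y => f (φ y)) (pull φ M) := by
  intro z
  obtain ⟨V, k, N, s, hV, hz, hk, a1, a2, a3, a4⟩ := ha z
  refine ⟨V, k, N, fun l i y => s l i (φ y), hV, hz, hk, fun l => secx_pull (L := M.pow k) h1 (a1 l),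
    fun y i hy hi => a2 _ i hy hi,
    fun y y' i j hy e hne hi hj => a3 _ _ i j hy e (fun a => hne (h2 a)) hi hj,
    fun y i l hy hi hl g hg => ?_⟩
  obtain ⟨G, b1, b2⟩ := h3 y g hg
  obtain ⟨K, u, H, c1, c2, c3⟩ := a4 _ i l hy hi hl G b1
  refine ⟨K, u, H, c1, c2, ?_⟩
  filter_upwards [b2, (h1 y).1.eventually c3] with y' e1 e2 using e1.trans e2

end SAmp

/-- (AMPU) -/
theorem ampu : AMPU := fun T W ι _ _ _ h ha =>
  SAmp.relAmple_imm (Y := T.prodE.lg.X) (X := prodE (XH 3 T.T)) (φ := fun q => q)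
    (fun _ => ⟨continuousAt_id, fun _ a => holE_iff.1 a⟩) (fun _ _ a => a)
    (fun _ g a => ⟨g, holE_iff.2 a, .of_forall fun _ => rfl⟩)
    (relAmple_prod (SAmp.relAmple_imm (Y := XH 3 T.T) (X := W.lg.X) (φ := ι)
      (fun _ => ⟨h.cont.continuousAt, fun _ a => h.holF a⟩) h.inj (fun _ _ a => h.ext a) ha))

/-- (DIVE) -/
theorem dive : DIVE := by
  classical
  intro D N T W I E L τ c h hc
  have h1 : HolM 4 4 fun q : T.T × El => E.ι q.1 :=
    ⟨E.hol.1.comp continuous_fst, fun q g a => holF_fst (E.hol.2 _ g a)⟩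
  refine ⟨h1.sec h.sec, fun q i ζ hi hζ => ?_⟩
  obtain ⟨η, hη⟩ := W.exEq (E.ι q.1)
  obtain ⟨u, a1, a2, a3⟩ := h.div _ i η hi hη
  have h2 : HolF 4 (τ i) (E.ι q.1) :=
    (a1.mul (holF_prod _ fun l _ => holF_npow (hη l).holF _)).congr (a3.mono fun _ a => a.symm)
  refine (mon_iff_val (V := T.toMf.prodE)).2 ⟨h1.2 q _ h2, mon_prod (f := fun y => τ i (E.ι y)) ?_⟩
    ζ hζ
  refine Ad.mon_par (J := Iᶜ) (n := fun k => c k) (u := fun y => u (E.ι y))
    (ζ := fun k => η k ∘ E.ι) T.closed (fun l => Finset.mem_compl.2 (E.par_not l))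
    (fun l₁ l₂ a b e => by_contra fun ne => disjoint_left.1 (E.disj _ _ ne e) a b)
    (fun l a => E.leq _ l _ a (hη _)) (fun k _ => E.hol.2 _ _ (hη k).holF)
    (fun k a b => (E.mem _ k (Finset.mem_compl.1 a)).1 ((hη k).mem.1 b)) (E.hol.2 _ _ a1) a2 ?_
  filter_upwards [E.hol.1.continuousAt.eventually a3] with x e _
  rw [e, ← Finset.prod_compl_mul_prod I, Finset.prod_eq_one (s := I) fun l hl => by
    rw [hc l hl, pow_zero], mul_one]
  simp only [zpow_natCast, Function.comp_apply]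

end Vale.Agent.P277Z.Glc
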