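import Vale.Agent.P277Z.Glc.SBrSk
import Vale.Agent.P277Z.Val.Big
import Vale.Agent.P277Z.Pj.Api
import Vale.Agent.P277.H19.Rank

/-!
# P277, block GLC: finite maps do not lower the dimension
-/

open scoped Manifold ContDiff Topology
open Vale.Agent.P277 Vale.Agent.P277.PH
open Vale.Agent.P272.K Vale.Agent.P285.H281.FD Set Filter Metric
open Vale.Agent.P277Z.Pj (HolTo ImmTo)

noncomputable section

namespace Vale.Agent.P277Z.Glc

namespace DimF

theorem key {m : ℕ} {H : Type} [TopologicalSpace H] [CompactSpace H] [ChartedSpace (Cm (m + 1)) H]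
    [IsManifold 𝓘(ℂ, Cm (m + 1)) ω H] {V X : CSp} [Nonempty V.pt] {φ : H → V.pt}
    {ν : V.pt → X.pt} (hφ : HolTo (m + 1) V φ) (hν : ∀ v, HolMap V X ν v)
    (hf : ∀ x, (ν ⁻¹' {x}).Finite) (hd : DimLe X m (range fun w => ν (φ w))) :
    DimLe V m (range φ) := by
  by_contra hc
  obtain ⟨w, k, g, hg0, hg⟩ := Val.Big.exists_imm hφ hc
  obtain ⟨O, hO, hi⟩ := hg.inj_near (Pj.holV_pi.2 fun a => hφ.hol w _ (hg0 a))
  obtain ⟨N, k, U, Ω, h, ψ, hU, hM⟩ := X.model (ν (φ w))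
  have he := at_chartAt (n := m + 1) w
  generalize chartAt (Cm (m + 1)) w = e at he
  obtain ⟨r, hr, hb⟩ := Val.Big.loc (hφ.comp hν) hM hU he
  obtain ⟨B, h1, h2, h3⟩ :=
    _root_.eventually_nhds_iff.1 ((ev_symm he.2 hO).and (ball_mem_nhds _ hr))
  obtain ⟨z, hz, h4⟩ := H19.stRank _ _ B h2 ⟨_, h3⟩ _ (fun z hz => (hb z (h1 z hz).2).2.2.1)
    fun z hz h5 => by
      have h6 := Val.rank_lt_of_nul (hb z (h1 z hz).2).2.2.1
        (Val.nul_of_cv (Pj.Nrm.cv_of_dimLe hM hd))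
        (mem_of_superset (h2.mem_nhds hz) fun y hy =>
          ⟨_, ⟨(hb y (h1 y hy).2).2.1, mem_range_self _⟩, rfl⟩)
      rw [Val.rank_Jm, LinearMap.finrank_range_of_inj h5, Module.finrank_fin_fun] at h6
      exact lt_irrefl _ h6
  refine h4 (Finite.countable (Finite.of_finite_image (f := fun y => φ (e.symm y))
    ((hf (ν (φ (e.symm z)))).subset ?_) fun y hy y' hy' a => ?_))
  · rintro _ ⟨y, hy, rfl⟩
    exact hM.injOn (hb y (h1 y hy.1).2).2.1 (hb z (h1 z hz).2).2.1 hy.2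
  · exact e.symm.injOn (hb y (h1 y hy.1).2).1 (hb y' (h1 y' hy'.1).2).1
      (hi (h1 y hy.1).1 (h1 y' hy'.1).1 (congrArg g a))

end DimF

/-- (DIMF) -/
theorem dimf : DIMF := by
  intro W V X φ ν l hφ hν hf hd
  obtain ⟨c, m, h1, -⟩ := @Val.Hyp.exists_sb 3 W.T _ W.ch W.mf _ (W.snc.hyp l)
  have : CompactSpace (W.G l) := isCompact_iff_compactSpace.1 (W.snc.closed l).isCompact
  have : Nonempty V.pt := (W.connG l).1.to_type.map φ
  rw [image_eq_range] at hd ⊢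
  exact DimF.key (m := 2) (Val.Big.holTo_sb h1 hφ) hν hf hd

end Vale.Agent.P277Z.Glc
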