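import Vale.Agent.P277Z.Glc.SBrSk
import Vale.Agent.P277Z.GH.KahA

/-!
# P277, block GLC, threefold strata: Kaehler forms on the product with `E`
-/

open scoped Manifold ContDiff Topology ComplexOrder
open Vale.Agent.P277 hiding Amin IsFlipR
open Vale.Agent.P272.K Vale.Agent.P272.K.Prod Set Filter
open Vale.Agent.P277Z.St (Sp)
open Vale.Agent.P277Z.GH.Ka
open Vale.Agent.P284Z (levi cHess_psd_iff)
open Vale.Agent.P284Y.Lib (levi_hol levi_add levi_const_mul two_le_inf)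
open Vale.Agent.P284Y.Ps (levi_nsq)

noncomputable section

namespace Vale.Agent.P277Z.Glc

open Pr

namespace SBrKah

theorem nsq_two {d : ℕ} {a : Cm d → ℂ} {z : Cm d} (h : AnalyticAt ℂ a z) :
    ContDiffAt ℝ ∞ (fun w => ‖a w‖ ^ 2) z := ((h.contDiffAt (n := ∞)).restrict_scalars ℝ).norm_sq ℝ

theorem pos_prod {N : ℕ} {ψ : Cm N → ℝ} {z : Cm (N + 1)} (h : ContDiffAt ℝ ∞ ψ (fstP z))
    (h' : (cHess ψ (fstP z)).PosDef) :
    ContDiffAt ℝ ∞ (fun w : Cm (N + 1) => ψ (fstP w) + ‖sndP w 0‖ ^ 2) z ∧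
      (cHess (fun w : Cm (N + 1) => ψ (fstP w) + ‖sndP w 0‖ ^ 2) z).PosDef := by
  let L : Cm (N + 1) →L[ℂ] ℂ := ContinuousLinearMap.proj (Fin.natAdd N 0)
  have h1 : ContDiffAt ℝ ∞ (fun w : Cm (N + 1) => ψ (fstP w)) z :=
    h.comp z (((an_fstP z).contDiffAt (n := ∞)).restrict_scalars ℝ)
  have h2 : ContDiffAt ℝ ∞ (fun w : Cm (N + 1) => ‖L w‖ ^ 2) z := nsq_two (L.analyticAt z)
  have h3 := h.of_le two_le_inf
  refine ⟨h1.add h2, Pos.RbAux.posDef_of_levi ((h1.add h2).of_le two_le_inf) fun ξ hξ => ?_⟩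
  change 0 < levi (fun w => ψ (fstP w) + ‖L w‖ ^ 2) z ξ
  rw [levi_add (h1.of_le two_le_inf) (h2.of_le two_le_inf), levi_nsq (L.analyticAt z), L.fderiv,
    levi_hol (an_fstP z) h3, show fderiv ℂ fstP z = fstL N from (fstL N).fderiv]
  by_cases k : fstL N ξ = 0
  · rw [k, levi_zero, zero_add]
    refine mul_pos four_pos (pow_pos (norm_pos_iff.2 fun k' => hξ (funext fun i => ?_)) 2)
    refine Fin.addCases (fun i => congrFun k i) (fun i => ?_) i
    rw [Subsingleton.elim i 0]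
    exact k'
  · exact add_pos_of_pos_of_nonneg (levi_pos h3 h' k) (by positivity)

theorem flat_nsq {d : ℕ} {a b : Cm d → ℂ} {z : Cm d} {c : ℂ} (ha : AnalyticAt ℂ a z)
    (hb : AnalyticAt ℂ b z) (h : b =ᶠ[𝓝 z] fun w => a w + c) :
    cHess (fun w => ‖a w‖ ^ 2 + -1 * ‖b w‖ ^ 2) z = 0 := by
  have h1 := (nsq_two ha).of_le two_le_inf
  have h2 := (nsq_two hb).of_le two_le_inf
  refine cHess_zero (h1.add (contDiffAt_const.mul h2)) fun ξ => ?_
  rw [levi_add h1 (contDiffAt_const.mul h2), levi_const_mul h2, levi_nsq ha, levi_nsq hb,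
    h.fderiv_eq, fderiv_add_const]
  ring

end SBrKah

open SBrKah in
/-- **KAHP** -/
theorem kahp : KAHP := by
  rintro X R ⟨ι, U, u, hU, hc, hu, hf⟩
  refine ⟨ι × (ℝ × ℝ), fun q => U q.1 ×ˢ (ech q.2).source,
    fun q p => u q.1 p.1 + ‖ech q.2 p.2 0‖ ^ 2, fun q => (hU q.1).prod (ech q.2).open_source,
    fun p => ?_, fun q p hp => ?_, fun q q' d g z hg hR h h' => ?_⟩
  · obtain ⟨i, hi⟩ := hc p.1
    exact ⟨(i, _), hi, mem_chart_source (Cm 1) p.2⟩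
  · obtain ⟨N, k, V, Ω, h, φ, ψ, k1, k2, k3, k4⟩ := hu q.1 p.1 hp.1
    refine ⟨N + 1, k, _, _, _, _, fun w => ψ (fstP w) + ‖sndP w 0‖ ^ 2, mk_mem_prod k1 hp.2,
      model_prod k2 ⟨q.2, rfl⟩, fun z hz => pos_prod (k3 _ hz.1).1 (k3 _ hz.1).2, fun y hy => ?_⟩
    simp only [fstP_glue, sndP_glue, k4 _ hy.1]
  · have e : At (ech q.2) (g z).2 := ⟨⟨q.2, rfl⟩, h.2⟩
    have e' : At (ech q'.2) (g z).2 := ⟨⟨q'.2, rfl⟩, h'.2⟩
    have k1 := hg.holMap (holMap_fst _)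
    have k2 := hg.analyticAt (hol_snd e 0)
    have k3 := hg.analyticAt (hol_snd e' 0)
    have k4 : ContinuousAt (fun w => (g w).2) z := continuousAt_snd.comp hg.1
    have k5 : (fun w => ech q'.2 (g w).2 0) =ᶠ[𝓝 z]
        fun w => ech q.2 (g w).2 0 + (ech q'.2 (g z).2 - ech q.2 (g z).2) 0 := by
      filter_upwards [k4.eventually (((ech q.2).continuousAt e.2).eventually (trans_ev e e')),
        k4.eventually (ev_source e)] with w a b
      rw [b] at a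
      exact congrFun a 0
    have k6 : (fun w => u q.1 (g w).1 + ‖ech q.2 (g w).2 0‖ ^ 2 -
        (u q'.1 (g w).1 + ‖ech q'.2 (g w).2 0‖ ^ 2)) = fun w => (u q.1 (g w).1 - u q'.1 (g w).1) +
        (‖ech q.2 (g w).2 0‖ ^ 2 + -1 * ‖ech q'.2 (g w).2 0‖ ^ 2) := funext fun w => by ring
    refine (congrArg (fun F => cHess F z) k6).trans ((C2.cHess_add
      ((sm_two k1 (sp_sm (hu _ _ h.1))).sub (sm_two k1 (sp_sm (hu _ _ h'.1))))
      (((nsq_two k2).add (contDiffAt_const.mul (nsq_two k3))).of_le two_le_inf)).trans ?_)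
    rw [flat_nsq k2 k3 k5, add_zero]
    exact hf _ _ d _ z k1 hR h.1 h'.1

end Vale.Agent.P277Z.Glc
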