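import Vale.Agent.P277Z.Glc.SBrSk
import Vale.Agent.P277Z.Pj.Stb
import Vale.Agent.P277.A.Dim

/-!
# P277, block GLC, threefold strata: discrepancies do not change if the map factors
-/

open scoped Manifold ContDiff Topology
open Vale.Agent.P277 hiding Amin IsFlipR
open Vale.Agent.P277.HD Vale.Agent.P277.PH
open Vale.Agent.P272.K Vale.Agent.P285.H281.FD Set Filter Function
open Vale.Agent.P277Z.Pj (Stein)
open Vale.Agent.P277Z.Val (holF_cont holF_ev)

noncomputable section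

namespace Vale.Agent.P277Z.Glc

namespace Nin

theorem unit0 {W : Mf 4} {V : CSp} {u : W.T → V.pt} {E O : Set V.pt} (hu : Stein 4 V u)
    (hn : IsNormal 4 V) (hE : IsAn V univ E) (hd : DimLe V 2 E)
    (hG : ∀ w, u w ∈ E → w ∈ ⋃ l, W.G l) (hO : IsOpen O) {ψ : W.T → ℂ} {m : Fin W.r → ℤ}
    (hψ : ∀ w, u w ∈ O → Mon 4 W.G m ψ w)
    (h0 : ∀ l, ∀ w ∈ W.G l, u w ∉ E → m l = 0) {l : Fin W.r} {w : W.T} (hw : w ∈ W.G l)
    (hwO : u w ∈ O) : m l = 0 := by
  have h1 : ∀ x, u x ∈ O \ E → ∃ g, HolF 4 g x ∧ g x ≠ 0 ∧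
      ∀ᶠ z in 𝓝 x, z ∉ ⋃ l, W.G l → ψ z = g z := fun x hx => by
    obtain ⟨ζ, g, -, a, b, c⟩ := (hψ x hx.1).change (n' := fun _ => 0) fun l hl => h0 l x hl hx.2
    exact ⟨g, a, b, by simpa using c⟩
  choose! g g1 g2 g3 using h1
  have h2 : ∀ x, u x ∈ O \ E → HolF 4 (fun z => g z z) x := fun x hx => (g1 x hx).congr (by
    filter_upwards [holF_ev (g1 x hx), (g3 x hx).eventually_nhds, hu.cont.continuousAt.eventually
      ((hO.sdiff (isClosed_of_isAn hE)).eventually_mem hx)] with z a b c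
    refine W.eq_of_off (holF_cont a) (holF_cont (g1 z c)) ?_
    filter_upwards [b, g3 z c] with v e k j using (e j).symm.trans (k j))
  have h3 := fun y (hy : y ∈ O \ E) =>
    Pj.Stb.desc hu (y := y) (g := fun z => g z z) fun x hx => h2 x (hx ▸ hy)
  have h4 : ∀ y ∈ O \ E, g (surjInv hu.surj y) (surjInv hu.surj y) ≠ 0 := fun y hy =>
    g2 _ ((surjInv_eq hu.surj y).symm ▸ hy)
  obtain ⟨H, a1, a2⟩ := hn.ext O E hO (hE.mono (subset_univ _)) (hd.mono inter_subset_right) _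
    fun y hy => (h3 y hy).1
  obtain ⟨H', b1, b2⟩ := hn.ext O E hO (hE.mono (subset_univ _)) (hd.mono inter_subset_right) _
    fun y hy => hol_inv (h3 y hy).1 (h4 y hy)
  have h5 : H (u w) * H' (u w) = 1 := tendsto_nhds_unique_of_frequently_eq
    ((hol_continuousAt (a1 _ hwO)).mul (hol_continuousAt (b1 _ hwO))) tendsto_const_nhds
    (((mem_closure_iff_frequently.1 (dense_compl_of_dimLe (by norm_num) hn.dense hd (u w))).and_eventually
      (hO.eventually_mem hwO)).mono fun y hy => by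
        rw [Pi.mul_apply, a2 y ⟨hy.2, hy.1⟩, b2 y ⟨hy.2, hy.1⟩]
        exact mul_inv_cancel₀ (h4 y ⟨hy.2, hy.1⟩))
  refine (hψ w hwO).unique ((Mf.mon_unit (hu.hol w H (a1 _ hwO)) (left_ne_zero_of_mul_eq_one h5)).congr
    ?_) hw
  filter_upwards [hu.cont.continuousAt.eventually (hO.eventually_mem hwO)] with x a b
  have c : u x ∈ O \ E := ⟨a, mt (hG x) b⟩
  rw [(g3 x c).self_of_nhds b, a2 _ c]
  exact (h3 _ c).2.self_of_nhds x rfl

theorem self {X : CSp} {L : Bd X.pt} (h : IsLBx X L) {i : L.ι} {x : X.pt} (hi : x ∈ L.U i) :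
    L.g i i x = 1 :=
  mul_left_cancel₀ (h.ne_zero i i x hi hi) ((h.cocycle i i i x hi hi hi).trans (mul_one _).symm)

end Nin

theorem ninj : NINJ := by
  intro W V V' u u' E L L' N A B n n' t t' hu hu' hn hf hE hd hG hL hL' hN c c' h0 l
  obtain ⟨w, hw⟩ := (W.connG l).nonempty
  obtain ⟨i, hi⟩ := hL.cover (u w)
  obtain ⟨i', hi'⟩ := hL'.cover (u' w)
  obtain ⟨O, o1, o2, o3⟩ := eventually_nhds_iff.1 ((Pj.Stb.tube hu'.cont (y := u' w)
    (P := fun x => u x ∈ L.U i) fun x hx => hu.continuousAt.eventually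
      ((hL.isOpen i).eventually_mem ((hf w x hx).symm ▸ hi))).and ((hL'.isOpen i').eventually_mem hi'))
  choose k hk using hN.cover
  refine sub_eq_zero.1 (Nin.unit0 (m := fun l => B * n l - A * n' l)
    (ψ := fun x => t i (k x) x ^ B / t' i' (k x) x ^ A) hu' hn hE hd hG o2 (fun x hx => ?_)
    (fun l x a b => sub_eq_zero.2 (h0 l x a b)) hw o3)
  refine (((c.div x i (k x) ((o1 _ hx).1 x rfl) (hk x)).pow B).div
    ((c'.div x i' (k x) (o1 _ hx).2 (hk x)).pow A)).congr ?_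
  filter_upwards [hu'.cont.continuousAt.eventually (o2.eventually_mem hx),
    (hN.isOpen _).eventually_mem (hk x)] with z a b e
  have a1 := (o1 _ a).1 z rfl
  have a2 := (o1 _ a).2
  have e1 : t i (k z) z = L.g i i (u z) * t i (k x) z * N.g (k z) (k x) z ^ A :=
    c.change z i i (k x) (k z) e a1 a1 b (hk z)
  have e2 : t' i' (k z) z = L'.g i' i' (u' z) * t' i' (k x) z * N.g (k z) (k x) z ^ B :=
    c'.change z i' i' (k x) (k z) e a2 a2 b (hk z)
  rw [e1, e2, Nin.self hL a1, Nin.self hL' a2, one_mul, one_mul, mul_pow, mul_pow, ← pow_mul,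
    ← pow_mul, mul_comm B A, mul_div_mul_right _ _ (pow_ne_zero _ (hN.ne_zero _ _ z (hk z) b))]

end Vale.Agent.P277Z.Glc
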