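import Vale.Agent.P277Z.Glc.SBrSk
import Vale.Agent.P277Z.Pj.Stb
import Vale.Agent.P277Z.Pj.Bdd
import Vale.Agent.P277Z.Val.Jz0
import Vale.Agent.P277.H762.CL5

/-!
# P277, block GLC: holomorphic functions descend along a modification
-/

open scoped Manifold ContDiff Topology ComplexOrder
open Vale.Agent.P277 hiding Amin IsFlipR
open Vale.Agent.P277.HD Vale.Agent.P277.PH
open Vale.Agent.P272.K Vale.Agent.P272.K.Prod Vale.Agent.P285.H281.FD Set Filter
open Vale.Agent.P277.H60.Z (XH)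
open Vale.Agent.P277Z.Pj (Stein HolTo ImmTo GPrj)
open Vale.Agent.P277.T3 (ThinM thinM_of_local thinM_iUnion)
open Vale.Agent.P277Z.Val (holF_cont holF_ev)

noncomputable section

namespace Vale.Agent.P277Z.Glc

open Pr

namespace Stm

open Val in
theorem thin_G (V : Lg) (l : Fin V.r) : ThinM 4 3 (V.G l) := by
  have : SecondCountableTopology V.W := ChartedSpace.secondCountable_of_sigmaCompact (Cm 4) V.W
  have : Nonempty V.W := ⟨(V.conn l).1.some⟩
  refine thinM_of_local fun y hy => ?_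
  obtain ⟨c, ξ, lab, h, h0⟩ := U.exists_ch1 hy 0
  obtain ⟨Ω, o1, o2, o3⟩ := eventually_nhds_iff.1 h.crd.an.eventually
  refine ⟨_, (h.crd.cont.eventually (o2.mem_nhds o3)).and (h.crd.left.and (h.mem_iff h0)),
    U.thinM_mono (U.thinM_single (g := fun p => ξ (inc 3 p)) (o2.preimage (inc 3).continuous)
      fun p hp => (o1 _ hp).comp ((inc 3).analyticAt p)) ?_⟩
  rintro y' ⟨⟨e1, e2, e3⟩, e4⟩
  have e5 := inc_tl (e3.1 e4)
  exact ⟨tl 3 (c y'), by show inc 3 _ ∈ Ω; rwa [e5], by simp only [e5, e2]⟩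

variable {W' : Mf 4} {W : Type} [TopologicalSpace W] [T2Space W] [CompactSpace W]
  [ChartedSpace (Cm 4) W] [IsManifold 𝓘(ℂ, Cm 4) ω W] {q : W'.T → W}

/-- the image of the divisor is thin -/
theorem thin (hq : HolTo 4 (XH 4 W) q) : ThinM 4 3 (q '' ⋃ l, W'.G l) :=
  Val.U.thinM_image (thinM_iUnion fun l => thin_G W'.lg l) fun y =>
    ⟨hq.cont.continuousAt, fun f hf => hq.hol y f hf⟩

/-- a map which is an isomorphism off the divisor has the descent property -/
theorem stein (hq : HolTo 4 (XH 4 W) q) (hs : Function.Surjective q)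
    (hi : ∀ w, w ∉ ⋃ l, W'.G l → ∀ w', q w' = q w → w' = w)
    (hl : ∀ w, w ∉ ⋃ l, W'.G l → ∀ k, HolF 4 k w →
      ∃ K, HolF 4 K (q w) ∧ ∀ᶠ w' in 𝓝 w, k w' = K (q w')) : Stein 4 (XH 4 W) q := by
  refine ⟨hq, hs, fun y k hk => ?_⟩
  have hr := @Pj.rext 3 W _ _ (ChartedSpace.secondCountable_of_sigmaCompact (Cm 4) W)
    ‹ChartedSpace (Cm 4) W› ‹_›
  have hc : Continuous q := hq.cont
  have hS : IsClosed (q '' ⋃ l, W'.G l) := (W'.closedU.isCompact.image hc).isClosed
  obtain ⟨O, h1, hO, hy⟩ := eventually_nhds_iff.1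
    (Pj.Stb.tube (Y := XH 4 W) hc fun w hw => holF_ev (hk w hw))
  have hσ := Function.surjInv_eq hs
  refine (hr O _ hO (hO.sdiff hS)
    (fun e he => (H762.cv_chart (thin hq) he).mono fun z hz => ⟨hz.1, hz.2.2⟩)
    (fun z => k (Function.surjInv hs z)) (fun z hz => ?_) fun z hz => ?_).elim
      fun g ⟨g1, g2⟩ => ?_
  rotate_left 2
  · refine ⟨g, g1 y hy, fun w hw => W'.ev_eq_of_off (hk w hw) (hq.hol w g (hw ▸ g1 y hy)) ?_⟩
    filter_upwards [hc.continuousAt.eventually (hO.mem_nhds (hw ▸ hy))] with v hv hv'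
    rw [g2 _ ⟨hv, fun ⟨v', h3, h4⟩ => hv' (hi v hv' v' h4 ▸ h3)⟩, hi v hv' _ (hσ _)]
  · obtain ⟨w, rfl⟩ := hs z
    have hw : w ∉ ⋃ l, W'.G l := fun h => hz.2 ⟨w, h, rfl⟩
    obtain ⟨K, k1, k2⟩ := hl w hw k (h1 _ hz.1 w rfl)
    refine k1.congr ?_
    filter_upwards [Pj.Stb.tube (Y := XH 4 W) hc (y := q w) (P := fun v => k v = K (q v))
      fun v hv => hi w hw v hv ▸ k2] with z' hz'
    rw [hz' _ (hσ z'), hσ]
  · obtain ⟨C, hC⟩ := (isClosed_singleton.preimage hc).isCompact.exists_bound_of_continuousOn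
      (f := k) fun w hw => (holF_cont (h1 z hz w hw)).continuousWithinAt
    refine ⟨C + 1, (Pj.Stb.tube (Y := XH 4 W) hc (y := z) (P := fun v => ‖k v‖ < C + 1)
      fun w hw => ?_).mono fun z' h _ => (h _ (hσ z')).le⟩
    exact (holF_cont (h1 z hz w hw)).norm.eventually_lt continuousAt_const
      ((hC w hw).trans_lt (lt_add_one C))

theorem comp {V : CSp} {u : W → V.pt} (hq : Stein 4 (XH 4 W) q) (hu : Stein 4 V u) :
    Stein 4 V fun w => u (q w) := by
  have hc : Continuous q := hq.cont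
  refine ⟨⟨hu.cont.comp hc, fun w g hg => hq.hol w (fun x => g (u x)) (hu.hol _ g hg)⟩,
    hu.surj.comp hq.surj, fun v k hk => ?_⟩
  have h1 := fun y (hy : u y = v) => Pj.Stb.desc hq (y := y) (g := k) fun w hw =>
    hk w ((congrArg u hw).trans hy)
  obtain ⟨f, f1, f2⟩ := hu.desc v (fun y => k (Function.surjInv hq.surj y)) fun y hy =>
    (h1 y hy).1
  refine ⟨f, f1, fun w hw => ?_⟩
  filter_upwards [hc.continuousAt.eventually (f2 _ hw), hc.continuousAt.eventually (h1 _ hw).2]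
    with w' a b
  exact (b w' rfl).trans a

/-- off the divisor the coordinates are pulled back -/
theorem coord {d : ℕ} {T' T : Mf d} (h : Md T' T) {y : T'.T} (hy : y ∉ ⋃ l, T'.G l)
    (e : Chart d T'.T) (he : At e y) (i : Fin d) :
    ∃ g, HolF d g (h.π y) ∧ ∀ᶠ x in 𝓝 y, e x i = g (h.π x) := by
  have hc := at_chartAt (n := d) (h.π y)
  set c := chartAt (Cm d) (h.π y)
  have ht : Pj.HolV d (fun x => c (h.π x)) y := Pj.holV_pi.2 fun i =>
    h.hol.2 _ (fun x => c x i) (Pj.holV_pi.1 (Pj.holV_chart hc) i)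
  have h1 : Pj.Imm d (fun x => c (h.π x)) y := fun e' he' =>
    Val.LocIso.inj ⟨ht e' he', ((h.jac _ e' c he' hc).off hy).2⟩
  obtain ⟨G, h2, h3⟩ := h1.chart_eq ht he
  exact ⟨fun x => G (c x) i, Pj.holV_pi.1 ((Pj.holV_chart hc).comp h2) i,
    h3.mono fun x hx => congrFun hx i⟩

end Stm

theorem stm : STM := by
  intro T' T h V u hu
  have h1 := holTo_prodE (n := 3) (X := XH 3 T.T) (v := h.π) ⟨h.hol.1, h.hol.2⟩
  refine Stm.comp (W' := T'.prodE) (W := T.T × El) (q := fun q => (h.π q.1, q.2))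
    (Stm.stein ⟨h1.cont, fun w g hg => h1.hol w g (holE_iff.2 hg)⟩
      (h.surj.prodMap Function.surjective_id) (fun w hw w' e => ?_) fun w hw k hk => ?_) hu
  · exact Prod.ext (h.inj₀ w.1 (by simpa using hw) _ (Prod.ext_iff.1 e).1) (Prod.ext_iff.1 e).2
  · have hE := at_chartAt (n := 4) w
    choose g g1 g2 using immTo_prod (X := XH 3 T.T) (v := h.π) (p := w)
      (Stm.coord h (by simpa using hw)) _ hE
    have g3 := (eventually_all.2 g2).mono fun v a => funext a
    refine ⟨fun z => k ((chartAt (Cm 4) w).symm fun i => g i z),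
      (Pj.holV_pi.2 fun i => holE_iff.1 (g1 i)).comp (H := fun z => k ((chartAt (Cm 4) w).symm z))
        (g3.self_of_nhds ▸ hk _ hE), ?_⟩
    filter_upwards [g3, (chartAt (Cm 4) w).open_source.mem_nhds hE.2] with v a b
    exact congrArg k (((chartAt (Cm 4) w).left_inv b).symm.trans (congrArg _ a))

end Vale.Agent.P277Z.Glc
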