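import Vale.Agent.P277Z.Glc.SBr
import Vale.Agent.P277Z.Glc.SBrAmp
import Vale.Agent.P277Z.Glc.SBrDim
import Vale.Agent.P277Z.Glc.SBrKah
import Vale.Agent.P277Z.Glc.SBrStm
import Vale.Agent.P277Z.Glc.SBrNin

/-!
# P277, block GLC: threefold strata, the end
-/

namespace Vale.Agent.P277Z.Glc

/-- (SBR) -/
theorem sbr_of (g1 : Pj.PROJ) (g2 : Pj.LOCQ) (g3 : Pj.REMG) (g4 : Pj.FINAMP) (g5 : Val.StAmpC)
    (g6 : StGrel) : StSBr :=
  SB.sbr g1 g2 g3 g4 g5 g6 stm ampu dimf ninj kahp dive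

end Vale.Agent.P277Z.Glc
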