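import Vale.Agent.P277Z.Glc.Main
import Vale.Agent.P277Z.Glc.Pre
import Vale.Agent.P277Z.Glc.Comp
import Vale.Agent.P277Z.Glc.Jac
import Vale.Agent.P277Z.Glc.Surj
import Vale.Agent.P277Z.Glc.PullM
import Vale.Agent.P277Z.Glc.Md
import Vale.Agent.P277Z.Glc.Model
import Vale.Agent.P277Z.Glc.Ext
import Vale.Agent.P277Z.Glc.Brg
import Vale.Agent.P277Z.Glc.Reg
import Vale.Agent.P277Z.Glc.Grel
import Vale.Agent.P277Z.Glc.Adj
import Vale.Agent.P277Z.Glc.EmbH
import Vale.Agent.P277Z.Glc.DiscW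
import Vale.Agent.P277Z.Glc.SBrF
import Vale.Agent.P277Z.Ex.LRes
import Vale.Agent.P277Z.Rk.All
import Vale.Agent.P277Z.GH.Prin
import Vale.Agent.P277Z.GH.Res0
import Vale.Agent.P277Z.GH.Dom
import Vale.Agent.P277Z.GH.Comp
import Vale.Agent.P277Z.GH.Graph
import Vale.Agent.P277Z.GH.KahM
import Vale.Agent.P277Z.GH.KahMan
import Vale.Agent.P277Z.Hir.All
import Vale.Agent.P277Z.Val.AmpC2
import Vale.Agent.P277Z.Val.An
import Vale.Agent.P277Z.Val.CmpS
import Vale.Agent.P277Z.Val.LiftsB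
import Vale.Agent.P277Z.Pj.All0
import Vale.Agent.P277Z.Coh.All

/-!
# P277, block GLC: the log canonical case from the klt case
-/

namespace Vale.Agent.P277Z.Glc

theorem hm : HM :=
  ⟨pre, jac, thin, surj_of pre jac, uniq_of pre jac thin (surj_of pre jac), stId, comp_of jac, exc⟩

theorem md : StMd := md_of GH.kr GH.kproj GH.kman

theorem pullM : StPull := pull_of pre jac

theorem ghComp : GH.StComp := GH.comp_of Val.ampC Val.an

theorem ghPrin : GH.StPrin := GH.prin_of Val.kodAll Hir.stMainL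

theorem ghRes0 : GH.StRes0 := GH.res0_of Val.kodAll Hir.stMain

theorem ghGraph : GH.StGraph := GH.graph_of (GH.ghn_of ghPrin Val.nx) Val.ampC Val.an

theorem good : StGood :=
  good_of (sep_of GH.fam ghPrin ghComp md pullM pre jac) hm.comp stId pre jac hm.uniq

theorem model : StModel := model_of ghGraph Val.cmpS md pullM pre jac

theorem lres : StLRes :=
  lres_of ghRes0 (GH.dom_of ghRes0 ghPrin ghComp Val.stHom) ghPrin ghComp GH.fam GH.kr GH.kproj
    GH.kman Pj.rap Pj.prjs (Pj.F.remg C1.fts) pullM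

theorem sbr : StGrel → StSBr :=
  sbr_of (Pj.F.proj C1.fts) (Pj.F.locq C1.fts) (Pj.F.remg C1.fts) (Pj.F.finamp C1.fts) Val.ampC

/-- the log canonical case from the klt case -/
theorem mod_le (hX : Ex.EXS) (h : St.MOD (· < 1)) : St.MOD (· ≤ 1) :=
  have h1 := grel1_of (gklt_of h) exc GH.kr GH.kproj
  have h2 := ext_of hX ghComp md pullM pre jac
  mod_of (glc_of ⟨hm, adj, embH_of pre jac hm.uniq, model, good, h2, discW, Rk.six,
    sbr (grel_of hm h2 lres h1)⟩ reg h1)

end Vale.Agent.P277Z.Glc
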