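import Vale.Agent.P277Z.Glc.Sk0
import Vale.Agent.P277Z.Val.Mod
import Vale.Agent.P277Z.Slc.Defs
import Vale.Agent.P277Z.St.Defs

/-!
# P277, block GLC: models of a sequence of flips, in any dimension

See `notes/P277_glc.md`.
-/

open scoped Manifold ContDiff Topology ComplexOrder
open Vale.Agent.P277 hiding Amin IsFlipR
open Vale.Agent.P277.HD Vale.Agent.P277.PH
open Vale.Agent.P272.K Vale.Agent.P285.H281.FD Set Filter
open Vale.Agent.P277Z.Slc (LEq)

noncomputable section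

namespace Vale.Agent.P277Z.Glc

section loc

variable {T : Type} [TopologicalSpace T] (d : ℕ) [ChartedSpace (Cm d) T]

/-- `f` is near `y` a unit times the monomial with exponents `n` in the equations of the `G l`. -/
def Mon {r : ℕ} (G : Fin r → Set T) (n : Fin r → ℤ) (f : T → ℂ) (y : T) : Prop :=
  ∃ (ζ : Fin r → T → ℂ) (u : T → ℂ), (∀ l, LEq d (G l) y (ζ l)) ∧ HolF d u y ∧ u y ≠ 0 ∧
    ∀ᶠ y' in 𝓝 y, y' ∉ ⋃ l, G l → f y' = u y' * ∏ l, ζ l y' ^ n l

/-- a holomorphic map to a complex space -/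
def HolX (X : CSp) (p : T → X.pt) : Prop :=
  Continuous p ∧ ∀ y g, X.Hol g (p y) → HolF d (g ∘ p) y

/-- a holomorphic map of manifolds -/
def HolM {T' : Type} [TopologicalSpace T'] (d' : ℕ) [ChartedSpace (Cm d') T'] (π : T → T') : Prop :=
  Continuous π ∧ ∀ y g, HolF d' g (π y) → HolF d (g ∘ π) y

/-- frame of `p^* L` = `t` times frame of `N`, and the divisor of `t` is `∑ l, n l • G l` -/
structure Cmp {r : ℕ} {X : Type} (p : T → X) (L : Bd X) (N : Bd T) (G : Fin r → Set T)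
    (n : Fin r → ℤ) (t : L.ι → N.ι → T → ℂ) : Prop where
  div : ∀ y i j, p y ∈ L.U i → y ∈ N.U j → Mon d G n (t i j) y
  change : ∀ y i i₁ j j₁, y ∉ ⋃ l, G l → p y ∈ L.U i → p y ∈ L.U i₁ → y ∈ N.U j → y ∈ N.U j₁ →
    t i₁ j₁ y = L.g i i₁ (p y) * t i j y * N.g j₁ j y

end loc

/-- a compact connected Kaehler manifold with a divisor with simple normal crossings -/
structure Mf (d : ℕ) where
  T : Type
  [top : TopologicalSpace T]
  [t2 : T2Space T]
  [cpt : CompactSpace T]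
  [conn : ConnectedSpace T]
  [ch : ChartedSpace (Cm d) T]
  [mf : IsManifold 𝓘(ℂ, Cm d) ω T]
  χ : Chart d T → Cm d → Matrix (Fin d) (Fin d) ℂ
  kahler : IsKahler χ
  r : ℕ
  G : Fin r → Set T
  connG : ∀ l, IsConnected (G l)
  snc : Val.IsSnc d G

attribute [instance] Mf.top Mf.t2 Mf.cpt Mf.conn Mf.ch Mf.mf

/-- the model in the sense of the block VAL -/
abbrev Mf.lg (V : Mf 4) : Val.Lg where
  W := V.T
  r := V.r
  G := V.G
  conn := V.connG
  snc := V.snc

/-- the trivial line bundle -/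
def triv (T : Type) : Bd T := ⟨Unit, fun _ => univ, fun _ _ _ => 1⟩

/-- `S ⊆ Y`, the image of a hypersurface of a manifold of dimension `d`, has dimension `≤ d - 2` -/
def Contr (d : ℕ) (Y : CSp) (S : Set Y.pt) : Prop := ∃ d', d' + 2 = d ∧ DimLe Y d' S

/-- an infinite sequence of flips of `D = ∑ e, ρ e • D e`, where `D e` contains `m e • K` -/
structure Dat where
  k : ℕ
  ρ : Fin k → ℝ
  m : Fin k → ℕ
  pos : ∀ e, 0 < ρ e
  sum : ∑ e, ρ e * m e = 1
  S : Seq k ρ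
  kah : ∀ j, St.Kah (S.X j)

/-- the point `x` of `X j` lies in the flipping locus -/
def Dat.Fl (D : Dat) (j : ℕ) (x : (D.S.X j).pt) : Prop := D.S.f j x ∈ Amin (D.S.f j)

/-- the points of `X 0` which are hit by one of the first `N` flips -/
def Dat.hitLt (D : Dat) (N : ℕ) : Set (D.S.X 0).pt :=
  {x | ∃ j < N, ∃ x', Cor ∅ (fun x : (D.S.X 0).pt => x) D.S.f D.S.f' j x x' ∧ D.Fl j x'}

/-- the points of `X 0` which are hit by a flip -/
def Dat.hit (D : Dat) : Set (D.S.X 0).pt := ⋃ N, D.hitLt N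

/-- the tail of the sequence -/
def Dat.shift (D : Dat) (J : ℕ) : Dat where
  k := D.k
  ρ := D.ρ
  m := D.m
  pos := D.pos
  sum := D.sum
  S := { X := fun j => D.S.X (J + j)
         Z := fun j => D.S.Z (J + j)
         f := fun j => D.S.f (J + j)
         f' := fun j => D.S.f' (J + j)
         A := fun j => D.S.A (J + j)
         L := fun j => D.S.L (J + j)
         c := fun j => D.S.c (J + j)
         hc := fun j => D.S.hc (J + j)
         flip := fun j => D.S.flip (J + j) }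
  kah j := D.kah (J + j)

/-- the data of a model of dimension `d` -/
structure Pm₀ (D : Dat) (d : ℕ) extends Mf d where
  M : Fin D.k → Bd T
  p : ∀ j, T → (D.S.X j).pt
  P : ℕ → Fin D.k → ℕ
  n : ℕ → Fin D.k → Fin r → ℤ

namespace Pm₀

variable {D : Dat} {d : ℕ} (W : Pm₀ D d)

/-- the discrepancy of `G l` for `D e` at the time `j` -/
def α (j : ℕ) (e : Fin D.k) (l : Fin W.r) : ℝ := W.n j e l / (W.P j e * D.S.c j e)

/-- the discrepancy of `G l` at the time `j` -/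
def a (j : ℕ) (l : Fin W.r) : ℝ := ∑ e, D.ρ e * W.α j e l

/-- `m e • K + M e` -/
def NB (e : Fin D.k) : Bd W.T := ((Bd.can d W.T).pow (D.m e)).mul (W.M e)

end Pm₀

/-- A model over `X 0, …, X N`: `p j ^* D = K + M - ∑ l, a j l • G l`. -/
structure Pm (D : Dat) (N d : ℕ) extends Pm₀ D d where
  lb : ∀ e, IsLB d (M e)
  nef : ∀ e, Nef χ (M e)
  hol : ∀ j ≤ N, HolX d (D.S.X j) (p j)
  comm : ∀ j < N, ∀ y, D.S.f' j (p (j + 1) y) = D.S.f j (p j y)
  hP : ∀ j e, 1 ≤ P j e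
  cmp : ∀ j ≤ N, ∀ e, ∃ t, Cmp d (p j) ((D.S.L j e).pow (P j e))
    ((toPm₀.NB e).pow (P j e * D.S.c j e)) G (n j e) t
  lc : ∀ l, -1 ≤ toPm₀.a 0 l
  mono : ∀ j < N, ∀ l, toPm₀.a j l ≤ toPm₀.a (j + 1) l
  strict : ∀ j < N, ∀ y, D.Fl j (p j y) → ∃ l, y ∈ G l ∧ toPm₀.a j l < toPm₀.a (j + 1) l
  const : ∀ j < N, ∀ l, (∃ y ∈ G l, ¬ D.Fl j (p j y)) → ∀ e, toPm₀.α j e l = toPm₀.α (j + 1) e l

namespace Pm

variable {D : Dat} {N d : ℕ} (W : Pm D N d)

/-- the points which lie only on log canonical components -/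
def U : Set W.T := {y | ∀ l, y ∈ W.G l → W.a N l = -1}

/-- the log canonical components have the coefficient `m e` in each `D e` -/
def Adjw : Prop := ∀ l, W.a 0 l = -1 → ∀ e, W.α 0 e l = -(D.m e : ℝ)

/-- the components with `-1 < a < 0` are pairwise disjoint -/
def Gd : Prop := ∀ l l', l ≠ l' → -1 < W.a N l → W.a N l < 0 → -1 < W.a N l' → W.a N l' < 0 →
  Disjoint (W.G l) (W.G l')

/-- `C` is a log canonical stratum, a connected component of the intersection of the `G l`, `l ∈ I` -/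
def IsSt (I : Finset (Fin W.r)) (C : Set W.T) : Prop :=
  (∀ l ∈ I, W.a N l = -1) ∧ ∃ y, (∀ l ∈ I, y ∈ W.G l) ∧
    C = connectedComponentIn {z | ∀ l ∈ I, z ∈ W.G l} y

/-- no stratum is destroyed by the flips -/
def Alive (W : Pm D 0 d) : Prop :=
  ∀ I C, W.IsSt I C → ∀ N, ∃ y ∈ C, y ∈ W.U ∧ W.p 0 y ∉ D.hitLt N

/-- `G l` is exceptional over `X j` -/
def Exc (W : Pm D N 4) (j : ℕ) (l : Fin W.r) : Prop := DimLe (D.S.X j) 2 (W.p j '' W.G l)

/-- the boundary is effective -/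
def Eff (W : Pm D N 4) : Prop := ∀ l, ¬ W.Exc N l → W.a N l ≤ 0

/-- `p N` is a log resolution with the exceptional components `exc` -/
def Res (W : Pm D N 4) (exc : Finset (Fin W.r)) : Prop :=
  Val.Res W.toMf.lg (D.S.X N) (W.p N) exc

/-- `p N` is bimeromorphic, an isomorphism outside the `G l`, and `-∑ l, c l • G l` is relatively
ample for some `c ≥ 0` -/
structure LRw (W : Pm D N 4) : Prop where
  surj : Function.Surjective (W.p N)
  emb : IsOpenEmb (D.S.X N) (⋃ l, W.G l)ᶜ (W.p N)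
  inj : ∀ y y', y ∉ ⋃ l, W.G l → W.p N y' = W.p N y → y' = y
  amp : ∃ (P : Bd W.T) (c : Fin W.r → ℕ) (τ : (Bd.inv P).ι → W.T → ℂ), IsLB 4 P ∧
    RelAmple W.toMf.lg.X (D.S.X N) (W.p N) P ∧ Val.IsDiv W.toMf.lg (Bd.inv P) τ c

/-- `q` is the map to a dlt model (at the time `N`) -/
structure Dlt (W : Pm D N 4) (Y : CSp) (q : W.T → Y.pt) (ex : Finset (Fin W.r)) : Prop where
  res : Val.Res W.toMf.lg Y q ex
  fac : ∃ g : Y.pt → (D.S.X N).pt, (∀ z, HolMap Y (D.S.X N) g z) ∧ ∀ y, g (q y) = W.p N y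
  klt : ∀ l ∈ ex, -1 < W.a N l
  nex : ∀ l ∉ ex, W.a N l = -1 ∨ ¬ W.Exc N l

theorem lc' (W : Pm D N d) {j : ℕ} (hj : j ≤ N) (l : Fin W.r) : -1 ≤ W.a j l := by
  induction j with
  | zero => exact W.lc l
  | succ j ih => exact (ih (by omega)).trans (W.mono j (by omega) l)

/-- the model as a model of the tail -/
def shift (J : ℕ) {N : ℕ} (W : Pm D (J + N) d) : Pm (D.shift J) N d where
  toMf := W.toMf
  M := W.M
  p j := W.p (J + j)
  P j := W.P (J + j)
  n j := W.n (J + j)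
  lb := W.lb
  nef := W.nef
  hol j hj := W.hol (J + j) (by omega)
  comm j hj := W.comm (J + j) (by omega)
  hP j := W.hP (J + j)
  cmp j hj := W.cmp (J + j) (by omega)
  lc l := W.lc' (j := J) (by omega) l
  mono j hj := W.mono (J + j) (by omega)
  strict j hj := W.strict (J + j) (by omega)
  const j hj := W.const (J + j) (by omega)

end Pm

/-- A modification of manifolds with divisors; `o l l'` is the order of `G l` along `G' l'`, and
`J l'` the order of the Jacobian. -/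
structure Md {d : ℕ} (V' V : Mf d) where
  π : V'.T → V.T
  hol : HolM d d π
  surj : Function.Surjective π
  o : Fin V.r → Fin V'.r → ℕ
  J : Fin V'.r → ℕ
  ord : ∀ y l ζ, LEq d (V.G l) (π y) ζ → Mon d V'.G (fun l' => o l l') (ζ ∘ π) y
  jac : ∀ y (e' : Chart d V'.T) (e : Chart d V.T), At e' y → At e (π y) →
    Mon d V'.G (fun l' => J l')
      (fun y' => (fderiv ℂ (fun z => e (π (e'.symm z))) (e' y')).det) y
  inj₀ : ∀ y, y ∉ ⋃ l, V'.G l → ∀ y', π y' = π y → y' = y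

/-- `G' l'` is the strict transform of `G l` -/
def Md.ST {d : ℕ} {V' V : Mf d} (h : Md V' V) (l : Fin V.r) (l' : Fin V'.r) : Prop :=
  h.J l' = 0 ∧ h.o l l' ≠ 0

/-- the components in `I'` are the strict transforms of the components in `I` -/
def Md.Over {d : ℕ} {V' V : Mf d} (h : Md V' V) (I : Finset (Fin V.r)) (I' : Finset (Fin V'.r)) :
    Prop := (∀ l ∈ I, ∃ l' ∈ I', h.ST l l') ∧ ∀ l' ∈ I', ∃ l ∈ I, h.ST l l'

/-- the connected component of `y` in the intersection of the `G l`, `l ∈ I` -/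
def Mf.cc {d : ℕ} (V : Mf d) (I : Finset (Fin V.r)) (y : V.T) : Set V.T :=
  connectedComponentIn {z | ∀ l ∈ I, z ∈ V.G l} y

/-- a crepant modification of models -/
structure Hom₀ {D : Dat} {N' N d : ℕ} (W' : Pm D N' d) (W : Pm D N d) extends
    Md W'.toMf W.toMf where
  le : N ≤ N'
  hp : ∀ j ≤ N, ∀ y, W.p j (π y) = W'.p j y
  hM : ∀ e, W'.M e = pull π (W.M e)
  crep : ∀ j ≤ N, ∀ e l', W'.α j e l' = ∑ l, o l l' * W.α j e l + D.m e * J l'

/-- a crepant modification of models which is an isomorphism at the general points of the log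
canonical strata -/
structure Hom {D : Dat} {N' N d : ℕ} (W' : Pm D N' d) (W : Pm D N d) extends Hom₀ W' W where
  inj : ∀ y ∈ W'.U, ∀ y', π y' = π y → y' = y
  J0 : ∀ l', W'.a N' l' = -1 → J l' = 0
  back : ∀ y, π y ∈ W.U → (∀ j, N ≤ j → j < N' → ¬ D.Fl j (W'.p j y)) → y ∈ W'.U

/-- `T` is a connected component of the intersection of the `G l`, `l ∈ I`, with the adjoint data. -/
structure Emb {D : Dat} {N d d' : ℕ} (T : Pm D N d) (W : Pm D N d') (I : Finset (Fin W.r)) where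
  card : d + I.card = d'
  lc : ∀ l ∈ I, ∀ j ≤ N, ∀ e, W.α j e l = -(D.m e : ℝ)
  ι : T.T → W.T
  hol : HolM d d' ι
  inj : Function.Injective ι
  imm : ∀ y (e : Chart d T.T) (e' : Chart d' W.T), At e y → At e' (ι y) →
    Function.Injective (fderiv ℂ (fun z => e' (ι (e.symm z))) (e y))
  sub : ∀ y, ∀ l ∈ I, ι y ∈ W.G l
  opn : ∀ y, ∀ᶠ z in 𝓝 (ι y), (∀ l ∈ I, z ∈ W.G l) → z ∈ range ι
  par : Fin T.r → Fin W.r
  par_not : ∀ l, par l ∉ I
  mem : ∀ y l', l' ∉ I → (ι y ∈ W.G l' ↔ ∃ l, par l = l' ∧ y ∈ T.G l)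
  disj : ∀ l₁ l₂, l₁ ≠ l₂ → par l₁ = par l₂ → Disjoint (T.G l₁) (T.G l₂)
  leq : ∀ y l ζ, y ∈ T.G l → LEq d' (W.G (par l)) (ι y) ζ → LEq d (T.G l) y (ζ ∘ ι)
  hp : ∀ j y, T.p j y = W.p j (ι y)
  hM : ∀ e, T.M e = pull ι (W.M e)
  hP : T.P = W.P
  hn : ∀ j e l, T.n j e l = W.n j e (par l)

/-- a tower of models -/
structure Tw (D : Dat) (d : ℕ) where
  T : ∀ j, Pm D j d
  h : ∀ j, Hom (T (j + 1)) (T j)

/-- a tower of strata `T j ⊆ W j`, with dlt models `q j : W (j + 1) → Y j` -/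
structure Tws (D : Dat) (d : ℕ) extends Tw D d where
  W : ∀ j, Pm D j 4
  hW : ∀ j, Hom (W (j + 1)) (W j)
  I : ∀ j, Finset (Fin (W j).r)
  E : ∀ j, Emb (T j) (W j) (I j)
  ovr : ∀ j, (hW j).Over (I j) (I (j + 1))
  comm : ∀ j y, (E j).ι ((h j).π y) = (hW j).π ((E (j + 1)).ι y)
  exc : ∀ j, Finset (Fin (W j).r)
  res : ∀ j, (W j).Res (exc j)
  Y : ℕ → CSp
  q : ∀ j, (W (j + 1)).T → (Y j).pt
  ex : ∀ j, Finset (Fin (W (j + 1)).r)
  dlt : ∀ j, (W (j + 1)).Dlt (Y j) (q j) (ex j)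

end Vale.Agent.P277Z.Glc
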