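import Vale.Agent.P277Z.Glc.Sk
import Vale.Agent.P277Z.Glc.BIso
import Vale.Agent.P277Z.Glc.Pull
import Vale.Agent.P277Z.Slc.Disc
import Vale.Agent.P277Z.Slc.DegC
import Vale.Agent.P277Z.Slc.Bridge
import Vale.Agent.P277Z.Pj.Nrm
import Vale.Agent.P277.H884.PH4a

/-!
# P277, block GLC: the row DISCW
-/

open scoped Manifold ContDiff Topology ComplexOrder
open Vale.Agent.P277 hiding Amin IsFlipR
open Vale.Agent.P277.HD Vale.Agent.P277.PH
open Vale.Agent.P272.K Vale.Agent.P285.H281.FD Set Filter MeasureTheory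
open Vale.Agent.P277Z.Slc (LEq Sig Big Crv dg dZ isDeg IsDiv Ind St)
open Vale.Agent.P277.H762 (Cv)

set_option linter.unusedSectionVars false

noncomputable section

namespace Vale.Agent.P277Z.Glc

namespace Dw

theorem not_big {k d N : ℕ} {T : Set (Cm N)} (h : Cv k T) (hk : k < d) : ¬ Big d T := fun hb => by
  obtain ⟨φ, hφ⟩ := hb.proj
  obtain ⟨y, hy, h1⟩ := hφ (fun s => s ∉ φ '' T) (measure_eq_zero_iff_ae_notMem.1
    (H884.PH.null_of_cv hk (h.image isOpen_univ (subset_univ _) fun z _ => φ.analyticAt z)))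
  exact h1 ⟨y, hy, rfl⟩

theorem big_zero {N : ℕ} {T : Set (Cm N)} (h : T.Nonempty) : Big 0 T :=
  let ⟨y, hy⟩ := h
  ⟨fun _ => y, 0, Eventually.of_forall fun _ => hy, analyticAt_const,
    fun _ _ _ => Subsingleton.elim _ _⟩

variable {d : ℕ} {M : Type} [TopologicalSpace M] [ChartedSpace (Cm d) M]
  [IsManifold 𝓘(ℂ, Cm d) ω M]

/-- the image of a smooth hypersurface is contracted, or it contains a piece of a manifold of the
same dimension -/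
theorem big_of [CompactSpace M] {G : Set M} (hG : ∀ x, ∃ ζ, LEq d G x ζ) (hne : G.Nonempty) {Y : CSp}
    {f : M → Y.pt} (hf : HolX d Y f) (h : ¬ Contr d Y (f '' G)) :
    ∃ (d' N k : ℕ) (V : Set Y.pt) (Ω : Set (Cm N)) (h : Fin k → Cm N → ℂ) (ψ : Y.pt → Cm N),
      d' + 1 = d ∧ IsModel Y.Hol V Ω h ψ ∧ Big d' (ψ '' (V ∩ f '' G)) := by
  obtain ⟨x₀, hx₀⟩ := hne
  have hi : ∀ x ∈ G, ∀ ζ, LEq d G x ζ → Ind d (fun _ : Unit => ζ) x := fun x hx ζ hζ =>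
    ⟨fun _ => hζ.hol, fun e he => linearIndependent_unique_iff.2 ((hζ.2 e he).2 (hζ.mem.2 hx))⟩
  obtain _ | _ | d' := d
  · obtain ⟨ζ, hζ⟩ := hG x₀
    exact absurd (ContinuousLinearMap.ext fun v => by rw [Subsingleton.elim v 0, map_zero, map_zero])
      ((hζ.2 _ (Slc.at_chartAt x₀)).2 (hζ.mem.2 hx₀))
  · obtain ⟨N, k, V, Ω, h, ψ, hx, hM⟩ := Y.model (f x₀)
    exact ⟨0, N, k, V, Ω, h, ψ, rfl, hM, big_zero ⟨_, _, ⟨hx, x₀, hx₀, rfl⟩, rfl⟩⟩
  by_contra hc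
  have : Nonempty Y.pt := ⟨f x₀⟩
  have key : ∀ x ∈ G, ∃ U ∈ 𝓝 x, DimLe Y d' (f '' (U ∩ G)) := fun x hx => by
    obtain ⟨N, k, V, Ω, h, ψ, hV, hM⟩ := Y.model (f x)
    obtain ⟨ζ, hζ⟩ := hG x
    obtain ⟨γ, π, k0, k1, k2, k3, k4, k5, -⟩ := (hi x hx ζ hζ).param (fun _ => hζ.mem.2 hx)
      (d := d' + 1) (by simp [add_comm]) (Slc.at_chartAt x)
    have hγ : Tendsto γ (𝓝 (π x)) (𝓝 x) := by rwa [ContinuousAt, k0] at k2
    have hfV : ∀ᶠ y in 𝓝 x, f y ∈ V := (hf.1.tendsto x).eventually (hM.isOpen.mem_nhds hV)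
    have hT : AnalyticAt ℂ (fun w => ψ (f (γ w))) (π x) :=
      AnalyticAt.pi fun i => k5 _ (hf.2 x _ (hM.isCoord.hol i _ hV))
    obtain ⟨r, hr, hb⟩ := Metric.eventually_nhds_iff_ball.1 (hT.eventually_analyticAt.and
      ((hγ.eventually (hfV.and hζ.1)).and k3))
    have h1 := Pj.Bdd.cv_conn Metric.isOpen_ball (convex_ball (π x) r).isPreconnected
      ⟨_, Metric.mem_ball_self hr⟩ fun z hz => (hb z hz).1
    refine ⟨_, (hfV.and (hζ.1.and k4)).and (k1.eventually (Metric.ball_mem_nhds _ hr)),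
      (Pj.Nrm.dimLe_of_cv hM h1).mono ?_⟩
    rintro _ ⟨y, ⟨⟨⟨a1, a2, a3⟩, a4⟩, a5⟩, rfl⟩
    refine ⟨a1, π y, ⟨a4, fun a6 => hc ⟨d' + 1, N, k, V, Ω, h, ψ, rfl, hM, _, π y, ?_,
      (hb _ a4).1, a6⟩⟩, by simp only [a3 fun _ => a2.2 a5]⟩
    filter_upwards [Metric.isOpen_ball.mem_nhds a4] with w hw
    exact ⟨_, ⟨(hb w hw).2.1.1, _, (hb w hw).2.1.2.1 ((hb w hw).2.2 ()), rfl⟩, rfl⟩
  choose! U hU hD using key
  obtain ⟨s, hs, hc⟩ := (Slc.isClosed_of_leq hG).isCompact.elim_nhds_subcover U hU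
  refine h ⟨d', rfl, (dimLe_biUnion s.countable_toSet fun x hx => hD x (hs x hx)).mono ?_⟩
  rintro _ ⟨y, hy, rfl⟩
  obtain ⟨x, hx, hy'⟩ := mem_iUnion₂.1 (hc hy)
  exact mem_iUnion₂.2 ⟨x, hx, y, ⟨hy', hy⟩, rfl⟩

variable [T2Space M] [SecondCountableTopology M] {r : ℕ} {G : Fin r → Set M}

theorem mon_of {n : Fin r → ℤ} {f : M → ℂ} {y : M} (h : Mon d G n f y) {ζ : Fin r → M → ℂ}
    (hζ : ∀ l, LEq d (G l) y (ζ l)) : ∃ u : M → ℂ, u y ≠ 0 ∧ Hol d u y ∧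
      ∀ᶠ y' in 𝓝 y, y' ∉ ⋃ l, G l → f y' = u y' * ∏ l, ζ l y' ^ n l := by
  obtain ⟨ζ', u, h1, h2, h3, h4⟩ := h
  choose w k1 k2 k3 using fun l => Slc.stUnit d M (G l) y _ _ (hζ l) (h1 l)
  refine ⟨fun y => u y * ∏ l, w l y ^ n l, mul_ne_zero h3 (Finset.prod_ne_zero_iff.2 fun l _ =>
    zpow_ne_zero _ (k2 l)), fun e he => (h2 e he).mul (Slc.Cp.hol_prod k1 k2 n e he), ?_⟩
  filter_upwards [h4, eventually_all.2 k3] with y' a1 a2 a3
  rw [a1 a3, mul_assoc, ← Finset.prod_mul_distrib]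
  simp only [a2, mul_zpow]

/-- the degree of a comparison -/
theorem dg_cmp {O : Fin r → Bd M} {σ : ∀ l, (O l).ι → M → ℂ} (hO : ∀ l, IsDiv d (G l) (O l) (σ l))
    {X : Type} {p : M → X} {L : Bd X} {N : Bd M} {n : Fin r → ℤ} {t : L.ι → N.ι → M → ℂ}
    (h : Cmp d p L N G n t) (hL : IsLB d (pull p L)) (hN : IsLB d N) (C : Crv d M) :
    dg dZ C N = dg dZ C (pull p L) + ∑ l, n l * dg dZ C (O l) :=
  Slc.stCmp _ isDeg d M _ G O σ univ (pull p L) N n t hO isOpen_univ hL hN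
    (fun y _ => ⟨_, fun l => ((hO l).ex y).choose_spec, fun i j hi hj =>
      mon_of (h.div y i j hi hj) fun l => ((hO l).ex y).choose_spec⟩)
    (fun y _ => h.change y) C (subset_univ _)

theorem lb_mul {L N : Bd M} (hL : IsLB d L) (hN : IsLB d N) : IsLB d (L.mul N) where
  isOpen i := (hL.isOpen i.1).inter (hN.isOpen i.2)
  cover x := ⟨((hL.cover x).choose, (hN.cover x).choose), (hL.cover x).choose_spec,
    (hN.cover x).choose_spec⟩
  holo i j e x he hi hj := (hL.holo i.1 j.1 e x he hi.1 hj.1).mul (hN.holo i.2 j.2 e x he hi.2 hj.2)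
  ne_zero i j x hi hj :=
    mul_ne_zero (hL.ne_zero i.1 j.1 x hi.1 hj.1) (hN.ne_zero i.2 j.2 x hi.2 hj.2)
  cocycle i j k x hi hj hk := (mul_mul_mul_comm _ _ _ _).trans (congrArg₂ (· * ·)
    (hL.cocycle i.1 j.1 k.1 x hi.1 hj.1 hk.1) (hN.cocycle i.2 j.2 k.2 x hi.2 hj.2 hk.2))

theorem lb_pow {L : Bd M} (hL : IsLB d L) (k : ℕ) : IsLB d (L.pow k) where
  isOpen := hL.isOpen
  cover := hL.cover
  holo i j e x he hi hj := (hL.holo i j e x he hi hj).pow k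
  ne_zero i j x hi hj := pow_ne_zero k (hL.ne_zero i j x hi hj)
  cocycle i j l x hi hj hl :=
    (mul_pow _ _ _).symm.trans (congrArg (· ^ k) (hL.cocycle i j l x hi hj hl))

theorem lb_inv {L : Bd M} (hL : IsLB d L) : IsLB d (Bd.inv L) where
  isOpen := hL.isOpen
  cover := hL.cover
  holo i j e x he hi hj := (hL.holo i j e x he hi hj).inv (by
    rw [e.left_inv he.2]; exact hL.ne_zero i j x hi hj)
  ne_zero i j x hi hj := inv_ne_zero (hL.ne_zero i j x hi hj)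
  cocycle i j l x hi hj hl :=
    (mul_inv _ _).symm.trans (congrArg (·⁻¹) (hL.cocycle i j l x hi hj hl))

end Dw

open Dw

/-- the degree of the crepant formula on a curve which is contracted in `X j` -/
theorem Pm.dg_eq {D : Dat} {N d : ℕ} (W : Pm D N d) {O : Fin W.r → Bd W.T}
    {σ : ∀ l, (O l).ι → W.T → ℂ} (hO : ∀ l, IsDiv d (W.G l) (O l) (σ l)) {j : ℕ} (hj : j ≤ N)
    (C : Crv d W.T) (hC : ∀ p p', W.p j (C.ι p) = W.p j (C.ι p')) :
    (dg dZ C (Bd.can d W.T) : ℝ) + ∑ e, D.ρ e * dg dZ C (W.M e) =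
      ∑ l, W.a j l * dg dZ C (O l) := by
  have : SecondCountableTopology W.T := ChartedSpace.secondCountable_of_sigmaCompact (Cm d) _
  have hK : IsLB d (Bd.can d W.T) := Slc.isLB_can
  have h1 : ∀ e, (D.m e : ℝ) * dg dZ C (Bd.can d W.T) + dg dZ C (W.M e) =
      ∑ l, W.α j e l * dg dZ C (O l) := fun e => by
    obtain ⟨t, ht⟩ := W.cmp j hj e
    have hL := lb_pow ((D.S.flip j).lb e) (W.P j e)
    have hN : IsLB d (W.NB e) := Dw.lb_mul (Dw.lb_pow hK _) (W.lb e)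
    have h2 := dg_cmp hO ht ((W.hol j hj).lb hL) (Dw.lb_pow hN _) C
    rw [(Slc.dg_const C hL hC).2, zero_add, Slc.dg_pow C (Slc.isLB_pull C hN), Pm₀.NB,
      Slc.dg_mul C (Slc.isLB_pull C (Dw.lb_pow hK _)) (Slc.isLB_pull C (W.lb e)),
      Slc.dg_pow C (Slc.isLB_pull C hK)] at h2
    have h3 : (W.P j e : ℝ) * D.S.c j e ≠ 0 := mul_ne_zero
      (Nat.cast_ne_zero.2 (Nat.one_le_iff_ne_zero.1 (W.hP j e)))
      (Nat.cast_ne_zero.2 (Nat.one_le_iff_ne_zero.1 (D.S.hc j e)))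
    have h4 := congrArg (Int.cast : ℤ → ℝ) h2
    push_cast at h4
    refine mul_left_cancel₀ h3 (h4.trans ?_)
    rw [Finset.mul_sum]
    refine Finset.sum_congr rfl fun l _ => ?_
    rw [Pm₀.α, ← mul_assoc, mul_div_cancel₀ _ h3]
  have h2 : ∑ l, W.a j l * dg dZ C (O l) = ∑ e, D.ρ e * ∑ l, W.α j e l * dg dZ C (O l) := by
    simp only [Pm₀.a, Finset.sum_mul, Finset.mul_sum, mul_assoc]
    exact Finset.sum_comm
  simp only [h2, ← h1, mul_add, Finset.sum_add_distrib, ← mul_assoc, ← Finset.sum_mul, D.sum,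
    one_mul]

theorem Emb.a_eq {D : Dat} {N d d' : ℕ} {T : Pm D N d} {W : Pm D N d'} {I : Finset (Fin W.r)}
    (E : Emb T W I) (j : ℕ) (l : Fin T.r) : T.a j l = W.a j (E.par l) := by
  simp only [Pm₀.a, Pm₀.α, E.hn, E.hP]

theorem Emb.a_mem {D : Dat} {N d d' : ℕ} {T : Pm D N d} {W : Pm D N d'} {I : Finset (Fin W.r)}
    (E : Emb T W I) {j : ℕ} (hj : j ≤ N) {l : Fin W.r} (hl : l ∈ I) : W.a j l = -1 := by
  simp only [Pm₀.a, E.lc l hl j hj, mul_neg, Finset.sum_neg_distrib, D.sum]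

theorem discW : StDiscW := by
  intro D N d T W I E Y q ex B hd hB hρ hex l hl
  have : SecondCountableTopology W.T := ChartedSpace.secondCountable_of_sigmaCompact (Cm 4) _
  have hq : HolX 4 Y q := ⟨hd.res.cont, hd.res.hol⟩
  obtain ⟨d', N', k, V, Ω, h, ψ, hd', hM, hbig⟩ := big_of
    (fun x => ⟨_, (Slc.snc_of_isSnc T.snc x).choose_spec.1 l⟩) (T.connG l).nonempty
    (hq.comp E.hol) hl
  obtain ⟨O, σ, hO⟩ := Slc.exists_div W.toMf.lg
  obtain ⟨P, c, τ, hP, hamp, hc, hdiv⟩ := hd.res.amp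
  obtain ⟨g, -, hg⟩ := hd.fac
  rw [E.a_eq]
  refine Slc.stDisc _ isDeg 4 W.T _ W.G O σ N' (q ⁻¹' V) (fun y => ψ (q y)) (fun l => -W.a N l)
    (fun l => c l) ex B (Slc.snc_of_isSnc W.snc) hO (hM.isOpen.preimage hq.1)
    (fun x hx i => hq.2 x _ (hM.isCoord.hol i _ hx)) (fun y => ?_) hB
    (fun l => neg_le.1 (W.lc' le_rfl l)) (fun l => Nat.cast_nonneg _)
    (fun l => Nat.cast_pos.trans (hc l)) hex (fun l hl d hd' => ?_)
    (fun x hx x' hx' h1 _ h2 => (hd.res.inj x x' (by simpa using h1)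
      (hM.injOn hx' hx h2.symm)).symm) (fun C y hC => ?_) I (E.par l) d'
    (fun l hl => ⟨by rw [E.a_mem le_rfl hl, neg_neg], fun h => (hd.klt l h).ne' (E.a_mem le_rfl hl)⟩)
    (E.par_not l) (by have := E.card; omega) (hbig.mono ?_)
  · by_cases hy : ∃ z ∈ V, ψ z = y
    · obtain ⟨z, hz, rfl⟩ := hy
      have : q ⁻¹' V ∩ (fun y => ψ (q y)) ⁻¹' {ψ z} = q ⁻¹' {z} :=
        Set.ext fun x => ⟨fun hx => hM.injOn hx.1 hz hx.2, fun hx => by
          obtain rfl : q x = z := hx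
          exact ⟨hz, rfl⟩⟩
      rw [this]
      exact (isClosed_singleton.preimage hq.1).isCompact
    · exact Set.Finite.isCompact (finite_empty.subset fun x hx => hy ⟨_, hx.1, hx.2⟩)
  · refine not_big ((Pj.Nrm.cv_of_dimLe hM hd.res.dim).mono ?_) (by omega)
    rintro _ ⟨x, hx, rfl⟩
    exact ⟨_, ⟨hx.1, x, mem_iUnion₂.2 ⟨l, hl, hx.2⟩, rfl⟩, rfl⟩
  · have hq' : ∀ p p', q (C.ι p) = q (C.ι p') := fun p p' =>
      hM.injOn (hC p).1 (hC p').1 ((hC p).2.trans (hC p').2.symm)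
    have h1 := W.dg_eq hO le_rfl C fun p p' => by rw [← hg, ← hg, hq' p p']
    refine ⟨⟨∑ e, D.ρ e * dg dZ C (W.M e), sum_mem fun e _ => ?_, ?_⟩, ?_⟩
    · obtain ⟨m, hm⟩ := Int.eq_ofNat_of_zero_le
        (Slc.dg_nef C W.kahler.toIsHermitian (W.lb e) (W.nef e))
      rw [hm, Int.cast_natCast, mul_comm, ← nsmul_eq_mul]
      exact nsmul_mem (AddSubmonoid.subset_closure (hρ e)) _
    · simp only [neg_mul, Finset.sum_neg_distrib]
      linarith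
    · have h2 := Slc.dg_of_isDiv isDeg hO (Dw.lb_inv hP) hdiv C
      rw [Slc.dg_inv C (Slc.isLB_pull C hP)] at h2
      have h3 := Slc.dg_relAmple C hP hamp hq'
      have h4 := congrArg (Int.cast : ℤ → ℝ) h2
      have h5 : (0 : ℝ) < dg dZ C P := Int.cast_pos.2 h3
      push_cast at h4
      linarith
  · rintro _ ⟨_, ⟨hz, y, hy, rfl⟩, rfl⟩
    exact ⟨E.ι y, ⟨⟨hz, E.sub y⟩, (E.mem y _ (E.par_not l)).2 ⟨l, rfl, hy⟩⟩, rfl⟩

end Vale.Agent.P277Z.Glc
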