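import Vale.Agent.P277Z.Glc.Str

/-!
# P277, block GLC: codimension one (section 5)
-/

open scoped Topology
open Vale.Agent.P277 hiding Amin IsFlipR
open Vale.Agent.P277.HD Set Filter
open Vale.Agent.P277Z.Slc (Sig)
open P277Z.Glc (Disc)

noncomputable section

namespace Vale.Agent.P277Z.Glc

variable {D : Dat} {d : ℕ}

theorem disc_sig {B : Set ℝ} (h : Disc B) : ∀ j, Disc (Sig B j)
  | 0 => h
  | j + 1 => ((disc_sig h j).union h).step

/-- the coefficients of the components which are not contracted on the dlt models -/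
theorem Tws.coef (H : HM) (hD : StDiscW) (S : Tws D d) (hE : (S.W 0).Eff) :
    ∃ B : Set ℝ, Disc B ∧ ∀ j l, ¬ Contr d (S.Y j)
      ((fun y => S.q j ((S.E (j + 1)).ι y)) '' (S.T (j + 1)).G l) →
      -(S.T (j + 1)).a (j + 1) l ∈ B := by
  obtain ⟨K, -⟩ := exists_comp H (ν := fun j => j) S.W S.hW
  set B : Set ℝ := insert 0 (insert 1 (range D.ρ ∪
    (fun l => -(S.W 0).a 0 l) '' {l | ¬ (S.W 0).Exc 0 l})) with hB
  have h1 : Disc B := by
    refine .of_finite (((finite_range _).union (toFinite _)).insert _ |>.insert _) ?_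
    rintro x (rfl | rfl | ⟨e, rfl⟩ | ⟨l, hl, rfl⟩)
    exacts [le_rfl, zero_le_one, (D.pos e).le, neg_nonneg.2 (hE l hl)]
  refine ⟨Sig B (4 - d), disc_sig h1 _, fun j l hl => ?_⟩
  have h2 : 4 - d = (S.I (j + 1)).card := by
    have := (S.E (j + 1)).card
    omega
  rw [h2]
  refine hD D _ d _ _ _ (S.E (j + 1)) _ _ _ B (S.dlt j) h1
    (fun e => Or.inr (Or.inr (Or.inl ⟨e, rfl⟩))) (fun k hk => ?_) l hl
  rcases (S.dlt j).nex k hk with e | e
  · exact Or.inr (Or.inl (by rw [e, neg_neg]))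
  · rcases (K (j + 1)).nexc H.pre H.jac H.thin H.exc e with e | ⟨k', e1, e2⟩
    · exact Or.inl (by rw [e, neg_zero])
    · exact Or.inr (Or.inr (Or.inr ⟨k', e1, by rw [e2]⟩))

theorem fin_jump {v : ℕ → ℝ} (hv : ∀ j, v j ≤ v (j + 1)) {F : Set ℝ} (hF : F.Finite) :
    {j | v j < v (j + 1) ∧ v (j + 1) ∈ F}.Finite := by
  have hm : Monotone v := monotone_nat_of_le_succ hv
  refine Finite.of_finite_image (f := fun j => v (j + 1)) (hF.subset ?_) ?_
  · rintro _ ⟨j, hj, rfl⟩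
    exact hj.2
  · intro i hi j hj e
    by_contra hne
    rcases lt_or_gt_of_ne hne with h | h
    · exact ((hm h).trans_lt hj.1).ne e
    · exact ((hm h).trans_lt hi.1).ne' e

theorem Tws.ctr (H : HM) (hD : StDiscW) (S : Tws D d) (hE : (S.W 0).Eff) (hG : (S.T 0).Gd)
    (hu : (S.T 0).Unh) : ∃ J, ∀ j ≥ J, S.Ctr j := by
  obtain ⟨B, hB, hc⟩ := S.coef H hD hE
  obtain ⟨K, -, k0, hK⟩ := exists_comp H (ν := fun j => j) S.T S.h
  choose s hs using fun j l => (H.uniq _ _ _ (K j).toMd l).exists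
  have s1 : ∀ j l, (S.h j).ST (s j l) (s (j + 1) l) := fun j l => by
    obtain ⟨l', h1, h2⟩ := (st_comp H.jac (hK j).o (hK j).J).1 (hs (j + 1) l)
    exact (H.uniq _ _ _ (K j).toMd l).unique h1 (hs j l) ▸ h2
  set v : Fin (S.T 0).r → ℕ → ℝ := fun l j => (S.T j).a j (s j l) with hv
  have v1 : ∀ l j, v l j = (S.T (j + 1)).a j (s (j + 1) l) := fun l j =>
    ((S.h j).a_st H.jac (s1 j l) le_rfl).symm
  have v2 : ∀ l j, v l j ≤ v l (j + 1) := fun l j =>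
    (v1 l j).trans_le ((S.T (j + 1)).mono j j.lt_succ_self _)
  have hf : (⋃ l ∈ {l | (S.T 0).a 0 l ≠ -1}, {j | v l j < v l (j + 1) ∧
      v l (j + 1) ∈ Neg.neg '' {x ∈ B | x ≤ 1 - (1 + (S.T 0).a 0 l)}}).Finite :=
    (toFinite _).biUnion fun l hl => fin_jump (v2 l) ((hB.2 _
      (by linarith [lt_of_le_of_ne ((S.T 0).lc l) (Ne.symm hl)])).image _)
  obtain ⟨J, hJ⟩ := hf.bddAbove
  refine ⟨J + 1, fun j hj l' hl' => ?_⟩
  by_contra hn
  have h1 := hc j l' hn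
  have h2 : (S.T (j + 1)).a 0 l' ≤ (S.T (j + 1)).a j l' :=
    (S.T (j + 1)).mono' l' (Nat.zero_le j) j.le_succ
  obtain ⟨l, h3, h4⟩ := (K (j + 1)).loc H.pre H.jac hG (l' := l')
    (by linarith [hB.1 _ h1]) fun l hl => by
      by_contra ho
      obtain ⟨y, hy⟩ := ((S.T (j + 1)).connG l').nonempty
      have h5 := hu l hl _ ((K (j + 1)).sub H.pre ho hy)
      rw [(K (j + 1)).hp 0 le_rfl] at h5
      have h6 := (S.T (j + 1)).const j j.lt_succ_self l' ⟨y, hy, (S.T (j + 1)).not_fl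
        (Dat.not_hit.1 h5 (j + 1)) j j.lt_succ_self j.le_succ⟩
      simp only [Pm₀.a, h6, lt_irrefl] at hl'
  obtain rfl := (H.uniq _ _ _ (K (j + 1)).toMd l).unique h4 (hs (j + 1) l)
  have h5 := (K (j + 1)).a_st H.jac h4 le_rfl
  have h6 : j ≤ J := hJ (mem_biUnion (x := l) h3 ⟨by rwa [v1], _, ⟨h1, by linarith⟩, neg_neg _⟩)
  omega

theorem Tws.eff (H : HM) (hD : StDiscW) (S : Tws D 3) (hE : (S.W 0).Eff) :
    ∀ j ≥ 1, ∀ l, ¬ DimLe (D.S.X j) 1 ((S.T j).p j '' (S.T j).G l) → (S.T j).a j l ≤ 0 := by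
  obtain ⟨B, hB, hc⟩ := S.coef H hD hE
  intro j hj l hl
  obtain ⟨j, rfl⟩ : ∃ i, j = i + 1 := ⟨j - 1, by omega⟩
  refine neg_nonneg.1 (hB.1 _ (hc j l fun ⟨k, h1, h2⟩ => hl ?_))
  obtain rfl : k = 1 := by omega
  obtain ⟨g, h3, h4⟩ := (S.dlt j).fac
  refine (h2.image fun z _ => h3 z).mono ?_
  rintro _ ⟨y, hy, rfl⟩
  exact ⟨_, ⟨y, hy, rfl⟩, (h4 _).trans ((S.E (j + 1)).hp _ y).symm⟩

/-- the claim for one tower of strata -/
theorem Tws.off (H : HM) (hD : StDiscW) (h6 : StSix) (h7 : StSBr) (S : Tws D d) (hd : d ≤ 3)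
    (hE : (S.W 0).Eff) (hG : (S.T 0).Gd) (hu : (S.T 0).Unh) : ∃ J, S.Off J := by
  obtain ⟨J, hJ⟩ := S.ctr H hD hE hG hu
  rcases h6 D d S J hd hJ with h | ⟨rfl, J', h⟩
  · exact h
  · obtain ⟨K, -⟩ := exists_comp H (ν := fun j => j) S.T S.h
    exact h7 D S J' h (S.eff H hD hE) fun j l hl y hy => (S.T j).not_hit_shift le_rfl
      ((K j).unh H.pre H.jac hu ((S.T j).lc_of (Nat.zero_le j) le_rfl hl) hy)

end Vale.Agent.P277Z.Glc
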