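import Vale.Agent.P277Z.Glc.Lift0
import Vale.Agent.P277.H371.C.FlipB
import Vale.Agent.P277.HD.Conv

/-!
# P277, block GLC: a flip away from `N` lifts to a modification along `N`
-/

open scoped Manifold ContDiff Topology
open Vale.Agent.P277 Vale.Agent.P277.HD
open Vale.Agent.P272.K Vale.Agent.P285.H281.FD Set Filter

noncomputable section

namespace Vale.Agent.P277Z.Glc

variable {Y Y' X Z X' : CSp}

/-- the line bundle which is `κ^* P` over `W` and trivial over `T` -/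
def trBd {Y Y' : Type} (P : Bd Y) (τ : P.ι → Y → ℂ) (κ : Y' → Y) (W T : Set Y') : Bd Y' where
  ι := Option P.ι
  U a := match a with
    | none => T
    | some i => W ∩ κ ⁻¹' P.U i
  g a b y := match a, b with
    | none, none => 1
    | none, some i => (τ i (κ y))⁻¹
    | some i, none => τ i (κ y)
    | some i, some j => P.g i j (κ y)

theorem lb_trBd {P : Bd Y.pt} (hP : IsLBx Y P) {V : Set Y.pt} {τ : P.ι → Y.pt → ℂ}
    (hτ : IsSecx Y V P τ) (hτ' : ∀ i, ∀ y ∈ V, y ∈ P.U i → τ i y ≠ 0) {κ : Y'.pt → Y.pt}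
    {W T : Set Y'.pt} (hκ : LocIso Y' Y W κ) (hT : IsOpen T) (hWT : ∀ y, y ∉ T → y ∈ W)
    (hV : ∀ y ∈ W, y ∈ T → κ y ∈ V) : IsLBx Y' (trBd P τ κ W T) where
  isOpen a := by
    rcases a with _ | i
    · exact hT
    · exact hκ.cont.isOpen_inter_preimage hκ.isOpen (hP.isOpen i)
  cover y := by
    by_cases h : y ∈ T
    · exact ⟨none, h⟩
    · obtain ⟨i, hi⟩ := hP.cover (κ y)
      exact ⟨some i, hWT y h, hi⟩
  holo a b y ha hb := by
    rcases a with _ | i <;> rcases b with _ | j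
    · exact hol_const 1 y
    · exact hol_inv ((hκ.holMap hb.1).2 _ (hτ.holo j _ (hV y hb.1 ha) hb.2))
        (hτ' j _ (hV y hb.1 ha) hb.2)
    · exact (hκ.holMap ha.1).2 _ (hτ.holo i _ (hV y ha.1 hb) ha.2)
    · exact (hκ.holMap ha.1).2 _ (hP.holo i j _ ha.2 hb.2)
  ne_zero a b y ha hb := by
    rcases a with _ | i <;> rcases b with _ | j
    · exact one_ne_zero
    · exact inv_ne_zero (hτ' j _ (hV y hb.1 ha) hb.2)
    · exact hτ' i _ (hV y ha.1 hb) ha.2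
    · exact hP.ne_zero i j _ ha.2 hb.2
  cocycle a b c y ha hb hc := by
    rcases a with _ | i <;> rcases b with _ | j <;> rcases c with _ | l
    · exact mul_one _
    · exact one_mul _
    · exact inv_mul_cancel₀ (hτ' j _ (hV y hb.1 ha) hb.2)
    · change (τ j (κ y))⁻¹ * P.g j l (κ y) = (τ l (κ y))⁻¹
      rw [hτ.change j l _ (hV y hb.1 ha) hb.2 hc.2, mul_inv, mul_right_comm,
        inv_mul_cancel₀ (hP.ne_zero j l _ hb.2 hc.2), one_mul]
    · exact mul_one _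
    · change τ i (κ y) * (τ l (κ y))⁻¹ = P.g i l (κ y)
      rw [hτ.change i l _ (hV y ha.1 hb) ha.2 hc.2,
        mul_inv_cancel_right₀ (hτ' l _ (hV y ha.1 hb) hc.2)]
    · exact (hτ.change i j _ (hV y ha.1 hc) ha.2 hb.2).symm
    · exact hP.cocycle i j l _ ha.2 hb.2 hc.2

theorem triv_trBd {P : Bd Y.pt} {τ : P.ι → Y.pt → ℂ} {κ : Y'.pt → Y.pt} {W T : Set Y'.pt}
    (h : IsLBx Y' (trBd P τ κ W T)) : TrivOn Y' T (trBd P τ κ W T) :=
  ⟨fun a => (trBd P τ κ W T).g a none, ⟨fun a y hy ha => h.holo a none y ha hy,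
    fun a b y hy ha hb => (h.cocycle a b none y ha hb hy).symm⟩,
    fun a y hy ha => h.ne_zero a none y ha hy⟩

theorem flipR_amin {k : ℕ} {f : X.pt → Z.pt} {f' : X'.pt → Z.pt} {A : Set Z.pt}
    {L : Fin k → Bd X.pt} {L' : Fin k → Bd X'.pt} {c c' : Fin k → ℕ} {ρ : Fin k → ℝ}
    (h : HD.IsFlipR X Z X' f f' A L L' c c' ρ) (hc : ∀ e, 1 ≤ c e) :
    HD.IsFlipR X Z X' f f' (HD.Amin f) L L' c c' ρ :=
  have h1 := H371.C.IsFlipR.amin h.old hc
  ⟨h1.normal, h1.normalZ, h1.normal', h1.small, h1.small', h1.ninj, h1.ninj', h1.lb, h1.lb', h1.iso,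
    h1.ample, h1.ample'⟩

theorem liftFam_last {k : ℕ} {Y X : Type} (q : Y → X) (L : Fin k → Bd X) (P : Bd Y) :
    liftFam q L P (Fin.last k) = P := by simp only [liftFam, Fin.snoc_last]

theorem liftFam_cast {k : ℕ} {Y X : Type} (q : Y → X) (L : Fin k → Bd X) (P : Bd Y) (e : Fin k) :
    liftFam q L P e.castSucc = pull q (L e) := by simp only [liftFam, Fin.snoc_castSucc]

theorem lb_liftFam {k : ℕ} {q : Y.pt → X.pt} (hq : ∀ y, HolMap Y X q y) {L : Fin k → Bd X.pt}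
    (hL : ∀ e, IsLBx X (L e)) {P : Bd Y.pt} (hP : IsLBx Y P) (e : Fin (k + 1)) :
    IsLBx Y (liftFam q L P e) := by
  refine Fin.lastCases ?_ (fun e => ?_) e
  · simpa only [liftFam, Fin.snoc_last] using hP
  · simpa only [liftFam, Fin.snoc_castSucc] using lb_pull (hL e) hq

theorem sim_liftFam {k : ℕ} (q : Y.pt → X.pt) (L : Fin k → Bd X.pt) {P : Bd Y.pt} {W : Set Y.pt}
    (hP : TrivOn Y W P) (n : Fin (k + 1) → ℤ) :
    Sim Y W (pull q (HD.Bd.lin L fun e => n e.castSucc)) (HD.Bd.lin (liftFam q L P) n) :=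
  Sim.lin (M := fun e => pull q (L e)) (Q := liftFam q L P)
    (fun e => by simpa only [liftFam, Fin.snoc_castSucc] using Sim.refl W (pull q (L e)))
    (by simpa only [liftFam, Fin.snoc_last] using hP) n

theorem lift1 (hS : StSurg) : StLift1 := by
  intro k X Z X' f f' A₀ L L' c c' ρ hc hc' h₀ Y q N P ε hY hq hN hP hPt
  have h := flipR_amin h₀ hc
  set A := HD.Amin f
  have hf := locIso_of_small h.small
  have hNf : f ⁻¹' (f '' N) = N := by
    refine Subset.antisymm ?_ (subset_preimage_image f N)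
    rintro x ⟨x', hx', e⟩
    rwa [h.small.inj x' x (hN x' hx') e.symm]
  have disj : ∀ z ∈ f '' N, z ∉ A := by
    rintro _ ⟨x, hx, rfl⟩
    exact hN x hx
  obtain ⟨Z₁, q₁, j₁, off₁, iso₁, img₁, comm₁⟩ := hS Y X Z q N (f ⁻¹' Aᶜ) f hq hN hf
  rw [image_preimage_eq _ h.small.surj] at img₁
  have hs : LocIso Z X' Aᶜ h.small'.sec := by
    have h1 := (locIso_of_small h.small').symm fun x hx => h.small'.sec_apply hx
    rwa [image_preimage_eq _ h.small'.surj] at h1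
  have himg : ∀ S : Set X.pt, (∀ x ∈ S, f x ∉ A) →
      (h.small'.sec ∘ f) '' S = f' ⁻¹' (f '' S) := by
    intro S hS
    ext x'
    constructor
    · rintro ⟨x, hx, rfl⟩
      exact ⟨x, hx, (h.small'.sec_eq _).symm⟩
    · rintro ⟨x, hx, e⟩
      exact ⟨x, hx, by rw [Function.comp_apply, e, h.small'.sec_apply (e ▸ hS x hx)]⟩
  obtain ⟨Y', q', j', off', iso', img', comm'⟩ :=
    hS Y X X' q N (f ⁻¹' Aᶜ) (h.small'.sec ∘ f) hq hN (hs.comp hf fun x hx => hx)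
  rw [himg N hN] at off'
  rw [himg (f ⁻¹' Aᶜ) fun x hx => hx, image_preimage_eq _ h.small.surj] at img'
  have comm'' : ∀ y, f (q y) ∉ A → f' (q' (j' y)) = f (q y) := fun y hy => by
    rw [comm' y hy, Function.comp_apply, h.small'.sec_eq]
  have : Nonempty Y.pt := hY.sing.nonempty
  obtain ⟨κ, hκ, isoκ⟩ := iso'.exists_inv
  have hκW : MapsTo κ (j' '' (q ⁻¹' (f ⁻¹' Aᶜ))) (q ⁻¹' (f ⁻¹' Aᶜ)) := by
    rintro _ ⟨y, hy, rfl⟩
    rwa [hκ y hy]
  obtain ⟨F, H, hF⟩ := exists_lData (hNf.symm ▸ hq) off₁ h.small disj iso₁ img₁ comm₁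
  obtain ⟨F', H', hF'⟩ := exists_lData off' off₁ h.small' disj (j := j₁ ∘ κ)
    (img' ▸ iso₁.comp isoκ hκW) (by
      rw [← img', ← image_comp, ← img₁]
      exact image_congr fun y hy => by simp only [Function.comp, hκ y hy]) (by
      intro y' hy'
      obtain ⟨y, hy, rfl⟩ := img'.symm.subset hy'
      rw [Function.comp_apply, hκ y hy, comm₁ y hy, comm'' y hy])
  have hY' : IsNormal 4 Y' := by
    have : Nonempty Y'.pt := this.map j'
    refine isNormal_of_cover fun y' => ?_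
    by_cases hy' : f' (q' y') ∈ A
    · obtain ⟨σ, -, h2, h3⟩ := off'.exists_sec
      have h4 : q' y' ∉ f' ⁻¹' (f '' N) := fun h5 => disj _ h5 hy'
      exact ⟨X', _, σ, h.normal', h3, q' y', h4, h2 y' h4⟩
    · exact ⟨Y, _, j', hY, iso', img'.symm.subset hy'⟩
  have hPt' := hPt
  obtain ⟨τ, hτ, hτ'⟩ := hPt'
  have hP' : IsLBx Y' (trBd P τ κ (j' '' (q ⁻¹' (f ⁻¹' Aᶜ))) (q' ⁻¹' (f' ⁻¹' (f '' N))ᶜ)) :=
    lb_trBd hP hτ hτ' isoκ off'.iso.isOpen
      (fun y' hy' => img'.symm.subset (disj _ (not_not.1 hy'))) (by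
        rintro _ ⟨y, hy, rfl⟩ h1
        rw [hκ y hy]
        exact fun h2 => h1 ⟨_, h2, (comm'' y hy).symm⟩)
  have corr : ∀ y y', F y ∉ q₁ ⁻¹' A → F' y' = F y → f (q y) ∉ A ∧ y' = j' y := by
    intro y y' hy e
    have h1 : f (q y) ∉ A := by rwa [← H.comm]
    have h2 : F' (j' y) = F y := by
      rw [hF' _ (by rwa [comm'' y h1]), hF y h1, Function.comp_apply, hκ y h1]
    exact ⟨h1, H'.isSmall.inj _ _ (h2 ▸ hy) (e.trans h2.symm)⟩
  refine ⟨Z₁, Y', F, F', q₁ ⁻¹' A, q', _, off', hP', triv_trBd hP', hY,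
    H.normal hY h.normalZ, hY', H.isSmall, H'.isSmall, H.ninj h.ninj, H'.ninj h.ninj',
    lb_liftFam hq.hol h.lb hP, lb_liftFam off'.hol h.lb' hP', fun e => ?_, ?_, ?_⟩
  · refine Fin.lastCases ?_ (fun e => ?_) e
    · rw [liftFam_last, liftFam_last, Fin.snoc_last, Fin.snoc_last]
      refine ⟨1, 1, le_rfl, le_rfl, rfl, fun i b z => (trBd P τ κ (j' '' (q ⁻¹' (f ⁻¹' Aᶜ)))
        (q' ⁻¹' (f' ⁻¹' (f '' N))ᶜ)).g b (some i) (H'.isSmall.sec z),
        fun y y' i b hy e hi hb => ?_, fun y y' i i₁ b b₁ hy e hi hi₁ hb hb₁ => ?_⟩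
      · obtain ⟨h1, h2⟩ := corr y y' hy e
        have h3 : H'.isSmall.sec (F y) = y' := by rw [← e, H'.isSmall.sec_apply (e ▸ hy)]
        have h4 : y' ∈ j' '' (q ⁻¹' (f ⁻¹' Aᶜ)) ∩ κ ⁻¹' P.U i :=
          ⟨⟨y, h1, h2.symm⟩, by rw [h2, mem_preimage, hκ y h1]; exact hi⟩
        exact ⟨(H'.isSmall.holMap_sec hy).2 _ (by rw [h3]; exact hP'.holo b (some i) y' hb h4),
          by rw [h3]; exact hP'.ne_zero b (some i) y' hb h4⟩
      · obtain ⟨h1, h2⟩ := corr y y' hy e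
        have h3 : H'.isSmall.sec (F y) = y' := by rw [← e, H'.isSmall.sec_apply (e ▸ hy)]
        have h5 : κ y' = y := by rw [h2, hκ y h1]
        have h4 : ∀ i, y ∈ P.U i → y' ∈ j' '' (q ⁻¹' (f ⁻¹' Aᶜ)) ∩ κ ⁻¹' P.U i := fun i hi =>
          ⟨⟨y, h1, h2.symm⟩, by rw [mem_preimage, h5]; exact hi⟩
        have h6 := hP'.cocycle b (some i) (some i₁) y' hb (h4 i hi) (h4 i₁ hi₁)
        have h7 := hP'.cocycle b₁ b (some i₁) y' hb₁ hb (h4 i₁ hi₁)
        have h8 : (trBd P τ κ (j' '' (q ⁻¹' (f ⁻¹' Aᶜ))) (q' ⁻¹' (f' ⁻¹' (f '' N))ᶜ)).g (some i)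
          (some i₁) y' = P.g i i₁ y := by rw [← h5]; rfl
        simp only [h3, Bd.pow, pow_one]
        rw [← h7, ← h6, h8]
        ring
    · rw [liftFam_cast, liftFam_cast, Fin.snoc_castSucc, Fin.snoc_castSucc]
      obtain ⟨a, b, ha, hb, hab, t, ht⟩ := h.iso e
      refine ⟨a, b, ha, hb, hab, fun i j z => t i j (q₁ z), fun y y' i j hy e hi hj => ?_,
        fun y y' i i₁ j j₁ hy e hi hi₁ hj hj₁ => ?_⟩
      · have h1 := ht.holo (q y) (q' y') i j (corr y y' hy e).1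
          (by rw [← H'.comm, e, H.comm]) hi hj
        rw [← H.comm] at h1
        exact ⟨(off₁.hol _).2 _ h1.1, h1.2⟩
      · have h1 := ht.change (q y) (q' y') i i₁ j j₁ (corr y y' hy e).1
          (by rw [← H'.comm, e, H.comm]) hi hi₁ hj hj₁
        rw [← H.comm] at h1
        exact h1
  · obtain ⟨δ, hδ, ha⟩ := h.ample
    refine ⟨δ, hδ, fun n d hd hn => H.relAmple (lb_inv (lb_lin (lb_liftFam hq.hol h.lb hP) n))
      (M := Bd.inv (HD.Bd.lin L fun e => n e.castSucc)) ?_ (ha _ d hd fun e => ?_)⟩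
    · rw [hNf]
      exact (sim_liftFam q L hPt n).inv
    · simpa only [Fin.snoc_castSucc] using hn e.castSucc
  · obtain ⟨δ, hδ, ha⟩ := h.ample'
    refine ⟨δ, hδ, fun n d hd hn => H'.relAmple (lb_lin (lb_liftFam off'.hol h.lb' hP') n)
      (sim_liftFam q' L' (triv_trBd hP') n) (ha _ d hd fun e => ?_)⟩
    simpa only [Fin.snoc_castSucc] using hn e.castSucc

end Vale.Agent.P277Z.Glc
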