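import Vale.Agent.P277Z.Glc.Sk
import Vale.Agent.P277Z.Glc.Lift1

/-!
# P277, block GLC: the points which are hit by the flips
-/

open Vale.Agent.P277 hiding Amin IsFlipR
open Vale.Agent.P277.HD Set

noncomputable section

namespace Vale.Agent.P277Z.Glc

variable {D : Dat} {N d : ℕ}

/-- the correspondence between `X 0` and `X j` -/
abbrev Dat.Cr (D : Dat) (j : ℕ) (x : (D.S.X 0).pt) (x' : (D.S.X j).pt) : Prop :=
  Cor ∅ (fun x : (D.S.X 0).pt => x) D.S.f D.S.f' j x x'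

theorem Dat.cr_unique (D : Dat) {x : (D.S.X 0).pt} :
    ∀ (j : ℕ) (x' x'' : (D.S.X j).pt), D.Cr j x x' → D.Cr j x x'' → x' = x''
  | 0, _, _, h, h' => h.2.symm.trans h'.2
  | j + 1, x', x'', ⟨u, h1, h2, h3⟩, ⟨v, k1, k2, _⟩ => by
    obtain rfl := D.cr_unique j u v h1 k1
    exact (flipR_amin (D.S.flip j) (D.S.hc j)).small'.inj x'' x' (k2 ▸ h3) (h2.symm.trans k2)

theorem Dat.cr_add (D : Dat) {J : ℕ} {x : (D.S.X 0).pt} {y : (D.S.X J).pt} (h : D.Cr J x y) :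
    ∀ (j : ℕ) (z : (D.S.X (J + j)).pt), (D.shift J).Cr j y z → D.Cr (J + j) x z
  | 0, _, h' => by
    obtain rfl : y = _ := h'.2
    exact h
  | j + 1, _, ⟨u, h1, h2, h3⟩ => ⟨u, D.cr_add h j u h1, h2, h3⟩

theorem Dat.hitLt_mono (D : Dat) {N N' : ℕ} (h : N ≤ N') : D.hitLt N ⊆ D.hitLt N' :=
  fun _ ⟨j, hj, hx⟩ => ⟨j, hj.trans_le h, hx⟩

theorem Dat.hit_eq (D : Dat) : D.hit = HD.hit D.S.f D.S.f' := by
  ext x
  simp only [Dat.hit, mem_iUnion]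
  exact ⟨fun ⟨_, j, _, hx⟩ => ⟨j, hx⟩, fun ⟨j, hx⟩ => ⟨j + 1, j, j.lt_succ_self, hx⟩⟩

theorem Dat.not_hit {x : (D.S.X 0).pt} : x ∉ D.hit ↔ ∀ N, x ∉ D.hitLt N := by
  simp only [Dat.hit, mem_iUnion, not_exists]

theorem Pm.cr (W : Pm D N d) {y : W.T} :
    ∀ j ≤ N, (∀ i < j, ¬ D.Fl i (W.p i y)) → D.Cr j (W.p 0 y) (W.p j y)
  | 0, _, _ => ⟨notMem_empty _, rfl⟩
  | j + 1, hj, h => ⟨W.p j y, W.cr j (by omega) fun i hi => h i (by omega),
      (W.comm j (by omega) y).symm, h j j.lt_succ_self⟩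

theorem Pm.not_fl (W : Pm D N d) {y : W.T} {K : ℕ} (h : W.p 0 y ∉ D.hitLt K) (j : ℕ) :
    j < K → j ≤ N → ¬ D.Fl j (W.p j y) := by
  induction j using Nat.strong_induction_on with
  | _ j ih =>
    intro h1 h2 h3
    exact h ⟨j, h1, _, W.cr j h2 fun i hi => ih i hi (by omega) (by omega), h3⟩

theorem Pm.not_hitLt (W : Pm D N d) {y : W.T} {K : ℕ} (hK : K ≤ N)
    (h : ∀ j < K, ¬ D.Fl j (W.p j y)) : W.p 0 y ∉ D.hitLt K := by
  rintro ⟨j, hj, x', h1, h2⟩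
  obtain rfl := D.cr_unique j _ _ h1 (W.cr j (by omega) fun i hi => h i (by omega))
  exact h j hj h2

theorem Pm.not_hitLt_shift (W : Pm D N d) {y : W.T} {J K : ℕ} (hJ : J ≤ N)
    (h : W.p 0 y ∉ D.hitLt (J + K)) : W.p J y ∉ (D.shift J).hitLt K := by
  rintro ⟨j, hj, x', h1, h2⟩
  exact h ⟨J + j, by omega, x', D.cr_add (W.cr J hJ fun i hi =>
    W.not_fl h i (by omega) (by omega)) j x' h1, h2⟩

theorem Pm.not_hit_shift (W : Pm D N d) {y : W.T} {J : ℕ} (hJ : J ≤ N) (h : W.p 0 y ∉ D.hit) :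
    W.p J y ∉ (D.shift J).hit :=
  Dat.not_hit.2 fun K => W.not_hitLt_shift hJ (Dat.not_hit.1 h (J + K))

theorem Pm.mono' (W : Pm D N d) (l : Fin W.r) {i j : ℕ} (h : i ≤ j) (hj : j ≤ N) :
    W.a i l ≤ W.a j l := by
  induction j, h using Nat.le_induction with
  | base => exact le_rfl
  | succ j _ ih => exact (ih (by omega)).trans (W.mono j (by omega) l)

theorem Pm.lc_of (W : Pm D N d) {l : Fin W.r} {i j : ℕ} (h : i ≤ j) (hj : j ≤ N)
    (hl : W.a j l = -1) : W.a i l = -1 :=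
  le_antisymm (hl ▸ W.mono' l h hj) (W.lc' (h.trans hj) l)

theorem Pm.U_not_fl (W : Pm D N d) {y : W.T} (hy : y ∈ W.U) {j : ℕ} (hj : j < N) :
    ¬ D.Fl j (W.p j y) := fun h => by
  obtain ⟨l, h1, h2⟩ := W.strict j hj y h
  rw [W.lc_of hj.le le_rfl (hy l h1), W.lc_of hj le_rfl (hy l h1)] at h2
  exact lt_irrefl _ h2

/-- the model as a model at the time `0` of the tail -/
def Pm.sh (W : Pm D N d) : Pm (D.shift N) 0 d := Pm.shift N (N := 0) W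

end Vale.Agent.P277Z.Glc
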