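import Vale.Agent.P277Z.Glc.Sk0
import Vale.Agent.P277Z.Glc.Lat

/-!
# P277, block GLC: the lattice lemma for the thresholds
-/

open Finset P277Z.Glc

namespace Vale.Agent.P277Z.Glc

namespace Lat2

variable {ι : Type*} [DecidableEq ι]

theorem sum_bump (J : Finset ι) {C : ι} (hC : C ∈ J) (Z f : ι → ℤ) :
    ∑ a ∈ J, (Z a + if a = C then 1 else 0) * f a = ∑ a ∈ J, Z a * f a + f C := by
  simp [add_mul, sum_add_distrib, hC]

/-- one step of the computation sequence -/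
theorem step_genus (J : Finset ι) (I : ι → ι → ℤ) (k : ι → ℤ)
    (hs : ∀ a ∈ J, ∀ b ∈ J, I a b = I b a) {C : ι} (hC : C ∈ J) (Z : ι → ℤ) :
    ∑ b ∈ J, (Z b + if b = C then 1 else 0) *
        (k b + ∑ a ∈ J, (Z a + if a = C then 1 else 0) * I a b) =
      ∑ b ∈ J, Z b * (k b + ∑ a ∈ J, Z a * I a b) + 2 * ∑ a ∈ J, Z a * I a C + (k C + I C C) := by
  rw [sum_bump J hC]
  simp only [sum_bump J hC]
  have h1 : ∑ b ∈ J, Z b * (k b + (∑ a ∈ J, Z a * I a b + I C b)) =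
      ∑ b ∈ J, Z b * (k b + ∑ a ∈ J, Z a * I a b) + ∑ a ∈ J, Z a * I a C := by
    rw [← sum_add_distrib]
    refine sum_congr rfl fun b hb => ?_
    rw [hs C hC b hb]
    ring
  rw [h1]
  ring

omit [DecidableEq ι] in
theorem exists_scale (J : Finset ι) (s d : ι → ℝ) (hd : ∀ a ∈ J, d a < 0) :
    ∃ t : ℝ, 0 ≤ t ∧ ∀ a ∈ J, t * d a + s a ≤ 0 := by
  refine ⟨∑ a ∈ J, |s a| / -d a, sum_nonneg fun a ha =>
    div_nonneg (abs_nonneg _) (neg_pos.2 (hd a ha)).le, fun a ha => ?_⟩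
  have h1 : |s a| / -d a ≤ ∑ a ∈ J, |s a| / -d a :=
    single_le_sum (f := fun a => |s a| / -d a)
      (fun a ha => div_nonneg (abs_nonneg _) (neg_pos.2 (hd a ha)).le) ha
  rw [div_le_iff₀ (neg_pos.2 (hd a ha))] at h1
  linarith [le_abs_self (s a)]

/-- the coefficient of a curve with positive degree is below the bound -/
theorem lt_bound (J : Finset ι) (I : ι → ι → ℤ) (hq : ∀ a ∈ J, ∀ b ∈ J, a ≠ b → 0 ≤ I a b)
    (c : ι → ℝ) {C : ι} (hC : C ∈ J) (hd : I C C < 0) {t : ℝ}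
    (ht : t * ∑ a ∈ J, c a * I a C + ∑ a ∈ J.erase C, (I a C : ℝ) ≤ 0) (Z : ι → ℤ)
    (hZ : ∀ a ∈ J, (Z a : ℝ) ≤ t * c a + 1) (h : 0 < ∑ a ∈ J, Z a * I a C) :
    (Z C : ℝ) ≤ t * c C := by
  by_contra hcon
  have h1 : (0 : ℝ) < ∑ a ∈ J, (Z a : ℝ) * I a C := by exact_mod_cast h
  have h2 : ∑ a ∈ J.erase C, (Z a : ℝ) * I a C ≤
      ∑ a ∈ J.erase C, (t * (c a * I a C) + I a C) := by
    refine sum_le_sum fun a ha => ?_
    have h3 : (0 : ℝ) ≤ I a C := by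
      exact_mod_cast hq a (mem_of_mem_erase ha) C hC (ne_of_mem_erase ha)
    nlinarith [mul_le_mul_of_nonneg_right (hZ a (mem_of_mem_erase ha)) h3]
  rw [sum_add_distrib, ← mul_sum] at h2
  rw [← add_sum_erase J _ hC] at h1 ht
  have h4 : (I C C : ℝ) < 0 := by exact_mod_cast hd
  nlinarith [mul_pos (sub_pos.2 (not_le.1 hcon)) (neg_pos.2 h4)]

/-- the fundamental cycle -/
theorem laufer (J : Finset ι) (hJ : J.Nonempty) (I : ι → ι → ℤ) (k : ι → ℤ)
    (hs : ∀ a ∈ J, ∀ b ∈ J, I a b = I b a) (hq : ∀ a ∈ J, ∀ b ∈ J, a ≠ b → 0 ≤ I a b)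
    (c : ι → ℝ) (hc : ∀ a ∈ J, 0 < c a) (hneg : ∀ b ∈ J, ∑ a ∈ J, c a * I a b < 0)
    (hg : ∀ a ∈ J, -2 ≤ k a + I a a) :
    ∃ Z : ι → ℤ, (∀ a ∈ J, 0 ≤ Z a) ∧ 0 < ∑ a ∈ J, Z a ∧ (∀ b ∈ J, ∑ a ∈ J, Z a * I a b ≤ 0) ∧
      -2 ≤ ∑ b ∈ J, Z b * (k b + ∑ a ∈ J, Z a * I a b) := by
  obtain ⟨t, ht0, ht⟩ := exists_scale J (fun C => ∑ a ∈ J.erase C, (I a C : ℝ)) _ hneg
  have hd := diag_neg J I hq c hc hneg
  by_contra hcon
  have key : ∀ N : ℕ, ∃ Z : ι → ℤ, (∀ a ∈ J, 0 ≤ Z a) ∧ ∑ a ∈ J, Z a = N + 1 ∧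
      (∀ a ∈ J, (Z a : ℝ) ≤ t * c a + 1) ∧
      -2 ≤ ∑ b ∈ J, Z b * (k b + ∑ a ∈ J, Z a * I a b) := by
    intro N
    induction N with
    | zero =>
      obtain ⟨C, hC⟩ := hJ
      refine ⟨fun a => 0 + if a = C then 1 else 0, fun a _ => by dsimp only; split_ifs <;> simp,
        by simp [hC], fun a ha => ?_, ?_⟩
      · have := mul_nonneg ht0 (hc a ha).le
        dsimp only
        split_ifs <;> push_cast <;> linarith
      · rw [step_genus J I k hs hC fun _ => 0]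
        simpa using hg C hC
    | succ N ih =>
      obtain ⟨Z, h1, h2, h3, h4⟩ := ih
      obtain ⟨C, hC, hZ⟩ : ∃ C ∈ J, 0 < ∑ a ∈ J, Z a * I a C := by
        by_contra! h5
        exact hcon ⟨Z, h1, by omega, h5, h4⟩
      refine ⟨fun a => Z a + if a = C then 1 else 0, fun a ha => ?_, ?_, fun a ha => ?_, ?_⟩
      · have := h1 a ha
        dsimp only
        split_ifs <;> omega
      · rw [sum_add_distrib, h2]
        simp [hC]
      · dsimp only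
        split_ifs with h
        · subst h
          have := lt_bound J I hq c hC (hd a hC) (ht a hC) Z h3 hZ
          push_cast
          linarith
        · simpa using h3 a ha
      · rw [step_genus J I k hs hC]
        have := hg C hC
        omega
  obtain ⟨N, hN⟩ := exists_nat_gt (∑ a ∈ J, (t * c a + 1))
  obtain ⟨Z, -, h2, h3, -⟩ := key N
  have h4 : ∑ a ∈ J, (Z a : ℝ) = N + 1 := by exact_mod_cast h2
  linarith [sum_le_sum h3]

omit [DecidableEq ι] in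
theorem zmem (P : AddSubmonoid ℝ) {z : ℤ} {r : ℝ} (hz : 0 ≤ z) (hr : r ∈ P) : (z : ℝ) * r ∈ P := by
  obtain ⟨n, rfl⟩ := Int.eq_ofNat_of_zero_le hz
  simpa using P.nsmul_mem hr n

/-- the case without curves of negative canonical degree -/
theorem minimal (P : AddSubmonoid ℝ) (hP : ∀ r ∈ P, 0 ≤ r) (c A : ι → ℝ) (J : Finset ι)
    (I : ι → ι → ℤ) (k : ι → ℤ) (L : ι → ℝ) (hJ : J.Nonempty)
    (hs : ∀ a ∈ J, ∀ b ∈ J, I a b = I b a) (hq : ∀ a ∈ J, ∀ b ∈ J, a ≠ b → 0 ≤ I a b)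
    (hc : ∀ a ∈ J, 0 < c a) (hneg : ∀ b ∈ J, ∑ a ∈ J, c a * I a b < 0)
    (hg : ∀ a ∈ J, -2 ≤ k a + I a a) (hL : ∀ a ∈ J, L a ∈ P)
    (heq : ∀ a ∈ J, k a + L a + ∑ b ∈ J, (1 - A b) * I b a = 0) (hk : ∀ a ∈ J, 0 ≤ k a) :
    ∃ (n : ι → ℕ) (z : ℤ), ∃ r ∈ P, (∃ a ∈ J, n a ≠ 0) ∧ (∀ a ∈ J, n a ≠ 0 → A a ≤ 1) ∧ z ≤ 2 ∧
      ∑ a ∈ J, n a * A a + r = z := by
  have hs' : ∀ a ∈ J, ∀ b ∈ J, (I a b : ℝ) = I b a := fun x hx y hy => by
    exact_mod_cast hs x hx y hy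
  have hmax := nonneg_of_neg J (fun a e => (I a e : ℝ)) hs'
    (fun x hx y hy h => by exact_mod_cast hq x hx y hy h) c hc hneg
  have hA := hmax (fun b => 1 - A b) fun a ha => by
    have h2 : (0 : ℝ) ≤ k a := by exact_mod_cast hk a ha
    linarith [heq a ha, hP _ (hL a ha)]
  obtain ⟨Z, h1, h2, h3, h4⟩ := laufer J hJ I k hs hq c hc hneg hg
  have hn : ∀ b ∈ J, (((-∑ a ∈ J, Z a * I a b).toNat : ℕ) : ℤ) = -∑ a ∈ J, Z a * I a b :=
    fun b hb => Int.toNat_of_nonneg (neg_nonneg.2 (h3 b hb))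
  refine ⟨fun b => (-∑ a ∈ J, Z a * I a b).toNat,
    -∑ b ∈ J, ∑ a ∈ J, Z a * I a b - ∑ b ∈ J, Z b * k b, ∑ a ∈ J, Z a * L a,
    P.sum_mem fun a ha => zmem P (h1 a ha) (hL a ha), ?_, fun a ha _ => sub_nonneg.1 (hA a ha),
    ?_, ?_⟩
  · by_contra! h5
    have h6 := hmax (fun b => -(Z b : ℝ)) fun b hb => by
      have h7 := hn b hb
      rw [h5 b hb] at h7
      have h8 : ∑ a ∈ J, (Z a : ℝ) * I a b = 0 := by exact_mod_cast (by omega : _ = (0 : ℤ))
      simp only [neg_mul, sum_neg_distrib, h8, neg_zero, le_refl]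
    have h7 : ∑ a ∈ J, Z a ≤ 0 := sum_nonpos fun a ha => by
      have := h6 a ha
      exact_mod_cast neg_nonneg.1 this
    omega
  · have h5 : ∑ b ∈ J, Z b * ∑ a ∈ J, Z a * I a b ≤ ∑ b ∈ J, ∑ a ∈ J, Z a * I a b := by
      refine sum_le_sum fun b hb => ?_
      rcases (h1 b hb).eq_or_lt with h | h
      · rw [← h, zero_mul]
        refine sum_nonneg fun a ha => ?_
        by_cases hab : a = b
        · rw [hab, ← h, zero_mul]
        · exact mul_nonneg (h1 a ha) (hq a ha b hb hab)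
      · nlinarith [h3 b hb]
    simp only [mul_add, sum_add_distrib] at h4
    omega
  · have h5 : ∑ a ∈ J, (Z a : ℝ) * (k a + L a + ∑ b ∈ J, (1 - A b) * I b a) = 0 :=
      sum_eq_zero fun a ha => by rw [heq a ha, mul_zero]
    have h6 : ∑ a ∈ J, (Z a : ℝ) * ∑ b ∈ J, (1 - A b) * I b a =
        ∑ b ∈ J, (1 - A b) * ∑ a ∈ J, (Z a : ℝ) * I a b := by
      simp only [mul_sum]
      rw [sum_comm]
      exact sum_congr rfl fun b hb => sum_congr rfl fun a ha => by rw [hs' b hb a ha]; ring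
    have h7 : ∑ b ∈ J, (((-∑ a ∈ J, Z a * I a b).toNat : ℕ) : ℝ) * A b =
        -∑ b ∈ J, A b * ∑ a ∈ J, (Z a : ℝ) * I a b := by
      rw [← sum_neg_distrib]
      refine sum_congr rfl fun b hb => ?_
      rw [← Int.cast_natCast, hn b hb]
      push_cast
      ring
    simp only [mul_add, sum_add_distrib, h6] at h5
    simp only [sub_mul, one_mul, sum_sub_distrib] at h5
    rw [h7]
    push_cast
    linarith

omit [DecidableEq ι] in
theorem sum_split (J : Finset ι) (I : ι → ι → ℤ) (C : ι) (x : ι → ℝ) (a : ι) :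
    ∑ e ∈ J, x e * ((I e a + I e C * I a C : ℤ) : ℝ) =
      ∑ e ∈ J, x e * I e a + (I a C : ℝ) * ∑ e ∈ J, x e * I e C := by
  rw [mul_sum, ← sum_add_distrib]
  refine sum_congr rfl fun e _ => ?_
  push_cast
  ring

theorem main (P : AddSubmonoid ℝ) (hP : ∀ r ∈ P, 0 ≤ r) (c A : ι → ℝ) (J : Finset ι) :
    ∀ (I : ι → ι → ℤ) (k : ι → ℤ) (L : ι → ℝ), J.Nonempty →
    (∀ a ∈ J, ∀ b ∈ J, I a b = I b a) → (∀ a ∈ J, ∀ b ∈ J, a ≠ b → 0 ≤ I a b) →
    (∀ a ∈ J, 0 < c a) → (∀ b ∈ J, ∑ a ∈ J, c a * I a b < 0) →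
    (∀ a ∈ J, -2 ≤ k a + I a a) → (∀ a ∈ J, L a ∈ P) →
    (∀ a ∈ J, k a + L a + ∑ b ∈ J, (1 - A b) * I b a = 0) →
    (∃ a ∈ J, ∃ r ∈ P, A a = 2 - r) ∨
    ∃ (n : ι → ℕ) (z : ℤ), ∃ r ∈ P, (∃ a ∈ J, n a ≠ 0) ∧ (∀ a ∈ J, n a ≠ 0 → A a ≤ 1) ∧ z ≤ 2 ∧
      ∑ a ∈ J, n a * A a + r = z := by
  induction J using Finset.strongInduction with
  | H J ih =>
  intro I k L hJ hs hq hc hneg hg hL heq
  by_cases hk : ∀ a ∈ J, 0 ≤ k a
  · exact Or.inr (minimal P hP c A J I k L hJ hs hq hc hneg hg hL heq hk)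
  push Not at hk
  obtain ⟨C, hC, hkC⟩ := hk
  have hd := diag_neg J I hq c hc hneg
  have hkC1 : k C = -1 := by have := hd C hC; have := hg C hC; omega
  have hqC1 : I C C = -1 := by have := hd C hC; have := hg C hC; omega
  have hsub : ∀ e ∈ J.erase C, e ∈ J := fun e he => mem_of_mem_erase he
  have hqC : ∀ e ∈ J.erase C, 0 ≤ I e C := fun e he =>
    hq e (hsub e he) C hC (ne_of_mem_erase he)
  have hEC := heq C hC
  rw [← add_sum_erase J _ hC, hkC1, hqC1] at hEC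
  rcases (J.erase C).eq_empty_or_nonempty with h0 | h0
  · refine Or.inl ⟨C, hC, L C, hL C hC, ?_⟩
    rw [h0, sum_empty] at hEC
    push_cast at hEC
    linarith
  have := ih (J.erase C) (erase_ssubset hC) (fun x y => I x y + I x C * I y C)
    (fun x => k x - I x C) (fun x => L x + (I x C : ℝ) * L C) h0
    (fun x hx y hy => by rw [hs x (hsub x hx) y (hsub y hy)]; ring)
    (fun x hx y hy h => add_nonneg (hq x (hsub x hx) y (hsub y hy) h)
      (mul_nonneg (hqC x hx) (hqC y hy)))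
    (fun x hx => hc x (hsub x hx))
    (fun a ha => by
      rw [sum_split]
      have h2 := hneg a (hsub a ha)
      have h3 := hneg C hC
      rw [← add_sum_erase J _ hC] at h2 h3
      rw [hqC1] at h3
      rw [hs C hC a (hsub a ha)] at h2
      have h4 : (0 : ℝ) ≤ I a C := by exact_mod_cast hqC a ha
      push_cast at h3
      nlinarith)
    (fun a ha => by
      have h2 := hg a (hsub a ha)
      have h3 := hqC a ha
      have h4 : 0 ≤ I a C * (I a C - 1) := by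
        rcases eq_or_lt_of_le h3 with h | h
        · rw [← h]; simp
        · exact mul_nonneg h3 (by omega)
      linarith)
    (fun a ha => P.add_mem (hL a (hsub a ha)) (zmem P (hqC a ha) (hL C hC)))
    (fun a ha => by
      rw [sum_split]
      have h2 := heq a (hsub a ha)
      rw [← add_sum_erase J _ hC, hs C hC a (hsub a ha)] at h2
      push_cast at hEC ⊢
      linear_combination h2 + (I a C : ℝ) * hEC)
  rcases this with ⟨a, ha, h⟩ | ⟨n, z, r, hr, ⟨a, ha, h1⟩, h2, h3, h4⟩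
  · exact Or.inl ⟨a, hsub a ha, h⟩
  · refine Or.inr ⟨Function.update n C 0, z, r, hr,
      ⟨a, hsub a ha, by rwa [Function.update_of_ne (ne_of_mem_erase ha)]⟩, fun x hx h => ?_, h3, ?_⟩
    · by_cases hxC : x = C
      · exact absurd (hxC ▸ Function.update_self ..) h
      · exact h2 x (mem_erase.2 ⟨hxC, hx⟩) (by rwa [Function.update_of_ne hxC] at h)
    · rw [← add_sum_erase J _ hC, Function.update_self, ← h4, Nat.cast_zero, zero_mul, zero_add]
      congr 1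
      exact sum_congr rfl fun x hx => by rw [Function.update_of_ne (ne_of_mem_erase hx)]

/-- the combinations of the `β t` with natural coefficients -/
def comb {T : Type} [Fintype T] (β : T → ℝ) : AddSubmonoid ℝ where
  carrier := {x | ∃ r : T → ℕ, x = ∑ t, r t * β t}
  zero_mem' := ⟨0, by simp⟩
  add_mem' := by
    rintro _ _ ⟨r, rfl⟩ ⟨s, rfl⟩
    exact ⟨r + s, by simp [add_mul, sum_add_distrib]⟩

end Lat2

theorem lat2 : StLat2 := by
  classical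
  intro J T _ _ _ I k c A β l hs hq hc hneg hg hβ heq
  have hc' : ∀ b, 0 < c b := fun b => by
    refine (hc b).lt_of_ne fun h => (hneg b).not_ge (sum_nonneg fun a _ => ?_)
    by_cases hab : a = b
    · rw [hab, ← h, zero_mul]
    · exact mul_nonneg (hc a) (by exact_mod_cast hq a b hab)
  rcases Lat2.main (Lat2.comb β)
    (by rintro _ ⟨r, rfl⟩; exact sum_nonneg fun t _ => mul_nonneg (Nat.cast_nonneg _) (hβ t))
    c A univ I k (fun a => ∑ t, β t * l t a) univ_nonempty (fun a _ b _ => hs a b)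
    (fun a _ b _ => hq a b) (fun a _ => hc' a) (fun b _ => hneg b) (fun a _ => hg a)
    (fun a _ => ⟨fun t => l t a, sum_congr rfl fun t _ => mul_comm _ _⟩) (fun a _ => heq a) with
    ⟨a, -, _, ⟨r, rfl⟩, h⟩ | ⟨n, z, _, ⟨r, rfl⟩, ⟨a, -, h1⟩, h2, h3, h4⟩
  · exact Or.inl ⟨a, r, h⟩
  · exact Or.inr ⟨n, r, z, ⟨a, h1⟩, fun x => h2 x (mem_univ x), h3, h4⟩

end Vale.Agent.P277Z.Glc
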