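import Vale.Agent.P277Z.Glc.Loc

/-!
# P277, block GLC: lifting a small map to a modification away from its exceptional set
-/

open scoped Manifold ContDiff Topology
open Vale.Agent.P277 Vale.Agent.P277.HD
open Vale.Agent.P272.K Vale.Agent.P285.H281.FD Set Filter

noncomputable section

namespace Vale.Agent.P277Z.Glc

variable {Y X Z Z₁ : CSp}

/-- `Q` is isomorphic to `M` over `W` -/
def Sim (Y : CSp) (W : Set Y.pt) (M Q : Bd Y.pt) : Prop :=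
  ∃ (π : Q.ι → M.ι) (τ : Q.ι → Y.pt → ℂ), (∀ i, ∀ y ∈ W, y ∈ Q.U i →
    y ∈ M.U (π i) ∧ Y.Hol (τ i) y ∧ τ i y ≠ 0) ∧
    ∀ i i', ∀ y ∈ W, y ∈ Q.U i → y ∈ Q.U i' → τ i y * M.g (π i) (π i') y = Q.g i i' y * τ i' y

theorem Sim.refl (W : Set Y.pt) (M : Bd Y.pt) : Sim Y W M M :=
  ⟨id, fun _ _ => 1, fun _ y _ h => ⟨h, hol_const 1 y, one_ne_zero⟩,
    fun _ _ _ _ _ _ => by simp⟩

theorem Sim.inv {W : Set Y.pt} {M Q : Bd Y.pt} (h : Sim Y W M Q) :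
    Sim Y W (Bd.inv M) (Bd.inv Q) := by
  obtain ⟨π, τ, h1, h2⟩ := h
  refine ⟨π, fun i y => (τ i y)⁻¹, fun i y hy hi => ⟨(h1 i y hy hi).1,
    hol_inv (h1 i y hy hi).2.1 (h1 i y hy hi).2.2, inv_ne_zero (h1 i y hy hi).2.2⟩,
    fun i i' y hy hi hi' => ?_⟩
  change (τ i y)⁻¹ * (M.g (π i) (π i') y)⁻¹ = (Q.g i i' y)⁻¹ * (τ i' y)⁻¹
  rw [← mul_inv, ← mul_inv, h2 i i' y hy hi hi']

theorem Sim.lin {W : Set Y.pt} {k : ℕ} {M : Fin k → Bd Y.pt} {Q : Fin (k + 1) → Bd Y.pt}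
    (h : ∀ e, Sim Y W (M e) (Q e.castSucc)) (h' : TrivOn Y W (Q (Fin.last k)))
    (n : Fin (k + 1) → ℤ) : Sim Y W (HD.Bd.lin M fun e => n e.castSucc) (HD.Bd.lin Q n) := by
  choose π τ h1 h2 using h
  obtain ⟨t, ht, ht'⟩ := h'
  refine ⟨fun i e => π e (i e.castSucc), fun i y =>
    (∏ e, τ e (i e.castSucc) y ^ n e.castSucc) * t (i (Fin.last k)) y ^ n (Fin.last k),
    fun i y hy hi => ⟨fun e => (h1 e _ y hy (hi _)).1, hol_mul (hol_prod _ fun e _ =>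
      hol_zpow (h1 e _ y hy (hi _)).2.1 (h1 e _ y hy (hi _)).2.2 _)
      (hol_zpow (ht.holo _ y hy (hi _)) (ht' _ y hy (hi _)) _), mul_ne_zero
      (Finset.prod_ne_zero_iff.2 fun e _ => zpow_ne_zero _ (h1 e _ y hy (hi _)).2.2)
      (zpow_ne_zero _ (ht' _ y hy (hi _)))⟩, fun i i' y hy hi hi' => ?_⟩
  change ((∏ e, τ e (i e.castSucc) y ^ n e.castSucc) * t (i (Fin.last k)) y ^ n (Fin.last k)) *
      ∏ e, (M e).g (π e (i e.castSucc)) (π e (i' e.castSucc)) y ^ n e.castSucc =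
    (∏ e, (Q e).g (i e) (i' e) y ^ n e) *
      ((∏ e, τ e (i' e.castSucc) y ^ n e.castSucc) * t (i' (Fin.last k)) y ^ n (Fin.last k))
  have e1 : (∏ e, τ e (i e.castSucc) y ^ n e.castSucc) *
      ∏ e, (M e).g (π e (i e.castSucc)) (π e (i' e.castSucc)) y ^ n e.castSucc =
      (∏ e : Fin k, (Q e.castSucc).g (i e.castSucc) (i' e.castSucc) y ^ n e.castSucc) *
        ∏ e, τ e (i' e.castSucc) y ^ n e.castSucc := by
    rw [← Finset.prod_mul_distrib, ← Finset.prod_mul_distrib]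
    refine Finset.prod_congr rfl fun e _ => ?_
    rw [← mul_zpow, ← mul_zpow, h2 e _ _ y hy (hi _) (hi' _)]
  rw [Fin.prod_univ_castSucc, ht.change _ (i' (Fin.last k)) y hy (hi _) (hi' _), mul_zpow,
    mul_right_comm, e1]
  ring

theorem lb_inv {L : Bd X.pt} (h : IsLBx X L) : IsLBx X (Bd.inv L) where
  isOpen := h.isOpen
  cover := h.cover
  holo i j x hi hj := hol_inv (h.holo i j x hi hj) (h.ne_zero i j x hi hj)
  ne_zero i j x hi hj := inv_ne_zero (h.ne_zero i j x hi hj)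
  cocycle i j l x hi hj hl := by
    change (L.g i j x)⁻¹ * (L.g j l x)⁻¹ = (L.g i l x)⁻¹
    rw [← mul_inv, h.cocycle i j l x hi hj hl]

/-- `F : Y → Z₁` lifts the small map `f : X → Z` to the modifications along `N₁`. -/
structure LData (Y X Z Z₁ : CSp) (q : Y.pt → X.pt) (f : X.pt → Z.pt) (q₁ : Z₁.pt → Z.pt)
    (A N₁ : Set Z.pt) (F : Y.pt → Z₁.pt) : Prop where
  off : IsoOff Y X q (f ⁻¹' N₁)
  off₁ : IsoOff Z₁ Z q₁ N₁
  small : IsSmall X Z f A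
  disj : ∀ z ∈ N₁, z ∉ A
  comm : ∀ y, q₁ (F y) = f (q y)
  iso : LocIso Y Z₁ (q ⁻¹' (f ⁻¹' Aᶜ)) F
  img : F '' (q ⁻¹' (f ⁻¹' Aᶜ)) = q₁ ⁻¹' Aᶜ

variable {q : Y.pt → X.pt} {f : X.pt → Z.pt} {q₁ : Z₁.pt → Z.pt} {A N₁ : Set Z.pt}
  {F : Y.pt → Z₁.pt}

theorem exists_lData (off : IsoOff Y X q (f ⁻¹' N₁)) (off₁ : IsoOff Z₁ Z q₁ N₁)
    (small : IsSmall X Z f A) (disj : ∀ z ∈ N₁, z ∉ A) {j : Y.pt → Z₁.pt}
    (iso : LocIso Y Z₁ (q ⁻¹' (f ⁻¹' Aᶜ)) j) (img : j '' (q ⁻¹' (f ⁻¹' Aᶜ)) = q₁ ⁻¹' Aᶜ)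
    (comm : ∀ y, f (q y) ∉ A → q₁ (j y) = f (q y)) :
    ∃ F, LData Y X Z Z₁ q f q₁ A N₁ F ∧ ∀ y, f (q y) ∉ A → F y = j y := by
  classical
  have h1 : ∀ y, f (q y) ∉ A →
      (if f (q y) ∈ A then Function.surjInv off₁.surj (f (q y)) else j y) = j y :=
    fun y hy => if_neg hy
  refine ⟨fun y => if f (q y) ∈ A then Function.surjInv off₁.surj (f (q y)) else j y,
    ⟨off, off₁, small, disj, fun y => ?_, iso.congr h1, (image_congr h1).trans img⟩, h1⟩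
  by_cases hy : f (q y) ∈ A
  · rw [if_pos hy, Function.surjInv_eq off₁.surj]
  · rw [if_neg hy, comm y hy]

namespace LData
variable (H : LData Y X Z Z₁ q f q₁ A N₁ F)
include H

theorem holMap (y : Y.pt) : HolMap Y Z₁ F y := by
  by_cases hy : f (q y) ∈ A
  · obtain ⟨σ, -, h2, h3⟩ := H.off₁.exists_sec
    have h4 : f (q y) ∉ N₁ := fun h => H.disj _ h hy
    refine holMap_congr (holMap_comp (h3.holMap h4)
      (holMap_comp (H.small.holMap _) (H.off.hol y))) ?_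
    filter_upwards [H.off.iso.isOpen.mem_nhds h4] with z hz
    rw [Function.comp_apply, Function.comp_apply, ← H.comm, h2 _ (by rwa [H.comm])]
  · exact H.iso.holMap hy

theorem eq_of {y : Y.pt} {z : Z₁.pt} (h : q₁ z ∈ A) (e : f (q y) = q₁ z) : F y = z := by
  have h1 : q₁ z ∉ N₁ := fun h' => H.disj _ h' h
  exact H.off₁.iso.inj (by change q₁ (F y) ∉ N₁; rwa [H.comm, e]) h1 ((H.comm y).trans e)

theorem isSmall : IsSmall Y Z₁ F (q₁ ⁻¹' A) where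
  cont := continuous_iff_continuousAt.2 fun y => (H.holMap y).1
  holo y := (H.holMap y).2
  surj z := by
    by_cases h : q₁ z ∈ A
    · obtain ⟨y, hy⟩ := (H.small.surj.comp H.off.surj) (q₁ z)
      exact ⟨y, H.eq_of h hy⟩
    · obtain ⟨y, -, hy⟩ := H.img.symm.subset h
      exact ⟨y, hy⟩
  an := IsAn.preimage H.off₁.hol H.small.an
  dim := by
    obtain ⟨σ, -, h2, h3⟩ := H.off.exists_sec
    refine (H.small.dim.image fun x hx => h3.holMap fun h => H.disj _ h hx).mono fun y hy => ?_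
    have h4 : f (q y) ∈ A := H.comm y ▸ hy
    exact ⟨q y, h4, h2 y fun h => H.disj _ h h4⟩
  inj y y' hy e := H.iso.inj (by change f (q y') ∉ A; rwa [← H.comm, e])
    (by change f (q y) ∉ A; rwa [← H.comm]) e
  iso y g hy hg := by
    have : Nonempty Y.pt := ⟨y⟩
    obtain ⟨σ, h1, h2⟩ := H.iso.exists_inv
    have h3 : y ∈ q ⁻¹' (f ⁻¹' Aᶜ) := by change f (q y) ∉ A; rwa [← H.comm]
    refine ⟨g ∘ σ, (h2.holMap ⟨y, h3, rfl⟩).2 g (by rwa [h1 y h3]), ?_⟩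
    filter_upwards [H.iso.isOpen.mem_nhds h3] with z hz
    simp only [Function.comp, h1 z hz]

theorem ninj (h : ¬ Function.Injective f) : ¬ Function.Injective F := by
  intro hF
  refine h fun x x' e => ?_
  by_cases hx : f x ∈ A
  · obtain ⟨y, rfl⟩ := H.off.surj x
    obtain ⟨y', rfl⟩ := H.off.surj x'
    rw [hF (H.eq_of (y := y') (z := F y) (by rwa [H.comm]) (by rw [H.comm, e]))]
  · exact (H.small.inj x x' hx e.symm).symm

theorem normal (hY : IsNormal 4 Y) (hZ : IsNormal 4 Z) : IsNormal 4 Z₁ := by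
  have : Nonempty Z₁.pt := hY.sing.nonempty.map F
  refine isNormal_of_cover fun z => ?_
  by_cases h : q₁ z ∈ A
  · obtain ⟨σ, -, h2, h3⟩ := H.off₁.exists_sec
    have h4 : q₁ z ∉ N₁ := fun h' => H.disj _ h' h
    exact ⟨Z, _, σ, hZ, h3, q₁ z, h4, h2 z h4⟩
  · exact ⟨Y, _, F, hY, H.iso, H.img.symm.subset h⟩

theorem relAmple {M : Bd X.pt} {Q : Bd Y.pt} (hQ : IsLBx Y Q)
    (hS : Sim Y (q ⁻¹' (f ⁻¹' N₁)ᶜ) (pull q M) Q) (ha : RelAmple X Z f M) :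
    RelAmple Y Z₁ F Q := by
  intro z
  by_cases hz : q₁ z ∈ A
  · obtain ⟨π, τ, t1, t2⟩ := hS
    obtain ⟨σ, -, s2, s3⟩ := H.off.exists_sec
    obtain ⟨V, k, n, s, hV, hzV, hk, hs, h1, h2, h3⟩ := ha (q₁ z)
    have mem : ∀ y, F y ∈ q₁ ⁻¹' (V ∩ N₁ᶜ) → f (q y) ∈ V ∧ y ∈ q ⁻¹' (f ⁻¹' N₁)ᶜ := fun y hy => by
      have h4 : q₁ (F y) ∈ V ∩ N₁ᶜ := hy
      rwa [H.comm] at h4
    refine ⟨q₁ ⁻¹' (V ∩ N₁ᶜ), k, n, fun l i y => τ i y ^ k * s l (π i) (q y),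
      (hV.inter H.off₁.closed.isOpen_compl).preimage H.off₁.cont,
      ⟨hzV, fun h => H.disj _ h hz⟩, hk, fun l => ⟨fun i y hy hi => ?_, fun i j y hy hi hj => ?_⟩,
      fun y i hy hi => ?_, fun y y' i j hy e hne hi hj => ?_, fun y i l hy hi hl g hg => ?_⟩
    · obtain ⟨a, b⟩ := mem y hy
      exact hol_mul (hol_pow (t1 i y b hi).2.1 k)
        ((H.off.hol y).2 _ ((hs l).holo (π i) _ a (t1 i y b hi).1))
    · obtain ⟨a, b⟩ := mem y hy
      have e1 : s l (π i) (q y) = M.g (π i) (π j) (q y) ^ k * s l (π j) (q y) :=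
        (hs l).change _ _ _ a (t1 i y b hi).1 (t1 j y b hj).1
      have e2 : τ i y * M.g (π i) (π j) (q y) = Q.g i j y * τ j y := t2 i j y b hi hj
      change τ i y ^ k * s l (π i) (q y) = Q.g i j y ^ k * (τ j y ^ k * s l (π j) (q y))
      rw [e1, ← mul_assoc, ← mul_pow, e2, mul_pow, mul_assoc]
    · obtain ⟨a, b⟩ := mem y hy
      obtain ⟨l, hl⟩ := h1 (q y) (π i) a (t1 i y b hi).1
      exact ⟨l, mul_ne_zero (pow_ne_zero _ (t1 i y b hi).2.2) hl⟩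
    · obtain ⟨a, b⟩ := mem y hy
      obtain ⟨-, b'⟩ := mem y' (e ▸ hy)
      obtain ⟨l, m, hlm⟩ := h2 (q y) (q y') (π i) (π j) a (by rw [← H.comm, ← H.comm, e])
        (fun e' => hne (H.off.iso.inj b' b e')) (t1 i y b hi).1 (t1 j y' b' hj).1
      refine ⟨l, m, fun he => hlm ?_⟩
      refine mul_left_cancel₀ (mul_ne_zero (pow_ne_zero k (t1 i y b hi).2.2)
        (pow_ne_zero k (t1 j y' b' hj).2.2)) ?_
      linear_combination he
    · obtain ⟨a, b⟩ := mem y hy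
      obtain ⟨K, u, G, hu, hG, hg'⟩ := h3 (q y) (π i) l a (t1 i y b hi).1
        (right_ne_zero_of_mul hl) (g ∘ σ) ((s3.holMap b).2 g (by rwa [s2 y b]))
      have hq : ∀ᶠ y' in 𝓝 y, (fun m => τ i y' ^ k * s m (π i) (q y') /
          (τ i y' ^ k * s l (π i) (q y'))) = fun m => s m (π i) (q y') / s l (π i) (q y') := by
        filter_upwards [(hol_continuousAt (t1 i y b hi).2.1).eventually_ne (t1 i y b hi).2.2]
          with y' c
        funext m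
        rw [mul_div_mul_left _ _ (pow_ne_zero _ c)]
      refine ⟨K, fun a => u a ∘ q₁, G, fun a => (H.off₁.hol _).2 _ (by rw [H.comm]; exact hu a),
        ?_, ?_⟩
      · simp only [Function.comp, H.comm]
        rw [hq.self_of_nhds]
        exact hG
      · filter_upwards [hq, (H.off.hol y).1.eventually hg', H.off.iso.isOpen.mem_nhds b]
          with y' c d d'
        simp only [Function.comp, H.comm]
        rw [c, ← d, Function.comp_apply, s2 y' d']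
  · obtain ⟨y₀, hy₀, rfl⟩ := H.img.symm.subset hz
    obtain ⟨i₀, hi₀⟩ := hQ.cover y₀
    have mem : ∀ y, F y ∈ F '' (q ⁻¹' (f ⁻¹' Aᶜ) ∩ Q.U i₀) → F y ∉ q₁ ⁻¹' A ∧ y ∈ Q.U i₀ := by
      rintro y ⟨y', ⟨h1, h2⟩, e⟩
      have h3 : F y' ∉ q₁ ⁻¹' A := by change q₁ (F y') ∉ A; rwa [H.comm]
      rw [H.isSmall.inj y' y h3 e.symm]
      exact ⟨h3, h2⟩
    refine ⟨F '' (q ⁻¹' (f ⁻¹' Aᶜ) ∩ Q.U i₀), 1, 0, fun _ i => Q.g i i₀,
      H.iso.openMap _ inter_subset_left (H.iso.isOpen.inter (hQ.isOpen i₀)),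
      ⟨y₀, ⟨hy₀, hi₀⟩, rfl⟩, le_rfl, fun l => ⟨fun i y hy hi => hQ.holo i i₀ y hi (mem y hy).2,
        fun i j y hy hi hj => ?_⟩, fun y i hy hi => ⟨0, hQ.ne_zero i i₀ y hi (mem y hy).2⟩,
      fun y y' i j hy e hne _ _ => (hne (H.isSmall.inj y y' (mem y hy).1 e)).elim,
      fun y i l hy _ _ g hg => ?_⟩
    · change Q.g i i₀ y = Q.g i j y ^ 1 * Q.g j i₀ y
      rw [pow_one, hQ.cocycle i j i₀ y hi hj (mem y hy).2]
    · obtain ⟨u, hu, hu'⟩ := H.isSmall.iso y g (mem y hy).1 hg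
      exact ⟨1, fun _ => u, fun p => p.1 0, fun _ => hu,
        ((ContinuousLinearMap.proj (R := ℂ) (φ := fun _ : Fin 1 => ℂ) 0).analyticAt _).comp
          analyticAt_fst, hu'⟩

end LData

end Vale.Agent.P277Z.Glc
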