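import Vale.Agent.P277Z.Glc.Loc
import Mathlib.Topology.Compactification.OnePoint.Basic

/-!
# P277, block GLC: surgery
-/

open scoped Manifold ContDiff Topology
open Vale.Agent.P277 Vale.Agent.P277.HD
open Vale.Agent.P272.K Vale.Agent.P285.H281.FD Set Filter

noncomputable section

namespace Vale.Agent.P277Z.Glc

theorem continuousAt_sec {A B : Type} [TopologicalSpace A] [TopologicalSpace B] [CompactSpace A]
    [T2Space B] {p : A → B} (hp : Continuous p) {s : B → A} (hs : ∀ b, p (s b) = b) {b : B}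
    (hb : ∀ a, p a = b → a = s b) : ContinuousAt s b := by
  intro U hU
  obtain ⟨U', hU', ho, hbU⟩ := mem_nhds_iff.1 hU
  have h1 : IsOpen (p '' U'ᶜ)ᶜ := (hp.isClosedMap _ ho.isClosed_compl).isOpen_compl
  have h2 : b ∈ (p '' U'ᶜ)ᶜ := by
    rintro ⟨a, ha, e⟩
    exact ha (hb a e ▸ hbU)
  rw [mem_map]
  filter_upwards [h1.mem_nhds h2] with b' hb'
  by_contra hne
  exact hb' ⟨s b', fun h => hne (hU' h), hs b'⟩

variable {Y X X' : CSp}

/-- the underlying set of the new space -/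
def Gam (q : Y.pt → X.pt) (O : Set X.pt) (j : X.pt → X'.pt) :
    Set (X'.pt × OnePoint ↥(q ⁻¹' O)) :=
  {p | (∃ y : ↥(q ⁻¹' O), p = (j (q y), (y : OnePoint ↥(q ⁻¹' O)))) ∨
    (p.1 ∉ j '' O ∧ p.2 = OnePoint.infty)}

variable {q : Y.pt → X.pt} {N O : Set X.pt} {j : X.pt → X'.pt}

theorem cont_jq (hq : Continuous q) (hj : LocIso X X' O j) :
    Continuous fun y : ↥(q ⁻¹' O) => j (q y) :=
  hj.cont.comp_continuous (hq.comp continuous_subtype_val) fun y => y.2

theorem isClosed_gam (hq : Continuous q) (hj : LocIso X X' O j) : IsClosed (Gam q O j) := by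
  rw [← isOpen_compl_iff, isOpen_iff_mem_nhds]
  rintro ⟨x', t⟩ hp
  induction t using OnePoint.rec with
  | infty =>
    have h1 : x' ∈ j '' O := by
      by_contra h
      exact hp (Or.inr ⟨h, rfl⟩)
    obtain ⟨x, hx, rfl⟩ := h1
    obtain ⟨K, hK, hxK, hKO⟩ := exists_compact_subset hj.isOpen hx
    have hK1 : IsCompact (q ⁻¹' K) := (hK.isClosed.preimage hq).isCompact
    have hK2 : IsCompact ((Subtype.val : ↥(q ⁻¹' O) → Y.pt) ⁻¹' (q ⁻¹' K)) :=
      Topology.IsEmbedding.subtypeVal.isInducing.isCompact_preimage' hK1 (by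
        rw [Subtype.range_val]; exact preimage_mono hKO)
    have hK3 : IsClosed ((Subtype.val : ↥(q ⁻¹' O) → Y.pt) ⁻¹' (q ⁻¹' K)) :=
      (hK.isClosed.preimage hq).preimage continuous_subtype_val
    have h2 : IsOpen (((↑) : ↥(q ⁻¹' O) → OnePoint ↥(q ⁻¹' O)) ''
        (Subtype.val ⁻¹' (q ⁻¹' K)))ᶜ := (OnePoint.isClosed_image_coe.2 ⟨hK3, hK2⟩).isOpen_compl
    have h3 : IsOpen (j '' interior K) :=
      hj.openMap _ (interior_subset.trans hKO) isOpen_interior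
    refine mem_of_superset (prod_mem_nhds (h3.mem_nhds ⟨x, hxK, rfl⟩)
      (h2.mem_nhds OnePoint.infty_notMem_image_coe)) ?_
    rintro ⟨_, t⟩ ⟨⟨z, hz, rfl⟩, ht⟩ hp'
    have hzO : z ∈ O := hKO (interior_subset hz)
    rcases hp' with ⟨y, hy⟩ | ⟨h4, -⟩
    · obtain ⟨e1, e2⟩ := Prod.mk.inj hy
      refine ht ⟨y, ?_, e2.symm⟩
      change q y ∈ K
      rw [← hj.inj hzO y.2 e1]
      exact interior_subset hz
    · exact h4 ⟨z, hzO, rfl⟩
  | coe y =>
    have h1 : IsOpen {p : X'.pt × ↥(q ⁻¹' O) | p.1 ≠ j (q p.2)} :=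
      isOpen_ne_fun continuous_fst ((cont_jq hq hj).comp continuous_snd)
    have h2 := (IsOpenMap.id.prodMap OnePoint.isOpenMap_coe) _ h1
    refine mem_of_superset (h2.mem_nhds ⟨(x', y), fun e => hp (Or.inl ⟨y, ?_⟩), rfl⟩) ?_
    · rw [← e]
    · rintro _ ⟨⟨z, w⟩, hzw, rfl⟩ hp'
      rcases hp' with ⟨y', hy⟩ | ⟨-, h4⟩
      · obtain ⟨e1, e2⟩ := Prod.mk.inj hy
        rw [← OnePoint.coe_injective e2] at e1
        exact hzw e1
      · exact OnePoint.coe_ne_infty w h4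

theorem gam_surj (hq : Function.Surjective q) :
    Function.Surjective fun p : Gam q O j => p.1.1 := by
  intro x'
  by_cases h : x' ∈ j '' O
  · obtain ⟨x, hx, rfl⟩ := h
    obtain ⟨y, rfl⟩ := hq x
    exact ⟨⟨_, Or.inl ⟨⟨y, hx⟩, rfl⟩⟩, rfl⟩
  · exact ⟨⟨(x', OnePoint.infty), Or.inr ⟨h, rfl⟩⟩, rfl⟩

theorem gam_inj (hq : IsoOff Y X q N) (hj : LocIso X X' O j) {p p' : Gam q O j}
    (hp : p.1.1 ∉ j '' N) (e : p'.1.1 = p.1.1) : p' = p := by
  obtain ⟨p, ⟨y, rfl⟩ | ⟨h1, h2⟩⟩ := p <;> obtain ⟨p', ⟨y', rfl⟩ | ⟨h3, h4⟩⟩ := p'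
  · have h5 : q y' = q y := hj.inj y'.2 y.2 e
    have h6 : q y ∉ N := fun h => hp ⟨_, h, rfl⟩
    have h7 : y' = y := Subtype.ext (hq.iso.inj (by change q y' ∉ N; rwa [h5]) h6 h5)
    subst h7
    rfl
  · exact (h3 ⟨_, y.2, e.symm⟩).elim
  · exact (h1 ⟨_, y'.2, e⟩).elim
  · exact Subtype.ext (Prod.ext e (h4.trans h2.symm))

open Classical in
/-- the map from `Y` to the new space -/
def gamJ (s : X'.pt → Gam q O j) (y : Y.pt) : Gam q O j :=
  if h : q y ∈ O then ⟨_, Or.inl ⟨⟨y, h⟩, rfl⟩⟩ else s (j (q y))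

theorem gamJ_val (s : X'.pt → Gam q O j) {y : Y.pt} (h : q y ∈ O) :
    (gamJ s y).1 = (j (q y), ((⟨y, h⟩ : ↥(q ⁻¹' O)) : OnePoint ↥(q ⁻¹' O))) := by
  simp only [gamJ, dif_pos h]

theorem gamJ_fst (s : X'.pt → Gam q O j) {y : Y.pt} (h : q y ∈ O) :
    (gamJ s y).1.1 = j (q y) := by rw [gamJ_val s h]

theorem gamJ_inj (s : X'.pt → Gam q O j) : InjOn (gamJ s) (q ⁻¹' O) := by
  intro y hy y' hy' e
  have h1 := congrArg (fun p : Gam q O j => p.1.2) e
  simp only [gamJ_val s hy, gamJ_val s hy'] at h1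
  exact congrArg Subtype.val (OnePoint.coe_injective h1)

theorem gamJ_image (s : X'.pt → Gam q O j) :
    gamJ s '' (q ⁻¹' O) = (fun p : Gam q O j => p.1.1) ⁻¹' (j '' O) := by
  ext p
  constructor
  · rintro ⟨y, hy, rfl⟩
    exact ⟨q y, hy, (gamJ_fst s hy).symm⟩
  · intro hp
    obtain ⟨p, ⟨y, rfl⟩ | ⟨h1, h2⟩⟩ := p
    · exact ⟨y, y.2, Subtype.ext (gamJ_val s y.2)⟩
    · exact (h1 hp).elim

theorem gamJ_cont (hq : Continuous q) (hj : LocIso X X' O j) (s : X'.pt → Gam q O j) :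
    ContinuousOn (gamJ s) (q ⁻¹' O) := by
  rw [continuousOn_iff_continuous_domRestrict]
  refine continuous_induced_rng.2 ?_
  have h1 : (Subtype.val ∘ (q ⁻¹' O).domRestrict (gamJ s)) =
      fun y : ↥(q ⁻¹' O) => (j (q y), (y : OnePoint ↥(q ⁻¹' O))) :=
    funext fun y => gamJ_val s y.2
  rw [h1]
  exact (cont_jq hq hj).prodMk OnePoint.continuous_coe

theorem gamJ_open (s : X'.pt → Gam q O j) (U : Set Y.pt) (hU : U ⊆ q ⁻¹' O) (hUo : IsOpen U) :
    IsOpen (gamJ s '' U) := by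
  have h1 : gamJ s '' U = (fun p : Gam q O j => p.1.2) ⁻¹'
      (((↑) : ↥(q ⁻¹' O) → OnePoint ↥(q ⁻¹' O)) '' (Subtype.val ⁻¹' U)) := by
    ext p
    constructor
    · rintro ⟨y, hy, rfl⟩
      exact ⟨⟨y, hU hy⟩, hy, by simp only [gamJ_val s (hU hy)]⟩
    · rintro ⟨y, hy, e⟩
      obtain ⟨p, ⟨y', rfl⟩ | ⟨h3, h2⟩⟩ := p
      · obtain rfl : y = y' := OnePoint.coe_injective e
        exact ⟨y, hy, Subtype.ext (gamJ_val s y.2)⟩
      · exact (OnePoint.coe_ne_infty y (e.trans h2)).elim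
  rw [h1]
  exact (OnePoint.isOpenMap_coe _ (hUo.preimage continuous_subtype_val)).preimage
    (continuous_snd.comp continuous_subtype_val)

/-- the holomorphic functions on the new space -/
def gamHol (s : X'.pt → Gam q O j) (g : Gam q O j → ℂ) (p : Gam q O j) : Prop :=
  (∀ y, q y ∈ O → gamJ s y = p → Y.Hol (g ∘ gamJ s) y) ∧ (p.1.1 ∉ j '' O → X'.Hol (g ∘ s) p.1.1)

theorem gam_rIso (hq : Continuous q) (hj : LocIso X X' O j) (s : X'.pt → Gam q O j) :
    RIso Y.Hol (gamHol s) (q ⁻¹' O) (gamJ s) where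
  isOpen := hj.isOpen.preimage hq
  cont := gamJ_cont hq hj s
  inj := gamJ_inj s
  openMap := gamJ_open s
  hol y hy g := ⟨fun h => h.1 y hy rfl, fun h => ⟨fun y' hy' e => by rwa [gamJ_inj s hy' hy e],
    fun h1 => (h1 ⟨q y, hy, (gamJ_fst s hy).symm⟩).elim⟩⟩

theorem isClosed_image (hq : IsoOff Y X q N) (hNO : N ⊆ O) (hj : LocIso X X' O j) :
    IsClosed (j '' N) :=
  (hq.closed.isCompact.image_of_continuousOn (hj.cont.mono hNO)).isClosed

theorem gam_rIso' (hq : IsoOff Y X q N) (hNO : N ⊆ O) (hj : LocIso X X' O j)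
    {s : X'.pt → Gam q O j} (hs : ∀ x', (s x').1.1 = x') :
    RIso X'.Hol (gamHol s) (j '' N)ᶜ s where
  isOpen := (isClosed_image hq hNO hj).isOpen_compl
  cont x' hx' := by
    have : CompactSpace (Gam q O j) :=
      isCompact_iff_compactSpace.1 (isClosed_gam hq.cont hj).isCompact
    refine (continuousAt_sec (p := fun p : Gam q O j => p.1.1)
      (continuous_fst.comp continuous_subtype_val) hs fun p e => ?_).continuousWithinAt
    exact gam_inj hq hj (by rwa [hs]) (e.trans (hs x').symm)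
  inj x _ x' _ e := by rw [← hs x, e, hs]
  openMap U hU hUo := by
    have h1 : s '' U = (fun p : Gam q O j => p.1.1) ⁻¹' U := by
      ext p
      constructor
      · rintro ⟨x, hx, rfl⟩
        change (s x).1.1 ∈ U
        rwa [hs]
      · intro hp
        exact ⟨_, hp, gam_inj hq hj (hU hp) (hs _)⟩
    rw [h1]
    exact hUo.preimage (continuous_fst.comp continuous_subtype_val)
  hol x' hx' g := by
    by_cases h : x' ∈ j '' O
    · obtain ⟨x, hx, rfl⟩ := h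
      obtain ⟨y, rfl⟩ := hq.surj x
      have key : ∀ z, q z ∈ O → q z ∉ N → s (j (q z)) = gamJ s z := fun z h1 h2 =>
        gam_inj hq hj (by
          rw [gamJ_fst s h1]
          rintro ⟨w, hw, e⟩
          exact h2 (hj.inj (hNO hw) h1 e ▸ hw)) (by rw [hs, gamJ_fst s h1])
      have hyN : q y ∉ N := fun h1 => hx' ⟨_, h1, rfl⟩
      rw [key y hx hyN, (gam_rIso hq.cont hj s).hol y hx, hj.hol _ hx, hq.iso.hol y hyN]
      refine hol_congr_iff ?_
      filter_upwards [(hj.isOpen.preimage hq.cont).mem_nhds hx, hq.iso.isOpen.mem_nhds hyN]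
        with z h1 h2
      simp only [Function.comp, key z h1 h2]
    · refine ⟨fun h1 => by simpa only [hs] using h1.2 (by rwa [hs]), fun h1 =>
        ⟨fun y hy e => (h ⟨q y, hy, ?_⟩).elim, fun _ => by rwa [hs]⟩⟩
      rw [← gamJ_fst s hy, e, hs]

theorem surg : StSurg := by
  intro Y X X' q N O j hq hNO hj
  obtain ⟨s, hs⟩ : ∃ s : X'.pt → Gam q O j, ∀ x', (s x').1.1 = x' :=
    ⟨_, Function.surjInv_eq (gam_surj hq.surj)⟩
  have hW : IsOpen (q ⁻¹' O) := hj.isOpen.preimage hq.cont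
  have : LocallyCompactSpace ↥(q ⁻¹' O) := hW.locallyCompactSpace
  have : CompactSpace (Gam q O j) :=
    isCompact_iff_compactSpace.1 (isClosed_gam hq.cont hj).isCompact
  have R := gam_rIso hq.cont hj s
  have R' := gam_rIso' hq hNO hj hs
  have cases : ∀ p : Gam q O j, (∃ y, q y ∈ O ∧ gamJ s y = p) ∨ ∃ x', x' ∉ j '' N ∧ s x' = p := by
    intro p
    by_cases h : p.1.1 ∈ j '' O
    · exact Or.inl ((gamJ_image s).symm.subset h)
    · have h1 : p.1.1 ∉ j '' N := fun h2 => h (image_mono hNO h2)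
      exact Or.inr ⟨_, h1, gam_inj hq hj h1 (hs _)⟩
  let Y' : CSp :=
    { pt := Gam q O j
      Hol := gamHol s
      model := fun p => by
        rcases cases p with ⟨y, hy, rfl⟩ | ⟨x', hx', rfl⟩
        · obtain ⟨n, k, V, Ω, h, φ, hV, hM⟩ := Y.model y
          obtain ⟨V', Ω', φ', h1, h2⟩ := R.model hM hy hV
          exact ⟨n, k, V', Ω', h, φ', h1, h2⟩
        · obtain ⟨n, k, V, Ω, h, φ, hV, hM⟩ := X'.model x'
          obtain ⟨V', Ω', φ', h1, h2⟩ := R'.model hM hx' hV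
          exact ⟨n, k, V', Ω', h, φ', h1, h2⟩ }
  have L : LocIso Y Y' (q ⁻¹' O) (gamJ s) := ⟨R.isOpen, R.cont, R.inj, R.openMap, R.hol⟩
  have L' : LocIso X' Y' (j '' N)ᶜ s := ⟨R'.isOpen, R'.cont, R'.inj, R'.openMap, R'.hol⟩
  refine ⟨Y', fun p => p.1.1, gamJ s, ⟨fun p => ⟨(continuous_fst.comp
    continuous_subtype_val).continuousAt, fun g hg => ?_⟩, gam_surj hq.surj,
    isClosed_image hq hNO hj, ?_⟩, L, gamJ_image s, fun y hy => gamJ_fst s hy⟩
  · rcases cases p with ⟨y, hy, rfl⟩ | ⟨x', hx', rfl⟩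
    · refine (L.hol y hy _).2 (hol_congr ((hq.hol y).2 _ ((hj.hol _ hy g).1 ?_)) ?_)
      · rwa [← gamJ_fst s hy]
      · filter_upwards [hW.mem_nhds hy] with z hz
        simp only [Function.comp, gamJ_fst s hz]
    · refine (L'.hol x' hx' _).2 (hol_congr (by simpa only [hs] using hg) ?_)
      exact Eventually.of_forall fun z => by simp only [Function.comp, hs]
  · have h1 := L'.symm (σ := fun p : Gam q O j => p.1.1) fun x _ => hs x
    have h2 : s '' (j '' N)ᶜ = (fun p : Gam q O j => p.1.1) ⁻¹' (j '' N)ᶜ := by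
      ext p
      constructor
      · rintro ⟨x, hx, rfl⟩
        change (s x).1.1 ∈ (j '' N)ᶜ
        rwa [hs]
      · intro hp
        exact ⟨_, hp, gam_inj hq hj hp (hs _)⟩
    rwa [h2] at h1

end Vale.Agent.P277Z.Glc
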