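import Vale.Agent.P277Z.Glc.Lift1
import Vale.Agent.P277Z.Glc.Surg

/-!
# P277, block GLC: a flip away from `N` lifts to a projective modification along `N`
-/

open scoped Manifold ContDiff Topology
open Vale.Agent.P277 Vale.Agent.P277.HD
open Vale.Agent.P272.K Vale.Agent.P285.H281.FD Set Filter

noncomputable section

namespace Vale.Agent.P277Z.Glc

namespace Grel

variable {Y Y' X Z X' : CSp}

/-- transplantation of relative ampleness -/
theorem ra_near {q : Y.pt → X.pt} {q' : Y'.pt → X'.pt} {N O : Set X'.pt} {σ : X'.pt → X.pt}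
    {κ : Y'.pt → Y.pt} {P : Bd Y.pt} {Q : Bd Y'.pt} (off : IsoOff Y' X' q' N) (hO : IsOpen O)
    (hN : N ⊆ O) (hσ : ∀ x ∈ O, HolMap X' X σ x) (hκ : LocIso Y' Y (q' ⁻¹' O) κ)
    (comm : ∀ y, q' y ∈ O → q (κ y) = σ (q' y)) (hP : IsLBx Y P) (hQ : IsLBx Y' Q)
    (ι : P.ι → Q.ι) (hU : ∀ i y, q' y ∈ O → κ y ∈ P.U i → y ∈ Q.U (ι i))
    (hg : ∀ i j y, Q.g (ι i) (ι j) y = P.g i j (κ y)) (ha : RelAmple Y X q P) :
    RelAmple Y' X' q' Q := by
  intro x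
  by_cases hx : x ∈ N
  · obtain ⟨V, k, n, s, hV, hxV, hk, hs, h1, h2, h3⟩ := ha (σ x)
    choose J hJ using hP.cover
    have hV' : IsOpen (O ∩ σ ⁻¹' V) := ContinuousOn.isOpen_inter_preimage
      (fun x hx => (hσ x hx).1.continuousWithinAt) hO hV
    have mem : ∀ y, q' y ∈ O ∩ σ ⁻¹' V → q (κ y) ∈ V := fun y hy => comm y hy.1 ▸ hy.2
    have key : ∀ l a i y, q' y ∈ O ∩ σ ⁻¹' V → y ∈ Q.U a → κ y ∈ P.U i →
        Q.g a (ι (J (κ y))) y ^ k * s l (J (κ y)) (κ y) = Q.g a (ι i) y ^ k * s l i (κ y) := by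
      intro l a i y hy ha hi
      have e1 : s l (J (κ y)) (κ y) = P.g (J (κ y)) i (κ y) ^ k * s l i (κ y) :=
        (hs l).change _ i _ (mem y hy) (hJ _) hi
      rw [e1, ← hg, ← mul_assoc, ← mul_pow,
        hQ.cocycle _ _ _ y ha (hU _ y hy.1 (hJ _)) (hU i y hy.1 hi)]
    have keyE : ∀ l a y, q' y ∈ O ∩ σ ⁻¹' V → y ∈ Q.U a →
        (fun y => Q.g a (ι (J (κ y))) y ^ k * s l (J (κ y)) (κ y)) =ᶠ[𝓝 y]
          fun y' => Q.g a (ι (J (κ y))) y' ^ k * s l (J (κ y)) (κ y') := by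
      intro l a y hy ha
      filter_upwards [(hV'.preimage off.cont).mem_nhds hy, (hQ.isOpen a).mem_nhds ha,
        (hκ.holMap hy.1).1.eventually ((hP.isOpen _).mem_nhds (hJ _))] with y' b c d
        using key l a _ y' b c d
    have ne : ∀ a y, q' y ∈ O → y ∈ Q.U a → Q.g a (ι (J (κ y))) y ^ k ≠ 0 := fun a y hy ha =>
      pow_ne_zero _ (hQ.ne_zero _ _ y ha (hU _ y hy (hJ _)))
    refine ⟨O ∩ σ ⁻¹' V, k, n, fun l a y => Q.g a (ι (J (κ y))) y ^ k * s l (J (κ y)) (κ y), hV',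
      ⟨hN hx, hxV⟩, hk, fun l => ⟨fun a y hy ha => ?_, fun a b y hy ha hb => ?_⟩,
      fun y a hy ha => ?_, fun y y' a b hy e hne ha hb => ?_, fun y a l hy ha hl g hg => ?_⟩
    · exact hol_congr (hol_mul (hol_pow (hQ.holo _ _ y ha (hU _ y hy.1 (hJ _))) k)
        ((hκ.holMap hy.1).2 _ ((hs l).holo _ _ (mem y hy) (hJ _)))) (keyE l a y hy ha)
    · change Q.g a _ y ^ k * _ = Q.g a b y ^ k * (Q.g b _ y ^ k * _)
      rw [← mul_assoc, ← mul_pow, hQ.cocycle a b _ y ha hb (hU _ y hy.1 (hJ _))]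
    · obtain ⟨l, hl⟩ := h1 _ _ (mem y hy) (hJ _)
      exact ⟨l, mul_ne_zero (ne a y hy.1 ha) hl⟩
    · have hy' : q' y' ∈ O := e ▸ hy.1
      obtain ⟨l, m, hlm⟩ := h2 (κ y) (κ y') _ _ (mem y hy) (by rw [comm y hy.1, comm y' hy', e])
        (fun e' => hne (hκ.inj hy' hy.1 e')) (hJ _) (hJ _)
      refine ⟨l, m, fun he => hlm ?_⟩
      refine mul_left_cancel₀ (mul_ne_zero (ne a y hy.1 ha) (ne b y' hy' hb)) ?_
      linear_combination he
    · have : Nonempty Y'.pt := ⟨y⟩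
      obtain ⟨μ, hμ, isoμ⟩ := hκ.exists_inv
      obtain ⟨K, u, G, hu, hG, hg'⟩ := h3 _ _ l (mem y hy) (hJ _) (right_ne_zero_of_mul hl) (g ∘ μ)
        ((isoμ.holMap ⟨y, hy.1, rfl⟩).2 g (by rwa [hμ y hy.1]))
      have hq : ∀ᶠ y' in 𝓝 y, (fun m => Q.g a (ι (J (κ y'))) y' ^ k * s m (J (κ y')) (κ y') /
          (Q.g a (ι (J (κ y'))) y' ^ k * s l (J (κ y')) (κ y'))) =
            fun m => s m (J (κ y)) (κ y') / s l (J (κ y)) (κ y') := by
        filter_upwards [((hol_continuousAt (hQ.holo _ _ y ha (hU _ y hy.1 (hJ _)))).pow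
          k).eventually_ne (ne a y hy.1 ha), eventually_all.2 fun m => keyE m a y hy ha]
          with y' b c
        funext m
        rw [c m, c l]
        exact mul_div_mul_left _ _ b
      refine ⟨K, fun b => u b ∘ σ, G, fun b => (hσ _ hy.1).2 _ (comm y hy.1 ▸ hu b), ?_, ?_⟩
      · simp only [Function.comp, ← comm y hy.1]
        rw [hq.self_of_nhds]
        exact hG
      · filter_upwards [hq, (hκ.holMap hy.1).1.eventually hg', hκ.isOpen.mem_nhds hy.1]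
          with y' b c d
        simp only [Function.comp, ← comm y' d]
        rw [b, ← c, Function.comp_apply, hμ y' d]
  · obtain ⟨μ, -, s2, s3⟩ := off.exists_sec
    obtain ⟨i₀, hi₀⟩ := hQ.cover (μ x)
    have mem : ∀ y, q' y ∈ Nᶜ ∩ μ ⁻¹' Q.U i₀ → y ∈ Q.U i₀ := fun y hy => s2 y hy.1 ▸ hy.2
    refine ⟨Nᶜ ∩ μ ⁻¹' Q.U i₀, 1, 0, fun _ i => Q.g i i₀,
      s3.cont.isOpen_inter_preimage s3.isOpen (hQ.isOpen i₀), ⟨hx, hi₀⟩, le_rfl,
      fun l => ⟨fun i y hy hi => hQ.holo i i₀ y hi (mem y hy), fun i j y hy hi hj => ?_⟩,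
      fun y i hy hi => ⟨0, hQ.ne_zero i i₀ y hi (mem y hy)⟩,
      fun y y' i j hy e hne _ _ => (hne (by rw [← s2 y hy.1, ← e, s2 y' (e ▸ hy.1)])).elim,
      fun y i l hy _ _ g hg => ?_⟩
    · change Q.g i i₀ y = Q.g i j y ^ 1 * Q.g j i₀ y
      rw [pow_one, hQ.cocycle i j i₀ y hi hj (mem y hy)]
    · refine ⟨1, fun _ => g ∘ μ, fun p => p.1 0,
        fun _ => (s3.holMap hy.1).2 g (by rwa [s2 y hy.1]),
        ((ContinuousLinearMap.proj (R := ℂ) (φ := fun _ : Fin 1 => ℂ) 0).analyticAt _).comp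
          analyticAt_fst, ?_⟩
      filter_upwards [off.iso.isOpen.mem_nhds hy.1] with y' b
      simp only [Function.comp, s2 y' b]

/-- (LIFT1), with the relative ampleness and the density of the preimage of the regular locus -/
theorem lift2 {k : ℕ} {f : X.pt → Z.pt} {f' : X'.pt → Z.pt} {A₀ : Set Z.pt}
    {L : Fin k → Bd X.pt} {L' : Fin k → Bd X'.pt} {c c' : Fin k → ℕ} {ρ : Fin k → ℝ}
    (hc : ∀ e, 1 ≤ c e) (h₀ : HD.IsFlipR X Z X' f f' A₀ L L' c c' ρ) {q : Y.pt → X.pt}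
    {N : Set X.pt} {P : Bd Y.pt} (ε : ℝ) (hY : IsNormal 4 Y) (hq : IsoOff Y X q N)
    (hN : ∀ x ∈ N, f x ∉ HD.Amin f) (hP : IsLBx Y P) (hPt : TrivOn Y (q ⁻¹' Nᶜ) P)
    (hA : RelAmple Y X q P) (hd : Dense (q ⁻¹' {x | IsReg 4 X x})) :
    ∃ (Z₁ Y' : CSp) (F : Y.pt → Z₁.pt) (F' : Y'.pt → Z₁.pt) (A₁ : Set Z₁.pt) (q' : Y'.pt → X'.pt)
      (P' : Bd Y'.pt), IsoOff Y' X' q' (f' ⁻¹' (f '' N)) ∧ IsLBx Y' P' ∧
      TrivOn Y' (q' ⁻¹' (f' ⁻¹' (f '' N))ᶜ) P' ∧ RelAmple Y' X' q' P' ∧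
      Dense (q' ⁻¹' {x | IsReg 4 X' x}) ∧
      HD.IsFlipR Y Z₁ Y' F F' A₁ (liftFam q L P) (liftFam q' L' P')
        (Fin.snoc (α := fun _ => ℕ) c 1) (Fin.snoc (α := fun _ => ℕ) c' 1)
        (Fin.snoc (α := fun _ => ℝ) ρ ε) := by
  have h := flipR_amin h₀ hc
  set A := HD.Amin f
  have hf := locIso_of_small h.small
  have hNf : f ⁻¹' (f '' N) = N := by
    refine Subset.antisymm ?_ (subset_preimage_image f N)
    rintro x ⟨x', hx', e⟩
    rwa [h.small.inj x' x (hN x' hx') e.symm]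
  have disj : ∀ z ∈ f '' N, z ∉ A := by
    rintro _ ⟨x, hx, rfl⟩
    exact hN x hx
  obtain ⟨Z₁, q₁, j₁, off₁, iso₁, img₁, comm₁⟩ := surg Y X Z q N (f ⁻¹' Aᶜ) f hq hN hf
  rw [image_preimage_eq _ h.small.surj] at img₁
  have hs : LocIso Z X' Aᶜ h.small'.sec := by
    have h1 := (locIso_of_small h.small').symm fun x hx => h.small'.sec_apply hx
    rwa [image_preimage_eq _ h.small'.surj] at h1
  have himg : ∀ S : Set X.pt, (∀ x ∈ S, f x ∉ A) →
      (h.small'.sec ∘ f) '' S = f' ⁻¹' (f '' S) := by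
    intro S hS
    ext x'
    constructor
    · rintro ⟨x, hx, rfl⟩
      exact ⟨x, hx, (h.small'.sec_eq _).symm⟩
    · rintro ⟨x, hx, e⟩
      exact ⟨x, hx, by rw [Function.comp_apply, e, h.small'.sec_apply (e ▸ hS x hx)]⟩
  obtain ⟨Y', q', j', off', iso', img', comm'⟩ :=
    surg Y X X' q N (f ⁻¹' Aᶜ) (h.small'.sec ∘ f) hq hN (hs.comp hf fun x hx => hx)
  rw [himg N hN] at off'
  rw [himg (f ⁻¹' Aᶜ) fun x hx => hx, image_preimage_eq _ h.small.surj] at img'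
  have comm'' : ∀ y, f (q y) ∉ A → f' (q' (j' y)) = f (q y) := fun y hy => by
    rw [comm' y hy, Function.comp_apply, h.small'.sec_eq]
  have : Nonempty Y.pt := hY.sing.nonempty
  obtain ⟨κ, hκ, isoκ⟩ := iso'.exists_inv
  have hκW : MapsTo κ (j' '' (q ⁻¹' (f ⁻¹' Aᶜ))) (q ⁻¹' (f ⁻¹' Aᶜ)) := by
    rintro _ ⟨y, hy, rfl⟩
    rwa [hκ y hy]
  obtain ⟨F, H, hF⟩ := exists_lData (hNf.symm ▸ hq) off₁ h.small disj iso₁ img₁ comm₁
  obtain ⟨F', H', hF'⟩ := exists_lData off' off₁ h.small' disj (j := j₁ ∘ κ)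
    (img' ▸ iso₁.comp isoκ hκW) (by
      rw [← img', ← image_comp, ← img₁]
      exact image_congr fun y hy => by simp only [Function.comp, hκ y hy]) (by
      intro y' hy'
      obtain ⟨y, hy, rfl⟩ := img'.symm.subset hy'
      rw [Function.comp_apply, hκ y hy, comm₁ y hy, comm'' y hy])
  have hY' : IsNormal 4 Y' := by
    have : Nonempty Y'.pt := this.map j'
    refine isNormal_of_cover fun y' => ?_
    by_cases hy' : f' (q' y') ∈ A
    · obtain ⟨σ, -, h2, h3⟩ := off'.exists_sec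
      have h4 : q' y' ∉ f' ⁻¹' (f '' N) := fun h5 => disj _ h5 hy'
      exact ⟨X', _, σ, h.normal', h3, q' y', h4, h2 y' h4⟩
    · exact ⟨Y, _, j', hY, iso', img'.symm.subset hy'⟩
  have hPt' := hPt
  obtain ⟨τ, hτ, hτ'⟩ := hPt'
  have hP' : IsLBx Y' (trBd P τ κ (j' '' (q ⁻¹' (f ⁻¹' Aᶜ))) (q' ⁻¹' (f' ⁻¹' (f '' N))ᶜ)) :=
    lb_trBd hP hτ hτ' isoκ off'.iso.isOpen
      (fun y' hy' => img'.symm.subset (disj _ (not_not.1 hy'))) (by
        rintro _ ⟨y, hy, rfl⟩ h1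
        rw [hκ y hy]
        exact fun h2 => h1 ⟨_, h2, (comm'' y hy).symm⟩)
  have corr : ∀ y y', F y ∉ q₁ ⁻¹' A → F' y' = F y → f (q y) ∉ A ∧ y' = j' y := by
    intro y y' hy e
    have h1 : f (q y) ∉ A := by rwa [← H.comm]
    have h2 : F' (j' y) = F y := by
      rw [hF' _ (by rwa [comm'' y h1]), hF y h1, Function.comp_apply, hκ y h1]
    exact ⟨h1, H'.isSmall.inj _ _ (h2 ▸ hy) (e.trans h2.symm)⟩
  have hamp : RelAmple Y' X' q' (trBd P τ κ (j' '' (q ⁻¹' (f ⁻¹' Aᶜ)))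
      (q' ⁻¹' (f' ⁻¹' (f '' N))ᶜ)) := by
    refine ra_near (σ := h.small.sec ∘ f') off' (locIso_of_small h.small').isOpen
      (fun x hx => disj _ hx) (fun x hx => holMap_comp (h.small.holMap_sec hx) (h.small'.holMap x))
      (img' ▸ isoκ) (fun y' hy' => ?_) hP hP' some (fun i y' a b => ⟨img'.symm.subset a, b⟩)
      (fun _ _ _ => rfl) hA
    obtain ⟨y, hy, rfl⟩ := img'.symm.subset hy'
    rw [hκ y hy, Function.comp_apply, comm'' y hy, h.small.sec_apply hy]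
  have hden : Dense (q' ⁻¹' {x | IsReg 4 X' x}) := by
    intro y'
    rw [mem_closure_iff_frequently]
    by_cases hy' : q' y' ∈ f' ⁻¹' (f '' N)
    · obtain ⟨y, hy, rfl⟩ := img'.symm.subset (disj _ hy')
      refine (iso'.holMap hy).1.frequently (((mem_closure_iff_frequently.1 (hd y)).and_eventually
        (iso'.isOpen.mem_nhds hy)).mono fun z hz => ?_)
      change IsReg 4 X' (q' (j' z))
      rw [comm' z hz.2]
      exact (hs.comp hf fun x hx => hx).isReg hz.2 hz.1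
    · have h1 := mem_closure_iff_frequently.1 (h.normal'.dense (q' y'))
      rwa [← off'.iso.map_nhds hy', frequently_map] at h1
  refine ⟨Z₁, Y', F, F', q₁ ⁻¹' A, q', _, off', hP', triv_trBd hP', hamp, hden, hY,
    H.normal hY h.normalZ, hY', H.isSmall, H'.isSmall, H.ninj h.ninj, H'.ninj h.ninj',
    lb_liftFam hq.hol h.lb hP, lb_liftFam off'.hol h.lb' hP', fun e => ?_, ?_, ?_⟩
  · refine Fin.lastCases ?_ (fun e => ?_) e
    · rw [liftFam_last, liftFam_last, Fin.snoc_last, Fin.snoc_last]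
      refine ⟨1, 1, le_rfl, le_rfl, rfl, fun i b z => (trBd P τ κ (j' '' (q ⁻¹' (f ⁻¹' Aᶜ)))
        (q' ⁻¹' (f' ⁻¹' (f '' N))ᶜ)).g b (some i) (H'.isSmall.sec z),
        fun y y' i b hy e hi hb => ?_, fun y y' i i₁ b b₁ hy e hi hi₁ hb hb₁ => ?_⟩
      · obtain ⟨h1, h2⟩ := corr y y' hy e
        have h3 : H'.isSmall.sec (F y) = y' := by rw [← e, H'.isSmall.sec_apply (e ▸ hy)]
        have h4 : y' ∈ j' '' (q ⁻¹' (f ⁻¹' Aᶜ)) ∩ κ ⁻¹' P.U i :=
          ⟨⟨y, h1, h2.symm⟩, by rw [h2, mem_preimage, hκ y h1]; exact hi⟩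
        exact ⟨(H'.isSmall.holMap_sec hy).2 _ (by rw [h3]; exact hP'.holo b (some i) y' hb h4),
          by rw [h3]; exact hP'.ne_zero b (some i) y' hb h4⟩
      · obtain ⟨h1, h2⟩ := corr y y' hy e
        have h3 : H'.isSmall.sec (F y) = y' := by rw [← e, H'.isSmall.sec_apply (e ▸ hy)]
        have h5 : κ y' = y := by rw [h2, hκ y h1]
        have h4 : ∀ i, y ∈ P.U i → y' ∈ j' '' (q ⁻¹' (f ⁻¹' Aᶜ)) ∩ κ ⁻¹' P.U i := fun i hi =>
          ⟨⟨y, h1, h2.symm⟩, by rw [mem_preimage, h5]; exact hi⟩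
        have h6 := hP'.cocycle b (some i) (some i₁) y' hb (h4 i hi) (h4 i₁ hi₁)
        have h7 := hP'.cocycle b₁ b (some i₁) y' hb₁ hb (h4 i₁ hi₁)
        have h8 : (trBd P τ κ (j' '' (q ⁻¹' (f ⁻¹' Aᶜ))) (q' ⁻¹' (f' ⁻¹' (f '' N))ᶜ)).g (some i)
          (some i₁) y' = P.g i i₁ y := by rw [← h5]; rfl
        simp only [h3, Bd.pow, pow_one]
        rw [← h7, ← h6, h8]
        ring
    · rw [liftFam_cast, liftFam_cast, Fin.snoc_castSucc, Fin.snoc_castSucc]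
      obtain ⟨a, b, ha, hb, hab, t, ht⟩ := h.iso e
      refine ⟨a, b, ha, hb, hab, fun i j z => t i j (q₁ z), fun y y' i j hy e hi hj => ?_,
        fun y y' i i₁ j j₁ hy e hi hi₁ hj hj₁ => ?_⟩
      · have h1 := ht.holo (q y) (q' y') i j (corr y y' hy e).1
          (by rw [← H'.comm, e, H.comm]) hi hj
        rw [← H.comm] at h1
        exact ⟨(off₁.hol _).2 _ h1.1, h1.2⟩
      · have h1 := ht.change (q y) (q' y') i i₁ j j₁ (corr y y' hy e).1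
          (by rw [← H'.comm, e, H.comm]) hi hi₁ hj hj₁
        rw [← H.comm] at h1
        exact h1
  · obtain ⟨δ, hδ, ha⟩ := h.ample
    refine ⟨δ, hδ, fun n d hd hn => H.relAmple (lb_inv (lb_lin (lb_liftFam hq.hol h.lb hP) n))
      (M := Bd.inv (HD.Bd.lin L fun e => n e.castSucc)) ?_ (ha _ d hd fun e => ?_)⟩
    · rw [hNf]
      exact (sim_liftFam q L hPt n).inv
    · simpa only [Fin.snoc_castSucc] using hn e.castSucc
  · obtain ⟨δ, hδ, ha⟩ := h.ample'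
    refine ⟨δ, hδ, fun n d hd hn => H'.relAmple (lb_lin (lb_liftFam off'.hol h.lb' hP') n)
      (sim_liftFam q' L' (triv_trBd hP') n) (ha _ d hd fun e => ?_)⟩
    simpa only [Fin.snoc_castSucc] using hn e.castSucc

end Grel

end Vale.Agent.P277Z.Glc
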