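import Vale.Agent.P277Z.Glc.Five

/-!
# P277, block GLC: the induction on the strata
-/

open scoped Topology
open Vale.Agent.P277 hiding Amin IsFlipR
open Vale.Agent.P277.HD Set Filter

noncomputable section

namespace Vale.Agent.P277Z.Glc

variable {D : Dat} {N' N d d' : ℕ}

theorem Emb.a_par {T : Pm D N d} {W : Pm D N d'} {I} (E : Emb T W I) (j : ℕ) (l : Fin T.r) :
    T.a j l = W.a j (E.par l) := by
  simp only [Pm₀.a, Pm₀.α, E.hn, E.hP]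

theorem Emb.gd {T : Pm D N d} {W : Pm D N d'} {I} (E : Emb T W I) (h : W.Gd) : T.Gd := by
  intro l l' hne h1 h2 h3 h4
  by_cases e : E.par l = E.par l'
  · exact E.disj l l' hne e
  · rw [E.a_par] at h1 h2 h3 h4
    exact disjoint_left.2 fun y hy hy' => disjoint_left.1 (h _ _ e h1 h2 h3 h4)
      ((E.mem y _ (E.par_not l)).2 ⟨l, rfl, hy⟩) ((E.mem y _ (E.par_not l')).2 ⟨l', rfl, hy'⟩)

/-- the strata of codimension `≥ c` are not hit by the flips -/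
def Pm.UnhS (W : Pm D N d) (c : ℕ) : Prop :=
  ∀ s ∈ W.Str, c ≤ s.1.card → ∀ y ∈ s.2, W.p 0 y ∉ D.hit

theorem Emb.unh {T : Pm D 0 d} {W : Pm D 0 d'} {I} (E : Emb T W I) (h : W.UnhS (I.card + 1)) :
    T.Unh := by
  classical
  intro l hl y hy
  have h1 : ∀ k ∈ insert (E.par l) I, E.ι y ∈ W.G k :=
    Finset.forall_mem_insert _ _ _ |>.2 ⟨(E.mem y _ (E.par_not l)).2 ⟨l, rfl, hy⟩, E.sub y⟩
  rw [E.hp]
  exact h (insert (E.par l) I, W.cc _ (E.ι y)) ⟨Finset.forall_mem_insert _ _ _ |>.2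
    ⟨E.a_par 0 l ▸ hl, fun k hk => W.a_of (E.lc k hk 0 le_rfl)⟩, _, h1, rfl⟩
    (Finset.card_insert_of_notMem (E.par_not l)).ge _ (W.mem_cc h1)

theorem Hom.unhS (H : HM) {W' : Pm D N' d} {W : Pm D N d} (h : Hom W' W) {c : ℕ}
    (hW : W.UnhS c) : W'.UnhS c := fun _ hs hc y hy =>
  h.hp 0 (Nat.zero_le N) y ▸
    hW _ (h.dn_mem H hs) (((h.over_dn H hs).card H).symm ▸ hc) _ (mem_image_of_mem _ hy)

/-- the inductive hypothesis -/
structure Stage (c : ℕ) (W : Pm D 0 4) : Prop where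
  res : ∃ exc, W.Res exc
  eff : W.Eff
  adj : W.Adjw
  unh : W.UnhS c

/-- the geometric inputs -/
structure HG : Prop extends HM where
  adj : StAdj
  embH : StEmbH
  model : StModel
  good : StGood
  ext : StExt
  discW : StDiscW
  six : StSix
  sbr : StSBr

theorem exists_top (H : HG) (W : Pm D 0 4) (h1 : ∃ exc, W.Res exc) (h2 : W.Eff) :
    ∃ S : Tw D 4, S.T 0 = W ∧ ∀ j, (∃ exc, (S.T j).Res exc) ∧ (S.T j).Eff ∧
      (j ≠ 0 → ∃ Y q ex, (S.T j).Dlt Y q ex) := by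
  refine exists_tw (fun j W => (∃ exc, W.Res exc) ∧ W.Eff ∧ (j ≠ 0 → ∃ Y q ex, W.Dlt Y q ex))
    ?_ W ⟨h1, h2, fun h => absurd rfl h⟩
  rintro j W ⟨⟨exc, a1⟩, a2, -⟩
  obtain ⟨W₁, exc₁, b1, ⟨k₁⟩⟩ := H.model D j W exc a1
  have b2 := k₁.eff H.pre H.jac H.thin H.exc a2
  obtain ⟨W₂, exc₂, c1, ⟨k₂⟩, Y, q, ex, g, P, n, c2⟩ := H.ext D _ W₁ exc₁ b1 b2
  obtain ⟨k, -⟩ := H.comp D _ _ _ _ _ _ _ k₂ k₁
  exact ⟨W₂, ⟨⟨exc₂, c1⟩, k₂.eff H.pre H.jac H.thin H.exc b2, fun _ => ⟨Y, q, ex, c2.dlt⟩⟩, ⟨k⟩⟩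

theorem Stage.prep (H : HG) {c : ℕ} {W : Pm D 0 4} (h : Stage c W) :
    ∃ (D' : Dat) (W' : Pm D' 0 4), Stage c W' ∧ W'.Alive ∧ W'.Gd := by
  obtain ⟨S, rfl, hS⟩ := exists_top H W h.res h.eff
  obtain ⟨K, -⟩ := exists_comp H.toHM (ν := fun j => j) S.T S.h
  obtain ⟨J, hJ⟩ := S.alive H.toHM
  obtain ⟨exc, h1⟩ := (hS J).1
  obtain ⟨W', exc', h2, ⟨k⟩, h3⟩ := H.good _ 0 (S.T J).sh exc h1
  refine ⟨_, W', ⟨⟨exc', h2⟩, k.eff H.pre H.jac H.thin H.exc (hS J).2.1, k.adjw H.jac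
    fun l hl => (S.T J).adjN ((K J).adjw H.jac h.adj) hl J le_rfl, k.unhS H.toHM ?_⟩,
    k.alive H.toHM hJ, h3⟩
  exact fun s hs hc y hy => (S.T J).not_hit_shift le_rfl ((K J).unhS H.toHM h.unh s hs hc y hy)

theorem Stage.step (H : HG) {c : ℕ} (hc : 1 ≤ c) {W : Pm D 0 4} (h : Stage (c + 1) W)
    (hA : W.Alive) (hG : W.Gd) : ∃ (D' : Dat) (W' : Pm D' 0 4), Stage c W' := by
  obtain ⟨S, rfl, hS⟩ := exists_top H W h.res h.eff
  obtain ⟨K, -, -, hK⟩ := exists_comp H.toHM (ν := fun j => j) S.T S.h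
  have hadj := fun j => (K j).adjw H.jac h.adj
  have key : ∀ s ∈ (S.T 0).Str, ∀ᶠ j in atTop, c ≤ s.1.card → ∀ s' ∈ (S.T j).Str,
      (K j).dn s' = s → ∀ y ∈ s'.2, (S.T j).p j y ∉ (D.shift j).hit := by
    intro s hs
    have hcard : ∀ j, ∀ s' ∈ (S.T j).Str, (K j).dn s' = s → s'.1.card = s.1.card :=
      fun j s' h1 h2 => h2 ▸ (((K j).over_dn H.toHM h1).card H.toHM).symm
    by_cases h0 : s.1.card = c
    swap
    · refine Eventually.of_forall fun j h1 s' h2 h3 y hy => (S.T j).not_hit_shift le_rfl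
        ((K j).unhS H.toHM h.unh s' h2 ?_ y hy)
      rw [hcard j s' h2 h3]
      omega
    choose σ σ1 σ2 using fun j => (K j).surj_str H.toHM hA hs
    have σ3 : ∀ j, (S.h j).dn (σ (j + 1)) = σ j := fun j => (K j).dn_inj H.toHM
      ((S.h j).dn_mem H.toHM (σ1 _)) (σ1 j) (by rw [← (hK j).dn H.toHM, σ2, σ2])
    have h4 : c ≤ 4 := by
      obtain ⟨-, y, h1, -⟩ := hs
      exact h0 ▸ (S.T 0).card_le' h1
    have hT : ∀ j, ∃ (T : Pm D j (4 - c)) (E : Emb T (S.T j) (σ j).1), range E.ι = (σ j).2 := by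
      intro j
      obtain ⟨h1, y, h2, h3⟩ := σ1 j
      rw [h3]
      exact H.adj D j _ 4 _ _ y (by rw [hcard j _ (σ1 j) (σ2 j)]; omega) h2
        fun l hl => (S.T j).adjN (hadj j) (h1 l hl)
    choose T E hE using hT
    have ho : ∀ j, (S.h j).Over (σ j).1 (σ (j + 1)).1 := fun j =>
      σ3 j ▸ (S.h j).over_dn H.toHM (σ1 _)
    choose k hk using fun j => H.embH D _ _ _ 4 _ _ (S.h j) _ _ _ _ (E (j + 1)) (E j) (ho j)
      (by rw [hE, hE]; exact congrArg Prod.snd (σ3 j))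
    choose exc hexc using fun j => (hS j).1
    choose Y q ex hd using fun j => (hS (j + 1)).2.2 j.succ_ne_zero
    obtain ⟨J, hJ⟩ := Tws.off H.toHM H.discW H.six H.sbr
      ⟨⟨T, k⟩, S.T, S.h, fun j => (σ j).1, E, ho, hk, exc, hexc, Y, q, ex, hd⟩ (by omega) h.eff
      ((E 0).gd hG) ((E 0).unh (by rw [hcard 0 _ (σ1 0) (σ2 0), h0]; exact h.unh))
    filter_upwards [eventually_ge_atTop J] with j hj _ s' h1 h2 y hy
    obtain rfl := (K j).dn_inj H.toHM h1 (σ1 j) (h2.trans (σ2 j).symm)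
    obtain ⟨y, rfl⟩ : y ∈ range (E j).ι := hE j ▸ hy
    rw [← (E j).hp]
    exact Tw.Off.unhit H.toHM (S := ⟨T, k⟩) (fun i hi => hJ i (hj.trans hi)) y
  obtain ⟨J, hJ⟩ := ((eventually_all_finite (S.T 0).str_fin).2 key).exists
  exact ⟨_, (S.T J).sh, (hS J).1, (hS J).2.1, fun l hl => (S.T J).adjN (hadj J) hl J le_rfl,
    fun s hs h1 => hJ _ ((K J).dn_mem H.toHM hs)
      ((((K J).over_dn H.toHM hs).card H.toHM).symm ▸ h1) s hs rfl⟩

theorem grel₀ (H : HM) (hE : StExt) (h1 : StGrel₁) (W : Pm D 0 4) {exc} (hR : W.Res exc)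
    (h2 : W.Eff) (h3 : W.Unh) : False := by
  obtain ⟨W', _, -, ⟨k⟩, Y, q, ex, g, P, n, h⟩ := hE D 0 W exc hR h2
  exact h1 D W' Y q ex g P n h (k.eff H.pre H.jac H.thin H.exc h2)
    fun l hl y hy => k.unh H.pre H.jac h3 hl hy

theorem grel_of (H : HM) (hE : StExt) (hL : StLRes) (h1 : StGrel₁) : StGrel := by
  intro D W h h2 h3
  obtain ⟨W', _, hR, ⟨k⟩⟩ := hL D W h
  exact grel₀ H hE h1 W' hR (k.eff H.pre H.jac H.thin H.exc h2)
    fun l hl y hy => k.unh H.pre H.jac h3 hl hy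

theorem glc_of (H : HG) (hR : StReg) (h1 : StGrel₁) : StGlc := by
  have key : ∀ c, ∀ (D : Dat) (W : Pm D 0 4), ¬ Stage (c + 1) W := by
    intro c
    induction c with
    | zero =>
      intro D W h
      obtain ⟨exc, h2⟩ := h.res
      refine grel₀ H.toHM H.ext h1 W h2 h.eff fun l hl y hy => ?_
      have h3 : ∀ k ∈ ({l} : Finset (Fin W.r)), y ∈ W.G k := by simpa using hy
      exact h.unh ({l}, W.cc {l} y) ⟨by simpa using hl, y, h3, rfl⟩ (by simp) y (W.mem_cc h3)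
    | succ c ih =>
      intro D W h
      obtain ⟨D', W', a1, a2, a3⟩ := h.prep H
      obtain ⟨D'', W'', a4⟩ := a1.step H (by omega) a2 a3
      exact ih D'' W'' a4
  intro D W exc h2 h3
  obtain ⟨D', W', exc', a1, a2, a3⟩ := hR D W exc h2 h3
  refine key 4 D' W' ⟨⟨exc', a1⟩, a2, a3, ?_⟩
  rintro s ⟨-, y, h4, -⟩ h5
  exact absurd (W'.card_le' h4) (by omega)

end Vale.Agent.P277Z.Glc
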