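import Vale.Agent.P272.K.AMP.Prod.Metric
import Mathlib.Topology.Instances.AddCircle.Real

/-!
# P277, GLC: the elliptic curve `E = C / (Z + i Z)`, with translation charts
-/

open scoped Manifold ContDiff ComplexOrder Topology
open Set Filter Vale.Agent.P272.K

noncomputable section

namespace Vale.Agent.P277Z.Glc.Pr

/-- the elliptic curve -/
def El : Type := UnitAddCircle × UnitAddCircle

instance : TopologicalSpace El := inferInstanceAs (TopologicalSpace (UnitAddCircle × UnitAddCircle))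
instance : T2Space El := inferInstanceAs (T2Space (UnitAddCircle × UnitAddCircle))
instance : CompactSpace El := inferInstanceAs (CompactSpace (UnitAddCircle × UnitAddCircle))
instance : ConnectedSpace El := inferInstanceAs (ConnectedSpace (UnitAddCircle × UnitAddCircle))
instance : Nonempty El := inferInstanceAs (Nonempty (UnitAddCircle × UnitAddCircle))
instance : SecondCountableTopology El :=
  inferInstanceAs (SecondCountableTopology (UnitAddCircle × UnitAddCircle))

/-- `R x R = C^1` -/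
def rc : ℝ × ℝ ≃ₜ Cm 1 where
  toFun p := fun _ => (p.1 : ℂ) + (p.2 : ℂ) * Complex.I
  invFun z := ((z 0).re, (z 0).im)
  left_inv p := by simp
  right_inv z := by
    funext i
    have : i = 0 := Subsingleton.elim _ _
    subst this
    exact Complex.re_add_im _
  continuous_toFun := by fun_prop
  continuous_invFun := by fun_prop

/-- the real chart -/
def rch (a : ℝ) : OpenPartialHomeomorph UnitAddCircle ℝ :=
  (AddCircle.openPartialHomeomorphCoe (1 : ℝ) a).symm

lemma rch_symm (a t : ℝ) : (rch a).symm t = (t : UnitAddCircle) := rfl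

lemma rch_source (a : ℝ) : (rch a).source = {(a : UnitAddCircle)}ᶜ := rfl

lemma coe_rch (a : ℝ) {x : UnitAddCircle} (hx : x ∈ (rch a).source) :
    ((rch a x : ℝ) : UnitAddCircle) = x := (rch a).left_inv hx

lemma rch_ev (a : ℝ) {t : ℝ} (ht : (t : UnitAddCircle) ∈ (rch a).source) :
    ∀ᶠ s : ℝ in 𝓝 t, rch a (s : UnitAddCircle) = s + (rch a (t : UnitAddCircle) - t) := by
  have hc : Continuous fun s : ℝ => (s : UnitAddCircle) := AddCircle.continuous_mk' 1
  have h1 : ∀ᶠ s : ℝ in 𝓝 t, (s : UnitAddCircle) ∈ (rch a).source :=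
    hc.continuousAt.eventually ((rch a).open_source.mem_nhds ht)
  have h2 : ContinuousAt (fun s : ℝ => rch a (s : UnitAddCircle) - s) t :=
    (ContinuousAt.comp (f := fun s : ℝ => (s : UnitAddCircle)) ((rch a).continuousAt ht)
      hc.continuousAt).sub continuousAt_id
  have h3 : ∀ᶠ s : ℝ in 𝓝 t,
      dist (rch a (s : UnitAddCircle) - s) (rch a (t : UnitAddCircle) - t) < 1 :=
    h2.eventually (Metric.ball_mem_nhds _ one_pos)
  have key : ∀ s : ℝ, (s : UnitAddCircle) ∈ (rch a).source →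
      ∃ k : ℤ, rch a (s : UnitAddCircle) - s = k := by
    intro s hs
    have h4 : ((rch a (s : UnitAddCircle) - s : ℝ) : UnitAddCircle) = 0 := by
      rw [AddCircle.coe_sub, coe_rch a hs, sub_self]
    obtain ⟨k, hk⟩ := (AddCircle.coe_eq_zero_iff (1 : ℝ)).1 h4
    exact ⟨k, by rw [← hk]; simp⟩
  filter_upwards [h1, h3] with s hs hd
  obtain ⟨k, hk⟩ := key s hs
  obtain ⟨l, hl⟩ := key t ht
  rw [hk, hl, Real.dist_eq] at hd
  have h5 : k = l := by
    have h6 : |k - l| < 1 := by exact_mod_cast hd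
    have := Int.abs_lt_one_iff.1 h6
    omega
  rw [hl, ← h5, ← hk]
  ring

/-- the charts of `E` -/
def ech (a : ℝ × ℝ) : Chart 1 El :=
  (((rch a.1).prod (rch a.2)).transHomeomorph rc : OpenPartialHomeomorph (UnitAddCircle × UnitAddCircle) (Cm 1))

lemma ech_source (a : ℝ × ℝ) (x : El) :
    x ∈ (ech a).source ↔ x.1 ∈ (rch a.1).source ∧ x.2 ∈ (rch a.2).source := Iff.rfl

lemma ech_apply (a : ℝ × ℝ) (x : El) : ech a x = rc (rch a.1 x.1, rch a.2 x.2) := rfl

lemma ech_symm (a : ℝ × ℝ) (z : Cm 1) :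
    (ech a).symm z = ((((z 0).re : ℝ) : UnitAddCircle), (((z 0).im : ℝ) : UnitAddCircle)) := rfl

lemma exists_rch (x : UnitAddCircle) : ∃ a : ℝ, x ∈ (rch a).source := by
  obtain ⟨t, rfl⟩ := QuotientAddGroup.mk_surjective x
  refine ⟨t + 1 / 2, ?_⟩
  rw [rch_source]
  intro h
  have h1 : ((t : ℝ) : UnitAddCircle) = ((t + 1 / 2 : ℝ) : UnitAddCircle) := h
  have h2 : ((t + 1 / 2 - t : ℝ) : UnitAddCircle) = 0 := by
    rw [AddCircle.coe_sub, ← h1, sub_self]
  obtain ⟨k, hk⟩ := (AddCircle.coe_eq_zero_iff (1 : ℝ)).1 h2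
  have h3 : (k : ℝ) = 1 / 2 := by simpa using hk
  have h4 : (2 * k : ℤ) = 1 := by
    have : (2 * k : ℝ) = 1 := by rw [h3]; norm_num
    exact_mod_cast this
  omega

instance : ChartedSpace (Cm 1) El where
  atlas := range ech
  chartAt x := ech ((exists_rch x.1).choose, (exists_rch x.2).choose)
  mem_chart_source x := ⟨(exists_rch x.1).choose_spec, (exists_rch x.2).choose_spec⟩
  chart_mem_atlas _ := ⟨_, rfl⟩

/-- the changes of charts are translations -/
lemma trans_ev {e e' : Chart 1 El} {x : El} (h : At e x) (h' : At e' x) :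
    ∀ᶠ z in 𝓝 (e x), e' (e.symm z) = z + (e' x - e x) := by
  obtain ⟨⟨a, rfl⟩, hx⟩ := h
  obtain ⟨⟨b, rfl⟩, hx'⟩ := h'
  rw [ech_source] at hx hx'
  have e1 : (ech a x 0).re = rch a.1 x.1 := by simp [ech_apply, rc]
  have e2 : (ech a x 0).im = rch a.2 x.2 := by simp [ech_apply, rc]
  have c1 : ContinuousAt (fun z : Cm 1 => (z 0).re) (ech a x) :=
    (Complex.continuous_re.comp (continuous_apply 0)).continuousAt
  have c2 : ContinuousAt (fun z : Cm 1 => (z 0).im) (ech a x) :=
    (Complex.continuous_im.comp (continuous_apply 0)).continuousAt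
  have k1 := rch_ev b.1 (t := rch a.1 x.1) (by rw [coe_rch _ hx.1]; exact hx'.1)
  have k2 := rch_ev b.2 (t := rch a.2 x.2) (by rw [coe_rch _ hx.2]; exact hx'.2)
  rw [coe_rch _ hx.1] at k1
  rw [coe_rch _ hx.2] at k2
  rw [← e1] at k1
  rw [← e2] at k2
  filter_upwards [c1.eventually k1, c2.eventually k2] with z h1 h2
  funext i
  have : i = 0 := Subsingleton.elim _ _
  subst this
  show ((rch b.1 (((z 0).re : ℝ) : UnitAddCircle) : ℝ) : ℂ) +
    ((rch b.2 (((z 0).im : ℝ) : UnitAddCircle) : ℝ) : ℂ) * Complex.I = _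
  rw [h1, h2, e1, e2]
  apply Complex.ext <;> simp [ech_apply, rc]

instance : IsManifold 𝓘(ℂ, Cm 1) ω El := by
  refine isManifold_of_contDiffOn _ _ _ ?_
  intro e e' he he' z hz
  refine ContDiffAt.contDiffWithinAt ?_
  simp only [mfld_simps, OpenPartialHomeomorph.trans_toPartialEquiv] at hz
  have h1 : z ∈ e.target := hz.1
  have hx : At e (e.symm z) := At.of_target he h1
  have hx' : At e' (e.symm z) := ⟨he', hz.2⟩
  have h2 := trans_ev hx hx'
  rw [e.right_inv h1] at h2
  have h3 : ContDiffAt ℂ ω (fun y : Cm 1 => y + (e' (e.symm z) - z)) z :=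
    contDiffAt_id.add contDiffAt_const
  exact h3.congr_of_eventuallyEq h2

lemma jacM_El {e e' : Chart 1 El} {x : El} (h : At e x) (h' : At e' x) : jacM e e' x = 1 := by
  ext p i
  have hp : p = 0 := Subsingleton.elim _ _
  have hi : i = 0 := Subsingleton.elim _ _
  subst hp hi
  have h2 : (fun z => e' (e.symm z) 0) =ᶠ[𝓝 (e x)] fun z => z 0 + (e' x - e x) 0 := by
    filter_upwards [trans_ev h h'] with z hz
    rw [hz]; rfl
  have h3 : HasFDerivAt (fun z : Cm 1 => z 0 + (e' x - e x) 0)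
      (ContinuousLinearMap.proj (R := ℝ) (φ := fun _ : Fin 1 => ℂ) 0) (e x) :=
    (ContinuousLinearMap.proj (R := ℝ) (φ := fun _ : Fin 1 => ℂ) 0).hasFDerivAt.add_const _
  simp only [jacM, Matrix.of_apply, dz, h2.fderiv_eq, h3.fderiv]
  simp

/-- the flat metric -/
def flat : Chart 1 El → Cm 1 → Matrix (Fin 1) (Fin 1) ℂ := fun _ _ => 1

lemma flat_kahler : IsKahler flat := by
  refine ⟨⟨fun e x _ i j => contDiffAt_const, fun e x _ => Matrix.PosDef.one,
    fun e e' x h h' => ?_⟩, fun e x _ i j k => ?_⟩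
  · rw [jacM_El h h']
    simp [flat]
  · have : k = i := Subsingleton.elim _ _
    rw [this]

end Vale.Agent.P277Z.Glc.Pr
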