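import Vale.Agent.P277Z.Glc.ProdM
import Vale.Agent.P277Z.GH.KahA

/-!
# P277, GLC: the product with `E` of a Kaehler space
-/

open scoped Manifold ContDiff Topology ComplexOrder
open Set Filter Vale.Agent.P272.K Vale.Agent.P272.K.Prod Vale.Agent.P285.H281.FD
open Vale.Agent.P277 Vale.Agent.P277Z.St Vale.Agent.P277Z.GH
open Vale.Agent.P284Z (levi)
open Vale.Agent.P284Y.Lib (levi_hol levi_add levi_sub levi_congr two_le_inf)
open Vale.Agent.P284Y.Ps (levi_nsq)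

noncomputable section

namespace Vale.Agent.P277Z.Glc.Pr

variable {X : CSp}

theorem sp_prod {u : X.pt → ℝ} {p : X.pt × El} (hu : Sp X u p.1) {e : Chart 1 El} (he : At e p.2) :
    Sp (prodE X) (fun q => u q.1 + ‖e q.2 0‖ ^ 2) p := by
  obtain ⟨N, k, V, Ω, h, φ, ψ, a1, a2, a3, a4⟩ := hu
  let π : Cm (N + 1) →L[ℂ] ℂ := ContinuousLinearMap.proj (Fin.natAdd N 0)
  refine ⟨N + 1, k, _, _, _, _, fun z => ψ (fstP z) + ‖π z‖ ^ 2, mk_mem_prod a1 he.2,
    model_prod a2 he.1, fun z hz => ?_, fun y hy => by simp [a4 _ hy.1, π]⟩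
  have b1 : ContDiffAt ℝ ∞ (fun z : Cm (N + 1) => ψ (fstP z)) z :=
    (a3 _ hz.1).1.comp z contDiff_fstP.contDiffAt
  have b2 : ContDiffAt ℝ ∞ (fun z => ‖π z‖ ^ 2) z :=
    ((contDiff_norm_sq ℝ).comp (π.restrictScalars ℝ).contDiff).contDiffAt
  have b3 := (a3 _ hz.1).1.of_le two_le_inf
  refine ⟨b1.add b2, Pos.RbAux.posDef_of_levi ((b1.add b2).of_le two_le_inf) fun w hw => ?_⟩
  rw [levi_add (b1.of_le two_le_inf) (b2.of_le two_le_inf), levi_hol (an_fstP z) b3,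
    levi_nsq (π.analyticAt z), π.fderiv, show fderiv ℂ fstP z = fstL N from (fstL N).fderiv]
  by_cases c : fstL N w = 0
  · have c1 : π w ≠ 0 := fun c1 => hw (by
      rw [← glue_fst_snd w, show fstP w = 0 from c, show sndP w = 0 from
        funext fun i => Subsingleton.elim (0 : Fin 1) i ▸ c1]
      funext j
      refine Fin.addCases (fun i => ?_) (fun i => ?_) j <;> simp)
    rw [c, Ka.levi_zero]
    positivity
  · have := Ka.levi_pos b3 (a3 _ hz.1).2 c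
    positivity

/-- (KPROD) -/
theorem kahR_prod {R : Set X.pt} (h : KahR X R) : KahR (prodE X) (Prod.fst ⁻¹' R) := by
  obtain ⟨ι, U, u, a1, a2, a3, a4⟩ := h
  have at' : ∀ {t s : El}, t ∈ (chartAt (Cm 1) s).source → At (chartAt (Cm 1) s) t :=
    fun h => ⟨chart_mem_atlas _ _, h⟩
  refine ⟨ι × El, fun i => U i.1 ×ˢ (chartAt (Cm 1) i.2).source,
    fun i q => u i.1 q.1 + ‖chartAt (Cm 1) i.2 q.2 0‖ ^ 2,
    fun i => (a1 _).prod (chartAt (Cm 1) i.2).open_source, fun q => ?_,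
    fun i q hq => sp_prod (a3 _ _ hq.1) (at' hq.2), fun i j d g z b1 b2 b3 b4 => ?_⟩
  · obtain ⟨i, hi⟩ := a2 q.1
    exact ⟨(i, q.2), hi, mem_chart_source _ _⟩
  have c1 : HolAt X (fun w => (g w).1) z :=
    ⟨continuous_fst.continuousAt.comp b1.1, fun f hf => b1.2 _ (hol_fst hf)⟩
  have c2 := (Ka.sm_two c1 (Ka.sp_sm (a3 _ _ b3.1))).sub (Ka.sm_two c1 (Ka.sp_sm (a3 _ _ b4.1)))
  have c3 := a4 _ _ d _ z c1 b2 b3.1 b4.1
  have c4 : AnalyticAt ℂ (fun w => chartAt (Cm 1) i.2 (g w).2 0) z := b1.2 _ (hol_snd (at' b3.2) 0)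
  have c5 : AnalyticAt ℂ (fun w => chartAt (Cm 1) j.2 (g w).2 0) z := b1.2 _ (hol_snd (at' b4.2) 0)
  set e := chartAt (Cm 1) i.2
  set e' := chartAt (Cm 1) j.2
  have c6 : (fun w => e' (g w).2 0) =ᶠ[𝓝 z] fun w => e (g w).2 0 + (e' (g z).2 - e (g z).2) 0 := by
    have k : ContinuousAt (fun w => (g w).2) z := continuous_snd.continuousAt.comp b1.1
    filter_upwards [(ContinuousAt.comp (f := fun w => (g w).2) (e.continuousAt b3.2) k).eventually
      (trans_ev (at' b3.2) (at' b4.2)), k.eventually (ev_source (at' b3.2))] with w k1 k2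
    exact congrFun ((congrArg e' k2).symm.trans k1) 0
  have nq : ∀ {F : Cm d → ℂ}, AnalyticAt ℂ F z → ContDiffAt ℝ 2 (fun w => ‖F w‖ ^ 2) z := fun k =>
    (contDiff_norm_sq ℝ).contDiffAt.comp z ((k.contDiffAt (n := 2)).restrict_scalars ℝ)
  have c7 : cHess (fun w => ‖e (g w).2 0‖ ^ 2 - ‖e' (g w).2 0‖ ^ 2) z = 0 :=
    Ka.cHess_zero ((nq c4).sub (nq c5)) fun ξ => by
      rw [levi_sub (nq c4) (nq c5), levi_nsq c4, levi_nsq c5]
      have k : fderiv ℂ (fun w => e' (g w).2 0) z = _ := c6.fderiv_eq.trans (fderiv_add_const _)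
      exact sub_eq_zero.2 (congrArg (fun L : Cm d →L[ℂ] ℂ => 4 * ‖L ξ‖ ^ 2) k.symm)
  have c8 := C2.cHess_add c2 ((nq c4).sub (nq c5))
  rw [c3, c7, add_zero] at c8
  refine Eq.trans (congrArg (cHess · z) (funext fun w => ?_)) c8
  ring

end Vale.Agent.P277Z.Glc.Pr
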