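import Vale.Agent.P277Z.Glc.ProdX

/-!
# P277, GLC: the product of a complex manifold with the elliptic curve `E`
-/

open scoped Manifold ContDiff Topology ComplexOrder
open Set Filter Vale.Agent.P272.K Vale.Agent.P272.K.Prod Vale.Agent.P285.H281.FD
open Vale.Agent.P277 Vale.Agent.P277.HD

noncomputable section

namespace Vale.Agent.P277Z.Glc.Pr

/-- `ζ` is a local equation of the smooth hypersurface `G` at `y` (any dimension) -/
def LEq (n : ℕ) {Y : Type} [TopologicalSpace Y] [ChartedSpace (Cm n) Y] (G : Set Y) (y : Y)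
    (ζ : Y → ℂ) : Prop :=
  (∀ᶠ y' in 𝓝 y, (ζ y' = 0 ↔ y' ∈ G)) ∧ ∀ e : Chart n Y, At e y →
    AnalyticAt ℂ (fun z => ζ (e.symm z)) (e y) ∧
      (ζ y = 0 → fderiv ℂ (fun z => ζ (e.symm z)) (e y) ≠ 0)

theorem lEq_iff {Y : Type} [TopologicalSpace Y] [ChartedSpace (Cm 4) Y] {G : Set Y} {y : Y}
    {ζ : Y → ℂ} : IsLEq G y ζ ↔ LEq 4 G y ζ := Iff.rfl

variable {n : ℕ} {Y : Type} [TopologicalSpace Y] [ChartedSpace (Cm n) Y]

instance csE : ChartedSpace (Cm (n + 1)) (Y × El) := prodCS n 1 Y El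

instance mfE [IsManifold 𝓘(ℂ, Cm n) ω Y] : IsManifold 𝓘(ℂ, Cm (n + 1)) ω (Y × El) :=
  isManifold_prod

theorem kahler_prod {χ : Chart n Y → Cm n → Matrix (Fin n) (Fin n) ℂ} (h : IsKahler χ) :
    IsKahler (n := n + 1) (X := Y × El) (pm χ flat) := pm_kahler h flat_kahler

theorem atE {e : Chart n Y} {e' : Chart 1 El} {p : Y × El} (h : At e p.1) (h' : At e' p.2) :
    At (pc e e') p := at_pc h h'

theorem atE_dec {E : Chart (n + 1) (Y × El)} {p : Y × El} (h : At E p) :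
    ∃ (e : Chart n Y) (e' : Chart 1 El), E = pc e e' ∧ At e p.1 ∧ At e' p.2 := at_dec h

/-- functions of the first variable -/
theorem cd_fst {𝕜 F : Type} [NontriviallyNormedField 𝕜] [NormedAlgebra 𝕜 ℂ] [NormedAddCommGroup F]
    [NormedSpace 𝕜 F] {r : WithTop ℕ∞} {f : Y → F} {p : Y × El}
    (hf : ∀ e : Chart n Y, At e p.1 → ContDiffAt 𝕜 r (fun z => f (e.symm z)) (e p.1))
    (E : Chart (n + 1) (Y × El)) (hE : At E p) :
    ContDiffAt 𝕜 r (fun z => f (E.symm z).1) (E p) := by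
  obtain ⟨e, e', rfl, h1, -⟩ := atE_dec hE
  have h2 := hf e h1
  rw [← fstP_glue (e p.1) (e' p.2)] at h2
  exact ContDiffAt.comp (g := fun z => f (e.symm z)) (pc e e' p) h2 contDiff_fstP.contDiffAt

theorem an_fst {F : Type} [NormedAddCommGroup F] [NormedSpace ℂ F] {f : Y → F} {p : Y × El}
    (hf : ∀ e : Chart n Y, At e p.1 → AnalyticAt ℂ (fun z => f (e.symm z)) (e p.1))
    (E : Chart (n + 1) (Y × El)) (hE : At E p) :
    AnalyticAt ℂ (fun z => f (E.symm z).1) (E p) := by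
  obtain ⟨e, e', rfl, h1, -⟩ := atE_dec hE
  have h2 := hf e h1
  rw [← fstP_glue (e p.1) (e' p.2)] at h2
  exact AnalyticAt.fun_comp (g := fun z => f (e.symm z)) (f := fstP) h2 (an_fstP (pc e e' p))

/-- the projection `C^(n+1) → C^n` -/
def fstL (n : ℕ) : Cm (n + 1) →L[ℂ] Cm n :=
  ContinuousLinearMap.pi fun i => ContinuousLinearMap.proj (Fin.castAdd 1 i)

lemma fstL_apply (z : Cm (n + 1)) : fstL n z = fstP z := rfl

lemma fstL_surjective : Function.Surjective (fstL n) := fun a => ⟨glue a 0, fstP_glue _ _⟩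

theorem fderiv_fstP {F : Type} [NormedAddCommGroup F] [NormedSpace ℂ F] {f : Cm n → F}
    {z : Cm (n + 1)} (hf : DifferentiableAt ℂ f (fstP z)) :
    fderiv ℂ (fun w => f (fstP w)) z = (fderiv ℂ f (fstP z)).comp (fstL n) :=
  (hf.hasFDerivAt.comp z (fstL n).hasFDerivAt).fderiv

theorem lEq_prod {G : Set Y} {ζ : Y → ℂ} {p : Y × El} (h : LEq n G p.1 ζ) :
    LEq (n + 1) (Prod.fst ⁻¹' G) p (fun q => ζ q.1) := by
  refine ⟨continuous_fst.continuousAt.eventually h.1, fun E hE =>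
    ⟨an_fst (fun e he => (h.2 e he).1) E hE, fun h0 hd => ?_⟩⟩
  obtain ⟨e, e', rfl, h1, -⟩ := atE_dec hE
  have h2 : fstP (pc e e' p) = e p.1 := by simp
  have h3 := fderiv_fstP (f := fun z => ζ (e.symm z)) (z := pc e e' p)
    (by rw [h2]; exact (h.2 e h1).1.differentiableAt)
  rw [h2] at h3
  refine (h.2 e h1).2 h0 (ContinuousLinearMap.ext fun v => ?_)
  obtain ⟨w, rfl⟩ := fstL_surjective v
  exact (DFunLike.congr_fun (h3.symm.trans hd) w :)

theorem contMDiff_fstE [IsManifold 𝓘(ℂ, Cm n) ω Y] :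
    ContMDiff 𝓘(ℂ, Cm (n + 1)) 𝓘(ℂ, Cm n) ω (Prod.fst : Y × El → Y) := by
  intro p
  rw [contMDiffAt_iff]
  refine ⟨continuous_fst.continuousAt, ?_⟩
  have hc : At (chartAt (Cm n) p.1) p.1 := ⟨chart_mem_atlas _ _, mem_chart_source _ _⟩
  exact (cd_fst (𝕜 := ℂ) (f := chartAt (Cm n) p.1) (fun e he => transition he hc) _
    ⟨chart_mem_atlas _ _, mem_chart_source _ _⟩).contDiffWithinAt

/-! ### line bundles -/

theorem lb_prod {M : Bd Y} (h : IsLB n M) : IsLB (n + 1) (pull (Prod.fst : Y × El → Y) M) where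
  isOpen i := (h.isOpen i).preimage continuous_fst
  cover p := h.cover p.1
  holo i j E _ hE hi hj := cd_fst (f := M.g i j) (fun e he => h.holo i j e _ he hi hj) E hE
  ne_zero i j _ hi hj := h.ne_zero i j _ hi hj
  cocycle i j k _ hi hj hk := h.cocycle i j k _ hi hj hk

theorem sec_prod {M : Bd Y} {s : M.ι → Y → ℂ} (h : IsSec n M s) :
    IsSec (n + 1) (pull (Prod.fst : Y × El → Y) M) (fun i p => s i p.1) where
  holo i E _ hE hi := cd_fst (f := s i) (fun e he => h.holo i e _ he hi) E hE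
  change i j _ hi hj := h.change i j _ hi hj

theorem met_prod {M : Bd Y} {ψ : M.ι → Y → ℝ} (h : IsMet n M ψ) :
    IsMet (n + 1) (pull (Prod.fst : Y × El → Y) M) (fun i p => ψ i p.1) where
  smooth i E _ hE hi := cd_fst (f := ψ i) (fun e he => h.smooth i e _ he hi) E hE
  change i j _ hi hj := h.change i j _ hi hj

lemma cHess_fstP {m : ℕ} (f : Cm n → ℝ) (z : Cm (n + m)) :
    cHess (fun y => f (fstP y)) z = bd (cHess f (fstP z)) 0 := by
  refine ext_blocks (fun i j => ?_) (fun i j => ?_) (fun i j => ?_) (fun i j => ?_)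
  · simp only [cHess, Matrix.of_apply, bd_ll]
    rw [fun_fst_l (fun y => (f y : ℂ)) j, dz_fst_l i (dzb j fun y => (f y : ℂ))]
  · simp only [cHess, Matrix.of_apply, bd_lr]
    rw [fun_fst_r (fun y => (f y : ℂ)) j, dz_const]
  · simp only [cHess, Matrix.of_apply, bd_rl]
    rw [fun_fst_l (fun y => (f y : ℂ)) i, dz_fst_r j (dzb i fun y => (f y : ℂ))]
  · simp only [cHess, Matrix.of_apply, bd_rr]
    rw [fun_fst_r (fun y => (f y : ℂ)) j, dz_const]
    rfl

lemma bd_psd {m : ℕ} {A : Matrix (Fin n) (Fin n) ℂ} {D : Matrix (Fin m) (Fin m) ℂ}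
    (hA : A.PosSemidef) (hD : D.PosSemidef) : (bd A D).PosSemidef := by
  refine posSemidef_of_quad ?_ fun ξ => ?_
  · show (bd A D).conjTranspose = bd A D
    rw [bd_conjTranspose, hA.1.eq, hD.1.eq]
  · rw [quad_bd, Complex.add_re]
    exact add_nonneg (quad_nonneg hA _) (quad_nonneg hD _)

lemma bd_add_smul {m : ℕ} (A B : Matrix (Fin n) (Fin n) ℂ) (C D : Matrix (Fin m) (Fin m) ℂ) (c : ℂ) :
    bd A C + c • bd B D = bd (A + c • B) (C + c • D) := by
  refine ext_blocks (fun i j => ?_) (fun i j => ?_) (fun i j => ?_) (fun i j => ?_) <;> simp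

theorem nef_prod {χ : Chart n Y → Cm n → Matrix (Fin n) (Fin n) ℂ} {M : Bd Y} (h : Nef χ M) :
    Nef (n := n + 1) (X := Y × El) (pm χ flat) (pull Prod.fst M) := by
  intro δ hδ
  obtain ⟨ψ, h1, h2⟩ := h δ hδ
  refine ⟨fun i p => ψ i p.1, met_prod h1, fun i E p hE hi => ?_⟩
  obtain ⟨e, e', rfl, k1, -, k3⟩ := pm_dec χ flat hE
  have h3 := cHess_fstP (m := 1) (fun z => ψ i (e.symm z)) (pc e e' p)
  have h4 : fstP (pc e e' p) = e p.1 := by simp
  rw [h4] at h3
  have h5 : (cHess (fun z => ψ i ((pc e e').symm z).1) (pc e e' p)) =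
      bd (cHess (fun z => ψ i (e.symm z)) (e p.1)) 0 := h3
  rw [k3, h5]
  simp only [h4]
  rw [bd_add_smul]
  refine bd_psd (h2 i e p.1 k1 hi) ?_
  rw [zero_add]
  exact Matrix.PosSemidef.one.smul (Complex.zero_le_real.2 hδ.le)

/-! ### the canonical bundle -/

open Classical in
/-- the factors of a product chart -/
def fac (E : Chart (n + 1) (Y × El)) : Chart n Y × Chart 1 El :=
  if h : ∃ q : Chart n Y × Chart 1 El, E = pc q.1 q.2 ∧ q.1 ∈ atlas (Cm n) Y ∧
    q.2 ∈ atlas (Cm 1) El then h.choose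
  else (chartAt (Cm n) (E.symm 0).1, ech 0)

theorem fac_spec {E : Chart (n + 1) (Y × El)} {p : Y × El} (hE : At E p) :
    E = pc (fac E).1 (fac E).2 ∧ At (fac E).1 p.1 ∧ At (fac E).2 p.2 := by
  have hex : ∃ q : Chart n Y × Chart 1 El, E = pc q.1 q.2 ∧ q.1 ∈ atlas (Cm n) Y ∧
      q.2 ∈ atlas (Cm 1) El := by
    obtain ⟨e, e', h, h1, h2⟩ := atE_dec hE
    exact ⟨(e, e'), h, h1.1, h2.1⟩
  have h1 := hex.choose_spec
  have h2 : p ∈ E.source := hE.2
  rw [h1.1] at h2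
  rw [fac, dif_pos hex]
  exact ⟨h1.1, ⟨h1.2.1, h2.1⟩, ⟨h1.2.2, h2.2⟩⟩

/-- `K` of the product is the pull back of `K` -/
theorem can_prod {E E' : Chart (n + 1) (Y × El)} {p : Y × El} (hE : At E p) (hE' : At E' p) :
    (Bd.can (n + 1) (Y × El)).g E E' p = (Bd.can n Y).g (fac E).1 (fac E').1 p.1 := by
  obtain ⟨h1, -, h3⟩ := fac_spec hE
  obtain ⟨k1, -, k3⟩ := fac_spec hE'
  show (jacM E E' p).det = (jacM (fac E).1 (fac E').1 p.1).det
  have h4 : jacM E E' p = jacM (pc (fac E).1 (fac E).2) (pc (fac E').1 (fac E').2) p := by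
    rw [← h1, ← k1]
  rw [h4, jacM_pc, bd_det, jacM_El h3 k3, Matrix.det_one, mul_one]

/-! ### maps to complex spaces -/

variable (n) in
/-- `v : Y → X` is holomorphic at `y` -/
def HolTo (X : CSp) (v : Y → X.pt) (y : Y) : Prop :=
  ContinuousAt v y ∧ ∀ e : Chart n Y, At e y → ∀ g : X.pt → ℂ, X.Hol g (v y) →
    AnalyticAt ℂ (fun z => g (v (e.symm z))) (e y)

theorem holTo_prod {X : CSp} {v : Y → X.pt} {p : Y × El} (h : HolTo n X v p.1) :
    HolTo (n + 1) (prodE X) (Prod.map v id) p := by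
  have hc : ContinuousAt (Prod.map v id : Y × El → X.pt × El) p :=
    (ContinuousAt.comp (g := v) h.1 continuous_fst.continuousAt).prodMk continuous_snd.continuousAt
  refine ⟨hc, fun E hE g hg => ?_⟩
  obtain ⟨e, e', rfl, h1, h2⟩ := atE_dec hE
  obtain ⟨M, γ, G, k1, k2, k3⟩ := HolE.chart hg (e := e') h2
  have h3 : AnalyticAt ℂ (fun z : Cm (n + 1) => ((fun a => γ a (v (e.symm (fstP z)))), sndP z))
      (pc e e' p) :=
    AnalyticAt.prod (AnalyticAt.pi fun a => an_fst (f := fun y => γ a (v y))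
      (fun c hc => h.2 c hc _ (k1 a)) _ (atE h1 h2)) (an_sndP _)
  have h4 : AnalyticAt ℂ (fun z : Cm (n + 1) => G ((fun a => γ a (v (e.symm (fstP z)))), sndP z))
      (pc e e' p) := by
    refine AnalyticAt.fun_comp (g := G)
      (f := fun z : Cm (n + 1) => ((fun a => γ a (v (e.symm (fstP z)))), sndP z)) ?_ h3
    simp only [pc_apply, fstP_glue, sndP_glue, h1.left_inv]
    exact k2
  refine h4.congr ?_
  have h5 : Tendsto (pc e e').symm (𝓝 (pc e e' p)) (𝓝 p) := by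
    have := (pc e e').continuousAt_symm (atE h1 h2).mem_target
    rwa [ContinuousAt, (atE h1 h2).left_inv] at this
  filter_upwards [h5.eventually (hc.eventually k3), (atE h1 h2).nhds_target] with z k4 k5
  rw [mem_pc_target] at k5
  rw [k4]
  simp only [pc_symm_apply, Prod.map, id, e'.right_inv k5.2]

/-- all germs at `y` are pulled back by `v`: the same holds for the product -/
theorem immTo_prod {X : CSp} {v : Y → X.pt} {p : Y × El}
    (h : ∀ e : Chart n Y, At e p.1 → ∀ i, ∃ g, X.Hol g (v p.1) ∧ ∀ᶠ y in 𝓝 p.1, e y i = g (v y))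
    (E : Chart (n + 1) (Y × El)) (hE : At E p) (i : Fin (n + 1)) :
    ∃ g, (prodE X).Hol g (Prod.map v id p) ∧ ∀ᶠ q in 𝓝 p, E q i = g (Prod.map v id q) := by
  obtain ⟨e, e', rfl, h1, h2⟩ := atE_dec hE
  refine Fin.addCases (fun i => ?_) (fun i => ?_) i
  · obtain ⟨g, k1, k2⟩ := h e h1 i
    refine ⟨fun q => g q.1, hol_fst k1, ?_⟩
    filter_upwards [continuous_fst.continuousAt.eventually k2] with q hq
    simpa using hq
  · exact ⟨fun q => e' q.2 i, hol_snd (p := Prod.map v id p) h2 i,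
      Eventually.of_forall fun q => by simp⟩

end Vale.Agent.P277Z.Glc.Pr
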