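import Vale.Agent.P277Z.Glc.ProdM
import Vale.Agent.P277Z.Glc.Defs
import Vale.Agent.P277Z.Val.Sub

/-!
# P277, GLC: the product with `E` of a manifold with a divisor
-/

set_option linter.unusedSectionVars false

open scoped Manifold ContDiff Topology
open Set Filter Vale.Agent.P272.K Vale.Agent.P272.K.Prod Vale.Agent.P285.H281.FD
open Vale.Agent.P277 Vale.Agent.P277.HD
open Vale.Agent.P277.PH (HolF at_chartAt)
open Vale.Agent.P277Z.Val (IsSnc IsCo Crd crd_chart)

noncomputable section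

namespace Vale.Agent.P277Z.Glc

namespace Pr

variable {n : ℕ} {Y : Type} [TopologicalSpace Y] [ChartedSpace (Cm n) Y]
  [IsManifold 𝓘(ℂ, Cm n) ω Y]

theorem holF_fst {f : Y → ℂ} {p : Y × El} (h : HolF n f p.1) : HolF (n + 1) (fun q => f q.1) p :=
  an_fst h

theorem holF_snd {f : El → ℂ} {p : Y × El} (h : HolF 1 f p.2) :
    HolF (n + 1) (fun q : Y × El => f q.2) p := by
  intro E hE
  obtain ⟨e, e', rfl, -, h1⟩ := atE_dec hE
  have h2 := h e' h1
  rw [← sndP_glue (e p.1) (e' p.2)] at h2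
  exact AnalyticAt.fun_comp (g := fun z => f (e'.symm z)) (f := sndP) h2 (an_sndP (pc e e' p))

theorem holM_fst : HolM (n + 1) n (Prod.fst : Y × El → Y) := ⟨continuous_fst, fun _ _ => holF_fst⟩

theorem holX_prod {X : CSp} {v : Y → X.pt} (h : HolX n X v) :
    HolX (n + 1) (prodE X) (Prod.map v id : Y × El → X.pt × El) :=
  ⟨h.1.prodMap continuous_id, fun _ g hg e he =>
    (holTo_prod ⟨h.1.continuousAt, fun c hc f hf => h.2 _ f hf c hc⟩).2 e he g hg⟩

theorem crd_prod {t : Y → Cm n} {ξ : Cm n → Y} {p : Y × El} (h : Crd t ξ p.1) {e : Chart 1 El}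
    (he : At e p.2) : Crd (n := n + 1) (fun q : Y × El => glue (t q.1) (e q.2))
      (fun w => (ξ (fstP w), e.symm (sndP w))) p := by
  have k := crd_chart he
  have a1 : Tendsto (fstP : Cm (n + 1) → Cm n) (𝓝 (glue (t p.1) (e p.2))) (𝓝 (t p.1)) := by
    simpa using continuous_fstP.tendsto (glue (t p.1) (e p.2))
  have a2 : Tendsto (sndP : Cm (n + 1) → Cm 1) (𝓝 (glue (t p.1) (e p.2))) (𝓝 (e p.2)) := by
    simpa using continuous_sndP.tendsto (glue (t p.1) (e p.2))
  have b1 := h.an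
  have b2 := k.an
  rw [← fstP_glue (t p.1) (e p.2)] at b1
  rw [← sndP_glue (t p.1) (e p.2)] at b2
  refine ⟨fun i => ?_, ⟨(b1.1.comp continuous_fstP.continuousAt).prodMk
    (b2.1.comp continuous_sndP.continuousAt), fun E hE => ?_⟩, ?_, ?_⟩
  · refine Fin.addCases (fun i => ?_) (fun i => ?_) i
    · simpa using holF_fst (h.hol i)
    · simpa using holF_snd (Y := Y) (k.hol i)
  · obtain ⟨c, c', rfl, h1, h2⟩ := atE_dec hE
    exact AnalyticAt.fun_comp (g := fun q : Cm n × Cm 1 => glue q.1 q.2) (an_glue _)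
      ((AnalyticAt.fun_comp (g := fun w => c (ξ w)) (b1.2 c h1) (an_fstP _)).prod
        (AnalyticAt.fun_comp (g := fun w => c' (e.symm w)) (b2.2 c' h2) (an_sndP _)))
  · filter_upwards [continuous_fst.continuousAt.eventually h.left,
      continuous_snd.continuousAt.eventually k.left] with q c1 c2
    simp [c1, c2]
  · filter_upwards [a1.eventually h.right, a2.eventually k.right] with w c1 c2
    simp [c1, c2]

theorem snc_prod {κ : Type} {G : κ → Set Y} (h : IsSnc n G) :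
    IsSnc (n + 1) fun l => (Prod.fst ⁻¹' G l : Set (Y × El)) := by
  intro p
  obtain ⟨t, lab, h1, h2, h3⟩ := h p.1
  obtain ⟨ξ, h4⟩ := h1.crd
  refine ⟨_, fun l => (lab l).map (Fin.castAdd 1), (crd_prod h4 (at_chartAt p.2)).isCo,
    fun l l' i a b => ?_, ?_⟩
  · obtain ⟨j, a1, rfl⟩ := Option.map_eq_some_iff.1 a
    obtain ⟨j', b1, b2⟩ := Option.map_eq_some_iff.1 b
    exact h2 l l' j a1 (Fin.castAdd_injective _ _ b2 ▸ b1)
  · filter_upwards [continuous_fst.continuousAt.eventually h3] with q a l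
    refine (a l).trans ⟨fun ⟨i, b, c⟩ => ⟨_, by rw [b]; rfl, by simpa using c⟩, fun ⟨i, b, c⟩ => ?_⟩
    obtain ⟨j, b1, rfl⟩ := Option.map_eq_some_iff.1 b
    exact ⟨j, b1, by simpa using c⟩

theorem mon_prod {r : ℕ} {G : Fin r → Set Y} {m : Fin r → ℤ} {f : Y → ℂ} {p : Y × El}
    (h : Mon n G m f p.1) : Mon (n + 1) (fun l => Prod.fst ⁻¹' G l) m (fun q => f q.1) p := by
  obtain ⟨ζ, u, h1, h2, h3, h4⟩ := h
  refine ⟨fun l q => ζ l q.1, fun q => u q.1, fun l => lEq_prod (h1 l), holF_fst h2, h3, ?_⟩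
  filter_upwards [continuous_fst.continuousAt.eventually h4] with q a b
  exact a (by simpa using b)

/-- the comparison functions on the product -/
theorem cmp_prod {r : ℕ} {G : Fin r → Set Y} {k : Fin r → ℤ} {X : Type} {v : Y → X} {L : Bd X}
    {M : Bd Y} {m Q : ℕ} {t} (h : Cmp n v L ((((Bd.can n Y).pow m).mul M).pow Q) G k t) :
    Cmp (n + 1) (Prod.map v id : Y × El → X × El) (pull Prod.fst L)
      ((((Bd.can (n + 1) (Y × El)).pow m).mul (pull Prod.fst M)).pow Q)
      (fun l => Prod.fst ⁻¹' G l) k fun i j q => t i ((fac j.1).1, j.2) q.1 where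
  div _ i j a b := mon_prod (h.div _ i ((fac j.1).1, j.2) a ⟨(fac_spec b.1).2.1, b.2⟩)
  change q i i₁ j j₁ a b b₁ c c₁ := by
    refine (h.change q.1 i i₁ ((fac j.1).1, j.2) ((fac j₁.1).1, j₁.2) (by simpa using a) b b₁
      ⟨(fac_spec c.1).2.1, c.2⟩ ⟨(fac_spec c₁.1).2.1, c₁.2⟩).trans ?_
    exact congrArg (fun s => L.g i i₁ (v q.1) * t i ((fac j.1).1, j.2) q.1 *
      (s ^ m * M.g j₁.2 j.2 q.1) ^ Q) (can_prod c₁.1 c.1).symm

/-- comparison of two pull backs -/
theorem cmp_prod' {r : ℕ} {G : Fin r → Set Y} {k : Fin r → ℤ} {X : Type} {v : Y → X} {L : Bd X}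
    {N : Bd Y} {t} (h : Cmp n v L N G k t) :
    Cmp (n + 1) (Prod.map v id : Y × El → X × El) (pull Prod.fst L) (pull Prod.fst N)
      (fun l => Prod.fst ⁻¹' G l) k fun i j q => t i j q.1 where
  div _ i j a b := mon_prod (h.div _ i j a b)
  change q i i₁ j j₁ a := h.change q.1 i i₁ j j₁ (by simpa using a)

end Pr

/-- the product with the elliptic curve -/
@[reducible] def Mf.prodE {d : ℕ} (T : Mf d) : Mf (d + 1) where
  T := T.T × Pr.El
  χ := pm T.χ Pr.flat
  kahler := Pr.kahler_prod T.kahler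
  r := T.r
  G l := Prod.fst ⁻¹' T.G l
  connG l := by
    rw [← prod_univ]
    exact (T.connG l).prod isConnected_univ
  snc := Pr.snc_prod T.snc

end Vale.Agent.P277Z.Glc
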