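import Vale.Agent.P277Z.Glc.ProdE
import Vale.Agent.P277.HD.Klt
import Vale.Agent.P277.A.Dim

/-!
# P277, GLC: the product of a complex space with the elliptic curve `E`
-/

open scoped Manifold ContDiff Topology
open Set Filter Vale.Agent.P272.K Vale.Agent.P272.K.Prod Vale.Agent.P285.H281.FD
open Vale.Agent.P277 Vale.Agent.P277.HD

noncomputable section

namespace Vale.Agent.P277Z.Glc.Pr

lemma an_fstP {n m : ℕ} (z : Cm (n + m)) : AnalyticAt ℂ (fstP : Cm (n + m) → Cm n) z :=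
  (contDiff_fstP (𝕜 := ℂ) (r := ω)).contDiffAt.analyticAt

lemma an_sndP {n m : ℕ} (z : Cm (n + m)) : AnalyticAt ℂ (sndP : Cm (n + m) → Cm m) z :=
  (contDiff_sndP (𝕜 := ℂ) (r := ω)).contDiffAt.analyticAt

lemma an_glue {n m : ℕ} (p : Cm n × Cm m) :
    AnalyticAt ℂ (fun q : Cm n × Cm m => glue q.1 q.2) p :=
  (contDiff_glue (𝕜 := ℂ) (r := ω) contDiffAt_fst contDiffAt_snd).analyticAt

lemma an_trans {e e' : Chart 1 El} {t : El} (h : At e t) (h' : At e' t) :
    AnalyticAt ℂ (fun z => e' (e.symm z)) (e t) := (transition h h').analyticAt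

lemma ev_source {e : Chart 1 El} {t : El} (h : At e t) : ∀ᶠ s in 𝓝 t, e.symm (e s) = s := by
  filter_upwards [e.open_source.mem_nhds h.2] with s hs using e.left_inv hs

/-- holomorphic germs on the product with `E` -/
def HolE {X : Type} [TopologicalSpace X] (Hol : (X → ℂ) → X → Prop) (f : X × El → ℂ)
    (p : X × El) : Prop :=
  ∃ (M : ℕ) (g : Fin M → X → ℂ) (e : Chart 1 El) (G : Cm M × Cm 1 → ℂ), (∀ a, Hol (g a) p.1) ∧
    At e p.2 ∧ AnalyticAt ℂ G (fun a => g a p.1, e p.2) ∧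
    f =ᶠ[𝓝 p] fun q => G (fun a => g a q.1, e q.2)

/-- the chart of `E` can be prescribed -/
theorem HolE.chart {X : Type} [TopologicalSpace X] {Hol : (X → ℂ) → X → Prop} {f : X × El → ℂ}
    {p : X × El} (h : HolE Hol f p) {e : Chart 1 El} (he : At e p.2) :
    ∃ (M : ℕ) (g : Fin M → X → ℂ) (G : Cm M × Cm 1 → ℂ), (∀ a, Hol (g a) p.1) ∧
      AnalyticAt ℂ G (fun a => g a p.1, e p.2) ∧
      f =ᶠ[𝓝 p] fun q => G (fun a => g a q.1, e q.2) := by
  obtain ⟨M, g, e', G, h1, h2, h3, h4⟩ := h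
  refine ⟨M, g, fun u => G (u.1, e' (e.symm u.2)), h1, ?_, ?_⟩
  · have h5 : AnalyticAt ℂ (fun u : Cm M × Cm 1 => (u.1, e' (e.symm u.2)))
        (fun a => g a p.1, e p.2) :=
      analyticAt_fst.prod (AnalyticAt.fun_comp (g := fun z => e' (e.symm z)) (an_trans he h2)
        analyticAt_snd)
    refine AnalyticAt.fun_comp (g := G) ?_ h5
    rw [e.left_inv he.2]
    exact h3
  · filter_upwards [h4, continuous_snd.continuousAt.eventually (ev_source he)] with q k1 k2
    rw [k1, k2]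

theorem model_prod {X : Type} [TopologicalSpace X] {Hol : (X → ℂ) → X → Prop} {V : Set X}
    {N k : ℕ} {Ω : Set (Cm N)} {h : Fin k → Cm N → ℂ} {φ : X → Cm N} (hM : IsModel Hol V Ω h φ)
    {e : Chart 1 El} (he : e ∈ atlas (Cm 1) El) :
    IsModel (HolE Hol) (V ×ˢ e.source) {z : Cm (N + 1) | fstP z ∈ Ω ∧ sndP z ∈ e.target}
      (fun i z => h i (fstP z)) (fun p => glue (φ p.1) (e p.2)) where
  isOpen := hM.isOpen.prod e.open_source
  isOpen' := (hM.isOpen'.preimage continuous_fstP).inter (e.open_target.preimage continuous_sndP)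
  holo i z hz := AnalyticAt.fun_comp (hM.holo i _ hz.1) (an_fstP z)
  image := by
    ext z
    constructor
    · rintro ⟨p, hp, rfl⟩
      have h1 : φ p.1 ∈ {z ∈ Ω | ∀ i, h i z = 0} := hM.image ▸ mem_image_of_mem φ hp.1
      refine ⟨⟨?_, ?_⟩, fun i => ?_⟩
      · simpa using h1.1
      · simpa using e.map_source hp.2
      · simpa using h1.2 i
    · rintro ⟨⟨h1, h2⟩, h3⟩
      obtain ⟨x, hx, hx'⟩ : fstP z ∈ φ '' V := hM.image ▸ ⟨h1, h3⟩
      refine ⟨(x, e.symm (sndP z)), ⟨hx, e.map_target h2⟩, ?_⟩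
      simp only [hx', e.right_inv h2, glue_fst_snd]
  emb := by
    have h1 := (hM.emb.prodMap e.isOpenEmbedding_restrict.isEmbedding)
    have h2 := (glueH (n := N) (m := 1)).isEmbedding.comp
      (h1.comp (Homeomorph.Set.prod V e.source).isEmbedding)
    exact h2
  hol p hp f := by
    constructor
    · intro hf
      obtain ⟨M, g, G, h1, h2, h3⟩ := hf.chart (e := e) (And.intro he hp.2)
      choose γ hγ hγ' using fun a => (hM.hol p.1 hp.1 (g a)).1 (h1 a)
      refine ⟨fun z => G (fun a => γ a (fstP z), sndP z), ?_, ?_⟩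
      · have h5 : AnalyticAt ℂ (fun z : Cm (N + 1) => ((fun a => γ a (fstP z)), sndP z))
            (glue (φ p.1) (e p.2)) := by
          refine AnalyticAt.prod (AnalyticAt.pi fun a => ?_) (an_sndP _)
          refine AnalyticAt.fun_comp (g := γ a) ?_ (an_fstP _)
          rw [fstP_glue]
          exact hγ a
        refine AnalyticAt.fun_comp (g := G) ?_ h5
        have h6 : (fun a => γ a (φ p.1)) = fun a => g a p.1 :=
          funext fun a => (hγ' a).self_of_nhds.symm
        rw [fstP_glue, sndP_glue, h6]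
        exact h2
      · filter_upwards [h3, continuous_fst.continuousAt.eventually (eventually_all.2 hγ')]
          with q k1 k2
        simp only [k1, k2, Function.comp, fstP_glue, sndP_glue]
    · rintro ⟨g, hg, hf⟩
      refine ⟨N, fun a x => φ x a, e, fun u => g (glue u.1 u.2), fun a => ?_, And.intro he hp.2,
        AnalyticAt.fun_comp (g := g) hg (an_glue _), hf⟩
      exact (hM.hol p.1 hp.1 _).2 ⟨fun z => z a,
        (ContinuousLinearMap.proj (R := ℂ) (φ := fun _ : Fin N => ℂ) a).analyticAt _,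
        Eventually.of_forall fun _ => rfl⟩

/-- the product `X x E` -/
@[reducible] def prodE (X : CSp) : CSp where
  pt := X.pt × El
  Hol := HolE X.Hol
  model p := by
    obtain ⟨N, k, V, Ω, h, φ, hx, hM⟩ := X.model p.1
    exact ⟨N + 1, k, _, _, _, _, mk_mem_prod hx (mem_chart_source (Cm 1) p.2),
      model_prod hM (chart_mem_atlas (Cm 1) p.2)⟩

variable {X Z X' : CSp}

theorem hol_fst {g : X.pt → ℂ} {p : X.pt × El} (hg : X.Hol g p.1) :
    (prodE X).Hol (fun q => g q.1) p :=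
  ⟨1, fun _ => g, chartAt (Cm 1) p.2, fun u => u.1 0, fun _ => hg,
    ⟨chart_mem_atlas _ _, mem_chart_source _ _⟩,
    AnalyticAt.fun_comp (g := fun z : Cm 1 => z 0)
      ((ContinuousLinearMap.proj (R := ℂ) (φ := fun _ : Fin 1 => ℂ) 0).analyticAt _) analyticAt_fst,
    Eventually.of_forall fun _ => rfl⟩

theorem hol_snd {e : Chart 1 El} {p : X.pt × El} (he : At e p.2) (i : Fin 1) :
    (prodE X).Hol (fun q => e q.2 i) p :=
  ⟨0, Fin.elim0, e, fun u => u.2 i, fun a => a.elim0, he,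
    AnalyticAt.fun_comp (g := fun z : Cm 1 => z i)
      ((ContinuousLinearMap.proj (R := ℂ) (φ := fun _ : Fin 1 => ℂ) i).analyticAt _) analyticAt_snd,
    Eventually.of_forall fun _ => rfl⟩

theorem holMap_fst (p : X.pt × El) : HolMap (prodE X) X Prod.fst p :=
  ⟨continuous_fst.continuousAt, fun _ hg => hol_fst hg⟩

/-- the slice `x ↦ (x, t)` -/
theorem holMap_slice (x : X.pt) (t : El) : HolMap X (prodE X) (fun y => (y, t)) x := by
  have hc : ContinuousAt (fun y : X.pt => (y, t)) x := (continuous_id.prodMk continuous_const).continuousAt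
  refine ⟨hc, ?_⟩
  rintro g ⟨M, γ, e, G, h1, -, h3, h4⟩
  have h5 : AnalyticAt ℂ (fun u : Cm M => G (u, e t)) (fun a => γ a x) :=
    AnalyticAt.fun_comp (g := G) h3 (analyticAt_id.prod analyticAt_const)
  exact hol_congr (hol_comp h1 h5) (hc.eventually h4)

/-- maps into the product -/
theorem holMap_mk {Y : CSp} {f : Y.pt → X.pt} {τ : Y.pt → El} {y : Y.pt} (hf : HolMap Y X f y)
    (hτ : ContinuousAt τ y) {e : Chart 1 El} (he : At e (τ y))
    (h : ∀ i, Y.Hol (fun q => e (τ q) i) y) : HolMap Y (prodE X) (fun q => (f q, τ q)) y := by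
  have hc : ContinuousAt (fun q => (f q, τ q)) y := hf.1.prodMk hτ
  refine ⟨hc, fun g hg => ?_⟩
  obtain ⟨M, γ, G, h1, h3, h4⟩ := HolE.chart hg he
  have h5 : AnalyticAt ℂ (fun u : Fin M ⊕ Fin 1 → ℂ => G (fun a => u (.inl a), fun i => u (.inr i)))
      (fun a => Sum.elim (fun a q => γ a (f q)) (fun i q => e (τ q) i) a y) := by
    refine AnalyticAt.fun_comp (g := G) h3 (AnalyticAt.prod (AnalyticAt.pi fun a => ?_)
      (AnalyticAt.pi fun a => ?_))
    · exact (ContinuousLinearMap.proj (R := ℂ) (φ := fun _ : Fin M ⊕ Fin 1 => ℂ) _).analyticAt _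
    · exact (ContinuousLinearMap.proj (R := ℂ) (φ := fun _ : Fin M ⊕ Fin 1 => ℂ) _).analyticAt _
  have h6 := hol_comp (X := Y) (x := y)
    (f := Sum.elim (fun a q => γ a (f q)) (fun i q => e (τ q) i))
    (by rintro (a | i); exacts [hf.2 _ (h1 a), h i]) h5
  exact hol_congr h6 (hc.eventually h4)

theorem holMap_prod {f : X.pt → Z.pt} {p : X.pt × El} (hf : HolMap X Z f p.1) :
    HolMap (prodE X) (prodE Z) (Prod.map f id) p := by
  have he : At (chartAt (Cm 1) p.2) p.2 := ⟨chart_mem_atlas _ _, mem_chart_source _ _⟩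
  exact holMap_mk (Y := prodE X) (f := fun q => f q.1) (τ := Prod.snd)
    ⟨ContinuousAt.comp (g := f) hf.1 continuous_fst.continuousAt, fun g hg => hol_fst (hf.2 g hg)⟩
    continuous_snd.continuousAt he (hol_snd he)

/-- all germs at `x` are pulled back by `f`: the same holds for the product -/
theorem imm_prod {f : X.pt → Z.pt} {p : X.pt × El}
    (hf : ∀ g, X.Hol g p.1 → ∃ h, Z.Hol h (f p.1) ∧ g =ᶠ[𝓝 p.1] h ∘ f) (g : X.pt × El → ℂ)
    (hg : (prodE X).Hol g p) :
    ∃ h, (prodE Z).Hol h (Prod.map f id p) ∧ g =ᶠ[𝓝 p] h ∘ Prod.map f id := by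
  obtain ⟨M, γ, e, G, h1, h2, h3, h4⟩ := hg
  choose η hη hη' using fun a => hf _ (h1 a)
  refine ⟨fun q => G (fun a => η a q.1, e q.2), ⟨M, η, e, G, hη, h2, ?_,
    Eventually.of_forall fun _ => rfl⟩, ?_⟩
  · have h6 : (fun a => η a (f p.1)) = fun a => γ a p.1 :=
      funext fun a => (hη' a).self_of_nhds.symm
    show AnalyticAt ℂ G (fun a => η a (f p.1), e p.2)
    rw [h6]
    exact h3
  · filter_upwards [h4, continuous_fst.continuousAt.eventually (eventually_all.2 hη')] with q k1 k2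
    simp only [k1, k2, Function.comp, Prod.map, id]

theorem isReg_prod {n : ℕ} {p : X.pt × El} (h : IsReg n X p.1) : IsReg (n + 1) (prodE X) p := by
  obtain ⟨V, Ω, h, φ, hx, hM⟩ := h
  exact ⟨_, _, _, _, mk_mem_prod hx (mem_chart_source (Cm 1) p.2),
    model_prod hM (chart_mem_atlas (Cm 1) p.2)⟩

/-! ### line bundles -/

theorem lbx_pull {Y : CSp} {q : Y.pt → X.pt} (hq : ∀ y, HolMap Y X q y) {L : Bd X.pt}
    (hL : IsLBx X L) : IsLBx Y (pull q L) where
  isOpen i := (hL.isOpen i).preimage (continuous_iff_continuousAt.2 fun y => (hq y).1)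
  cover y := hL.cover (q y)
  holo i j y hi hj := (hq y).2 _ (hL.holo i j _ hi hj)
  ne_zero i j _ hi hj := hL.ne_zero i j _ hi hj
  cocycle i j k _ hi hj hk := hL.cocycle i j k _ hi hj hk

theorem secx_pull {Y : CSp} {q : Y.pt → X.pt} (hq : ∀ y, HolMap Y X q y) {L : Bd X.pt}
    {V : Set X.pt} {s : L.ι → X.pt → ℂ} (hs : IsSecx X V L s) :
    IsSecx Y (q ⁻¹' V) (pull q L) (fun i y => s i (q y)) where
  holo i y hy hi := (hq y).2 _ (hs.holo i _ hy hi)
  change i j _ hy hi hj := hs.change i j _ hy hi hj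

theorem lbx_prod {L : Bd X.pt} (hL : IsLBx X L) : IsLBx (prodE X) (pull Prod.fst L) :=
  lbx_pull holMap_fst hL

/-- the last clause of `RelAmple`, with any finite index type -/
theorem germ_fin {Y : Type} [TopologicalSpace Y] {κ : Type} [Fintype κ] {N : ℕ} {f : Y → Z.pt}
    {σ : Y → Cm N} {x : Y} {h : Y → ℂ} (g : κ → Z.pt → ℂ) (G : (κ → ℂ) × Cm N → ℂ)
    (h1 : ∀ a, Z.Hol (g a) (f x)) (h2 : AnalyticAt ℂ G (fun a => g a (f x), σ x))
    (h3 : h =ᶠ[𝓝 x] fun y => G (fun a => g a (f y), σ y)) :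
    ∃ (M : ℕ) (g : Fin M → Z.pt → ℂ) (G : Cm M × Cm N → ℂ), (∀ a, Z.Hol (g a) (f x)) ∧
      AnalyticAt ℂ G (fun a => g a (f x), σ x) ∧
      h =ᶠ[𝓝 x] fun y => G (fun a => g a (f y), σ y) := by
  let ε := Fintype.equivFin κ
  refine ⟨Fintype.card κ, fun a => g (ε.symm a), fun u => G (fun a => u.1 (ε a), u.2),
    fun a => h1 _, ?_, ?_⟩
  · have h4 : AnalyticAt ℂ (fun u : Cm (Fintype.card κ) × Cm N => ((fun a => u.1 (ε a)), u.2))
        (fun a => g (ε.symm a) (f x), σ x) := by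
      refine AnalyticAt.prod (AnalyticAt.pi fun a => ?_) analyticAt_snd
      exact AnalyticAt.fun_comp (g := fun z : Cm (Fintype.card κ) => z (ε a))
        ((ContinuousLinearMap.proj (R := ℂ) (φ := fun _ : Fin (Fintype.card κ) => ℂ) _).analyticAt _)
        analyticAt_fst
    refine AnalyticAt.fun_comp (g := G) ?_ h4
    simpa using h2
  · simpa using h3

theorem relAmple_prod {f : X.pt → Z.pt} {L : Bd X.pt} (h : RelAmple X Z f L) :
    RelAmple (prodE X) (prodE Z) (Prod.map f id) (pull Prod.fst L) := by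
  intro z
  obtain ⟨V, k, N, s, hV, hz, hk, h1, h2, h3, h4⟩ := h z.1
  refine ⟨Prod.fst ⁻¹' V, k, N, fun l i p => s l i p.1, hV.preimage continuous_fst, hz, hk,
    fun l => secx_pull (L := L.pow k) holMap_fst (h1 l), fun x i hx hi => h2 x.1 i hx hi,
    fun x x' i j hx he hne hi hj => h3 x.1 x'.1 i j hx (congrArg Prod.fst he)
      (fun hc => hne (Prod.ext hc (congrArg Prod.snd he :))) hi hj, ?_⟩
  rintro x i l hx hi hs φ ⟨M, γ, e, G, k1, k2, k3, k4⟩
  choose m g H j1 j2 j3 using fun a => h4 x.1 i l hx hi hs _ (k1 a)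
  refine germ_fin (Z := prodE Z) (κ := (Σ a, Fin (m a)) ⊕ Fin 1)
    (σ := fun y : X.pt × El => fun b => s b i y.1 / s l i y.1)
    (Sum.elim (fun a q => g a.1 a.2 q.1) (fun i q => e q.2 i))
    (fun u => G (fun a => H a (fun b => u.1 (.inl ⟨a, b⟩), u.2), fun i => u.1 (.inr i))) ?_ ?_ ?_
  · rintro (a | i)
    · exact hol_fst (j1 a.1 a.2)
    · exact hol_snd (p := Prod.map f id x) k2 i
  · have pr : ∀ (c : (Σ a, Fin (m a)) ⊕ Fin 1) (u : ((Σ a, Fin (m a)) ⊕ Fin 1 → ℂ) × Cm (N + 1)),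
        AnalyticAt ℂ (fun u : ((Σ a, Fin (m a)) ⊕ Fin 1 → ℂ) × Cm (N + 1) => u.1 c) u := fun c u =>
      AnalyticAt.fun_comp (g := fun z : (Σ a, Fin (m a)) ⊕ Fin 1 → ℂ => z c)
        ((ContinuousLinearMap.proj (R := ℂ) (φ := fun _ : (Σ a, Fin (m a)) ⊕ Fin 1 => ℂ)
          c).analyticAt _) analyticAt_fst
    refine AnalyticAt.fun_comp (g := G) ?_ (AnalyticAt.prod (AnalyticAt.pi fun a => ?_)
      (AnalyticAt.pi fun a => pr _ _))
    · have h6 : (fun a => H a (fun b => g a b (f x.1), fun b => s b i x.1 / s l i x.1)) =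
          fun a => γ a x.1 := funext fun a => (j3 a).self_of_nhds.symm
      show AnalyticAt ℂ G
        (fun a => H a (fun b => g a b (f x.1), fun b => s b i x.1 / s l i x.1), e x.2)
      rw [h6]
      exact k3
    · exact AnalyticAt.fun_comp (g := H a) (j2 a)
        (AnalyticAt.prod (AnalyticAt.pi fun b => pr _ _) analyticAt_snd)
  · filter_upwards [k4, continuous_fst.continuousAt.eventually (eventually_all.2 j3)] with q c1 c2
    simp only [c1, c2]
    rfl

theorem isAn_prod {V A : Set X.pt} (hA : IsAn X V A) :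
    IsAn (prodE X) (Prod.fst ⁻¹' V) (Prod.fst ⁻¹' A) := hA.preimage holMap_fst

theorem isIso_prod {f : X.pt → Z.pt} {f' : X'.pt → Z.pt} {A : Set Z.pt} {L : Bd X.pt}
    {L' : Bd X'.pt} {t : L.ι → L'.ι → Z.pt → ℂ} (h : IsIso f f' A L L' t) :
    IsIso (X := prodE X) (Z := prodE Z) (X' := prodE X') (Prod.map f id) (Prod.map f' id)
      (Prod.fst ⁻¹' A) (pull Prod.fst L) (pull Prod.fst L') (fun i j z => t i j z.1) where
  holo x x' i j hx he hi hj :=
    ⟨hol_fst (h.holo x.1 x'.1 i j hx (congrArg Prod.fst he) hi hj).1,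
      (h.holo x.1 x'.1 i j hx (congrArg Prod.fst he) hi hj).2⟩
  change x x' i i₁ j j₁ hx he hi hi₁ hj hj₁ :=
    h.change x.1 x'.1 i i₁ j j₁ hx (congrArg Prod.fst he) hi hi₁ hj hj₁

theorem amin_prod (f : X.pt → Z.pt) :
    HD.Amin (X := prodE X) (Z := prodE Z) (Prod.map f id) = Prod.fst ⁻¹' HD.Amin f := by
  ext z
  constructor
  · rintro ⟨x, x', h1, h2, h3⟩
    refine ⟨x.1, x'.1, congrArg Prod.fst h1, congrArg Prod.fst h2, fun hc => h3 (Prod.ext hc ?_)⟩
    exact (congrArg Prod.snd h1).trans (congrArg Prod.snd h2).symm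
  · rintro ⟨x, x', h1, h2, h3⟩
    exact ⟨(x, z.2), (x', z.2), Prod.ext h1 rfl, Prod.ext h2 rfl,
      fun hc => h3 (congrArg Prod.fst hc)⟩

/-! ### dimension -/

/-- the universal covering of `E` -/
def cov (z : Cm 1) : El := (ech (0, 0)).symm z

lemma cov_eq (a : ℝ × ℝ) (z : Cm 1) : (ech a).symm z = cov z := rfl

lemma continuous_cov : Continuous cov := by
  have hc : Continuous fun s : ℝ => (s : UnitAddCircle) := AddCircle.continuous_mk' 1
  exact (hc.comp (Complex.continuous_re.comp (continuous_apply 0))).prodMk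
    (hc.comp (Complex.continuous_im.comp (continuous_apply 0)))

lemma cov_surjective : Function.Surjective cov := fun t =>
  ⟨chartAt (Cm 1) t t, (chartAt (Cm 1) t).left_inv (mem_chart_source _ _)⟩

lemma an_cov {e : Chart 1 El} {z : Cm 1} (he : At e (cov z)) :
    AnalyticAt ℂ (fun w => e (cov w)) z := by
  obtain ⟨⟨b, rfl⟩, hx⟩ := he
  rw [ech_source] at hx
  have c1 : ContinuousAt (fun z : Cm 1 => (z 0).re) z :=
    (Complex.continuous_re.comp (continuous_apply 0)).continuousAt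
  have c2 : ContinuousAt (fun z : Cm 1 => (z 0).im) z :=
    (Complex.continuous_im.comp (continuous_apply 0)).continuousAt
  have k1 := rch_ev b.1 (t := (z 0).re) hx.1
  have k2 := rch_ev b.2 (t := (z 0).im) hx.2
  have h3 : (fun w => w + (ech b (cov z) - z)) =ᶠ[𝓝 z] fun w => ech b (cov w) := by
    filter_upwards [c1.eventually k1, c2.eventually k2] with w h1 h2
    funext i
    have : i = 0 := Subsingleton.elim _ _
    subst this
    show _ = ((rch b.1 (((w 0).re : ℝ) : UnitAddCircle) : ℝ) : ℂ) +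
      ((rch b.2 (((w 0).im : ℝ) : UnitAddCircle) : ℝ) : ℂ) * Complex.I
    have h4 : ech b (cov z) 0 = ((rch b.1 (((z 0).re : ℝ) : UnitAddCircle) : ℝ) : ℂ) +
      ((rch b.2 (((z 0).im : ℝ) : UnitAddCircle) : ℝ) : ℂ) * Complex.I := rfl
    rw [h1, h2]
    apply Complex.ext <;> simp [h4]
  exact (analyticAt_id.add analyticAt_const).congr h3

theorem holAt_prod {d : ℕ} {g : Cm d → X.pt} {z : Cm (d + 1)} (hg : HolAt X g (fstP z)) :
    HolAt (prodE X) (fun w => (g (fstP w), cov (sndP w))) z := by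
  have hc : ContinuousAt (fun w : Cm (d + 1) => (g (fstP w), cov (sndP w))) z :=
    (ContinuousAt.comp (g := g) hg.1 continuous_fstP.continuousAt).prodMk
      (continuous_cov.comp continuous_sndP).continuousAt
  refine ⟨hc, ?_⟩
  rintro φ ⟨M, γ, e, G, h1, h2, h3, h4⟩
  have h5 : AnalyticAt ℂ (fun w : Cm (d + 1) => ((fun a => γ a (g (fstP w))), e (cov (sndP w)))) z :=
    AnalyticAt.prod (AnalyticAt.pi fun a => AnalyticAt.fun_comp (g := fun u => γ a (g u))
      (hg.2 _ (h1 a)) (an_fstP z))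
      (AnalyticAt.fun_comp (g := fun u => e (cov u)) (an_cov h2) (an_sndP z))
  have h6 : AnalyticAt ℂ (fun w : Cm (d + 1) =>
      G ((fun a => γ a (g (fstP w))), e (cov (sndP w)))) z :=
    AnalyticAt.fun_comp (g := G)
      (f := fun w : Cm (d + 1) => ((fun a => γ a (g (fstP w))), e (cov (sndP w)))) h3 h5
  exact h6.congr (EventuallyEq.symm (hc.eventually h4))

theorem dimLe_prod {d : ℕ} {S : Set X.pt} (h : DimLe X d S) :
    DimLe (prodE X) (d + 1) (Prod.fst ⁻¹' S) := by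
  obtain ⟨Ω, g, h1, h2, h3⟩ := h
  refine ⟨fun k => fstP ⁻¹' Ω k, fun k w => (g k (fstP w), cov (sndP w)),
    fun k => (h1 k).preimage continuous_fstP, fun k w hw => holAt_prod (h2 k _ hw), ?_⟩
  intro p hp
  obtain ⟨k, u, hu, he⟩ := mem_iUnion.1 (h3 hp)
  obtain ⟨w, hw⟩ := cov_surjective p.2
  refine mem_iUnion.2 ⟨k, glue u w, by simpa using hu, ?_⟩
  simp only [fstP_glue, sndP_glue, he, hw]

end Vale.Agent.P277Z.Glc.Pr
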