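import Vale.Agent.P277Z.Glc.SBrA
import Vale.Agent.P277Z.Glc.Adj4
import Vale.Agent.P277Z.Glc.Hit
import Vale.Agent.P277Z.Pj.Rap
import Vale.Agent.P277Z.Pj.Crit
import Vale.Agent.P277Z.GH.KahM
import Vale.Agent.P277Z.Val.USk

/-!
# P277, block GLC: threefold strata (section 7)
-/

open scoped Manifold ContDiff Topology
open Vale.Agent.P277 hiding Amin IsFlipR
open Vale.Agent.P277.HD Vale.Agent.P277.PH
open Vale.Agent.P272.K Vale.Agent.P285.H281.FD Set Filter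
open Vale.Agent.P277.H60.Z (XH)
open Vale.Agent.P277Z.Pj

noncomputable section

namespace Vale.Agent.P277Z.Glc.SB

open Pr (El prodE holMap_fst dimLe_prod)

section lb

variable {n : ℕ} {Y : Type} [TopologicalSpace Y] [ChartedSpace (Cm n) Y] {M N : Bd Y}

theorem isLB_pow (h : IsLB n M) (k : ℕ) : IsLB n (M.pow k) :=
  ⟨h.isOpen, h.cover, fun i j e x he hi hj => (h.holo i j e x he hi hj).pow k,
    fun i j x hi hj => pow_ne_zero k (h.ne_zero i j x hi hj), fun i j l x hi hj hl =>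
      (mul_pow _ _ _).symm.trans (congrArg (· ^ k) (h.cocycle i j l x hi hj hl))⟩

theorem isLB_mul (h : IsLB n M) (h' : IsLB n N) : IsLB n (M.mul N) :=
  ⟨fun i => (h.isOpen i.1).inter (h'.isOpen i.2),
    fun x => (h.cover x).elim fun i hi => (h'.cover x).elim fun j hj => ⟨(i, j), hi, hj⟩,
    fun _ _ e x he hi hj => (h.holo _ _ e x he hi.1 hj.1).mul (h'.holo _ _ e x he hi.2 hj.2),
    fun _ _ x hi hj => mul_ne_zero (h.ne_zero _ _ x hi.1 hj.1) (h'.ne_zero _ _ x hi.2 hj.2),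
    fun _ _ _ x hi hj hl => (mul_mul_mul_comm _ _ _ _).trans (congrArg₂ (· * ·)
      (h.cocycle _ _ _ x hi.1 hj.1 hl.1) (h'.cocycle _ _ _ x hi.2 hj.2 hl.2))⟩

end lb

/-- the map of the products -/
abbrev pe {T X : Type} (v : T → X) (q : T × El) : X × El := (v q.1, q.2)

section mf

variable {T : Mf 3} {X V : CSp} {v : T.T → X.pt} {u : T.T × El → V.pt} {ν : V.pt → X.pt × El}

/-- all germs at `y` are pulled back -/
def Pb (X : CSp) (v : T.T → X.pt) (y : T.T) : Prop :=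
  ∀ g, HolF 3 g y → ∃ h, X.Hol h (v y) ∧ ∀ᶠ x in 𝓝 y, g x = h (v x)

theorem dense_off (T : Mf 3) : Dense {q : T.T × El | q.1 ∉ ⋃ l, T.G l} :=
  T.prodE.dense.mono fun q hq => by simpa using hq

theorem dense_imm (h : ∀ y, y ∉ ⋃ l, T.G l → Pb X v y) :
    Dense {q | ImmTo 4 (prodE X) (pe v) q} := (dense_off T).mono fun q hq => by
  have hE := at_chartAt (n := 3 + 1) q
  choose g h1 h2 using Pr.immTo_prod (v := v)
    (fun e he i => h _ hq _ (holV_pi.1 (holV_chart he) i)) _ hE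
  exact ⟨4, fun x i => g i x, h1,
    (imm_chart hE).congr ((eventually_all.2 h2).mono fun _ a => funext a)⟩

theorem gprj (hA : AMPU) {W : Mf 4} {ι : T.T → W.T} {p : W.T → X.pt} {P : Bd W.T}
    (hι : Val.Sb 3 4 ι) (hp : HolX 3 X v) (e : ∀ y, v y = p (ι y)) (hP : IsLB 4 P)
    (h : RelAmple W.lg.X X p P) : IsLB 4 (pull (fun q : T.T × El => ι q.1) P) ∧
      RelAmple T.prodE.lg.X (prodE X) (pe v) (pull (fun q : T.T × El => ι q.1) P) ∧
      GPrj 4 (prodE X) (pe v) := by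
  obtain rfl : v = fun y => p (ι y) := funext e
  have h1 : IsLB 4 (pull (fun q : T.T × El => ι q.1) P) := HolM.lb (n := 4) (m := 4)
    ⟨hι.cont.comp continuous_fst, fun _ _ hg => Pr.holF_fst (hι.holF hg)⟩ hP
  have h2 := hA T W ι X p P hι h
  exact ⟨h1, h2, rap 3 _ _ _ _ (holTo_prodE ⟨hp.1, hp.2⟩) h1 h2⟩

theorem dimV (hD : DIMF) (h : SFac (prodE X) V (pe v) u ν) {l : Fin T.r}
    (hd : DimLe X 1 (v '' T.G l)) : DimLe V 2 (u '' T.prodE.G l) :=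
  hD T.prodE V (prodE X) u ν l h.st.toHolTo h.hol h.fin ((dimLe_prod hd).mono (by
    rintro _ ⟨q, hq, rfl⟩
    exact ⟨q.1, hq, (congrArg Prod.fst (h.fac q)).symm⟩))

theorem dimV' (hD : DIMF) (h : SFac (prodE X) V (pe v) u ν) {B : Set X.pt} {I : Set (Fin T.r)}
    (hd : ∀ l ∈ I, DimLe X 1 (v '' T.G l)) (hB : ∀ y, v y ∈ B → ∃ l ∈ I, y ∈ T.G l) :
    DimLe V 2 {x | (ν x).1 ∈ B} := by
  have : Nonempty V.pt := Nonempty.map u inferInstance
  refine (dimLe_biUnion I.to_countable fun l hl => dimV hD h (hd l hl)).mono fun x hx => ?_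
  obtain ⟨q, rfl⟩ := h.st.surj x
  obtain ⟨l, h1, h2⟩ := hB q.1 (by rwa [mem_ofPred_eq, h.fac] at hx)
  exact mem_iUnion₂.2 ⟨l, h1, q, h2, rfl⟩

theorem cmpV (h : ∀ q, ν (u q) = pe v q) {L : Bd X.pt} {M : Bd T.T} {m P Q : ℕ}
    {n : Fin T.r → ℤ} (hc : ∃ t, Cmp 3 v (L.pow P) ((((Bd.can 3 T.T).pow m).mul M).pow Q) T.G n t) :
    ∃ t, Cmp 4 u ((pull (fun x => (ν x).1) L).pow P)
      ((((Bd.can 4 (T.T × El)).pow m).mul (pull Prod.fst M)).pow Q) T.prodE.G n t := by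
  obtain ⟨t, ht⟩ := hc
  have h1 := Pr.cmp_prod ht
  rw [show (Prod.map v id : T.T × El → X.pt × El) = fun q => ν (u q) from (funext h).symm] at h1
  exact ⟨_, h1.1, h1.2⟩

end mf

variable {D : Dat}

theorem α_iff {N d : ℕ} (T : Pm D N d) (i j : ℕ) (e : Fin D.k) (l : Fin T.r) :
    T.α i e l = T.α j e l ↔
      (T.P j e * D.S.c j e : ℕ) * T.n i e l = (T.P i e * D.S.c i e : ℕ) * T.n j e l := by
  have h : ∀ i, ((T.P i e : ℝ) * D.S.c i e) ≠ 0 := fun i => by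
    have := T.hP i e
    have := D.S.hc i e
    positivity
  rw [Pm₀.α, Pm₀.α, div_eq_div_iff (h i) (h j), mul_comm, mul_comm (T.n j e l : ℝ)]
  exact_mod_cast Iff.rfl

theorem ninj (hN : NINJ) {N j : ℕ} (T : Pm D N 3) (hj : j < N) {V V' : CSp}
    {u : T.T × El → V.pt} {u' : T.T × El → V'.pt} {ν : V.pt → (D.S.X j).pt × El}
    {ν' : V'.pt → (D.S.X (j + 1)).pt × El} (h : SFac (prodE (D.S.X j)) V (pe (T.p j)) u ν)
    (h' : SFac (prodE (D.S.X (j + 1))) V' (pe (T.p (j + 1))) u' ν')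
    (hd : DimLe V 2 {x | D.S.f j (ν x).1 ∈ Amin (D.S.f j)})
    (hd' : DimLe V' 2 {x | D.S.f' j (ν' x).1 ∈ Amin (D.S.f j)}) {y : T.T} (hy : D.Fl j (T.p j y)) :
    (¬ ∀ w w', u' w' = u' w → u w' = u w) ∧ ¬ ∀ w w', u w' = u w → u' w' = u' w := by
  have H := flipR_amin (D.S.flip j) (D.S.hc j)
  obtain ⟨l, -, hl⟩ := T.strict j hj y hy
  choose t ht using fun e => cmpV h.fac (T.cmp j hj.le e)
  choose t' ht' using fun e => cmpV h'.fac (T.cmp (j + 1) hj e)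
  have a1 := fun e => lb_pow (lb_pull (Pr.lbx_prod (H.lb e)) h.hol) (T.P j e)
  have a2 := fun e => lb_pow (lb_pull (Pr.lbx_prod (H.lb' e)) h'.hol) (T.P (j + 1) e)
  have a3 := fun e => isLB_mul (isLB_pow (Slc.isLB_can (n := 4) (W := T.T × El)) (D.m e))
    (Pr.lb_prod (T.lb e))
  have b1 : ∀ w, D.S.f j (ν (u w)).1 ∈ Amin (D.S.f j) ↔ D.Fl j (T.p j w.1) := fun w => by
    rw [h.fac, Dat.Fl]
  have b2 : ∀ w, D.S.f' j (ν' (u' w)).1 ∈ Amin (D.S.f j) ↔ D.Fl j (T.p j w.1) := fun w => by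
    rw [h'.fac, T.comm j hj, Dat.Fl]
  have b3 : ∀ w : T.T × El, D.Fl j (T.p j w.1) → w ∈ ⋃ l, T.toMf.prodE.G l := fun w a =>
    (T.strict j hj _ a).elim fun l b => mem_iUnion.2 ⟨l, b.1⟩
  refine ⟨fun a => hl.ne (Finset.sum_congr rfl fun e _ => congrArg _ ?_),
    fun a => hl.ne (Finset.sum_congr rfl fun e _ => congrArg _ ?_)⟩
  · exact (α_iff T _ _ e l).2 (hN T.toMf.prodE V V' u u' _ _ _ _ _ _ _ _ _ _ h.st.cont h'.st
      h'.normal a (H.small'.an.preimage fun x => holMap_comp (H.small'.holMap _)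
        (holMap_comp (holMap_fst _) (h'.hol x))) hd' (fun w b => b3 w ((b2 w).1 b)) (a1 e) (a2 e)
      (a3 e) (ht e) (ht' e) (fun k w b c => (α_iff T _ _ e k).1
        (T.const j hj k ⟨w.1, b, mt (b2 w).2 c⟩ e)) l)
  · exact ((α_iff T _ _ e l).2 (hN T.toMf.prodE V' V u' u _ _ _ _ _ _ _ _ _ _ h'.st.cont h.st
      h.normal a (H.small.an.preimage fun x => holMap_comp (H.small.holMap _)
        (holMap_comp (holMap_fst _) (h.hol x))) hd (fun w b => b3 w ((b1 w).1 b)) (a2 e) (a1 e)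
      (a3 e) (ht' e) (ht e) (fun k w b c => (α_iff T _ _ e k).1
        (T.const j hj k ⟨w.1, b, mt (b1 w).2 c⟩ e).symm) l)).symm

section tw

variable {S : Tws D 3} {j : ℕ}

theorem nex (h : S.Sm j) {l} (hl : l ∈ S.I j) : l ∉ S.exc j := fun a =>
  h.1 ((S.res j).dim.mono (by
    rintro _ ⟨y, rfl⟩
    exact ⟨_, mem_iUnion₂.2 ⟨l, a, (S.E j).sub y l hl⟩, ((S.E j).hp j y).symm⟩))

theorem off (h : S.Sm j) {y} (hy : y ∉ ⋃ l, (S.T j).G l) :
    (S.E j).ι y ∈ (⋃ l ∈ S.exc j, (S.W j).G l)ᶜ := fun a => by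
  obtain ⟨l, h1, h2⟩ := mem_iUnion₂.1 a
  obtain ⟨k, -, h3⟩ := ((S.E j).mem y l fun b => nex h b h1).1 h2
  exact hy (mem_iUnion.2 ⟨k, h3⟩)

theorem pbX (h : S.Sm j) (y) (hy : y ∉ ⋃ l, (S.T j).G l) : Pb (D.S.X j) ((S.T j).p j) y := by
  intro g hg
  obtain ⟨F, h1, h2⟩ := (S.E j).sb.ext hg
  have h3 := (S.res j).emb
  refine ⟨fun x => F (h3.inv ((S.E j).ι y) x), ?_, ?_⟩
  · rw [(S.E j).hp]
    exact h3.hol_of_analyticAt _ (off h hy) (at_chartAt _) (h1 _ (at_chartAt _))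
  · filter_upwards [h2, (S.E j).hol.1.continuousAt.eventually (h3.isOpen.mem_nhds (off h hy))]
      with x a b
    rw [a, (S.E j).hp]
    exact congrArg F (h3.inv_apply _ b).symm

theorem pbZ (h : S.Sm (j + 1)) (y) (hy : y ∉ ⋃ l, (S.T (j + 1)).G l) :
    Pb (D.S.Z j) (fun y => D.S.f' j ((S.T (j + 1)).p (j + 1) y)) y := by
  intro g hg
  obtain ⟨F, h1, h2⟩ := pbX h y hy g hg
  obtain ⟨K, h3, h4⟩ := (flipR_amin (D.S.flip j) (D.S.hc j)).small'.iso _ F (fun a => by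
    rw [(S.T (j + 1)).comm j j.lt_succ_self] at a
    obtain ⟨l, b, -⟩ := (S.T (j + 1)).strict j j.lt_succ_self y a
    exact hy (mem_iUnion.2 ⟨l, b⟩)) h1
  refine ⟨K, h3, ?_⟩
  filter_upwards [h2, ((S.T (j + 1)).hol _ le_rfl).1.continuousAt.eventually h4] with x a b
    using a.trans b

theorem holZ : HolX 3 (D.S.Z j) fun y => D.S.f' j ((S.T (j + 1)).p (j + 1) y) :=
  ⟨(D.S.flip j).small'.cont.comp ((S.T (j + 1)).hol _ le_rfl).1, fun y g hg =>
    ((S.T (j + 1)).hol _ le_rfl).2 y _ ((D.S.flip j).small'.holo _ g hg)⟩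

theorem gprjZ (hA : AMPU) (hC : Val.StAmpC) :
    GPrj 4 (prodE (D.S.Z j)) (pe fun y => D.S.f' j ((S.T (j + 1)).p (j + 1) y)) := by
  obtain ⟨P, -, -, h1, h2, -⟩ := (S.res (j + 1)).amp
  obtain ⟨ε, hε, h3⟩ := (D.S.flip j).ample'
  obtain ⟨n, d, h4, h5⟩ := exists_nd D.ρ (D.S.hc (j + 1)) hε
  have h6 := lb_lin (D.S.flip j).lb' n
  obtain ⟨N, h7⟩ := hC _ _ _ _ _ P _ ⟨(S.res (j + 1)).cont, (S.res (j + 1)).hol⟩
    (D.S.flip j).small'.holMap h1 h6 h2 (h3 n d h4 h5)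
  exact (gprj hA (S.E (j + 1)).sb holZ (fun y => congrArg _ ((S.E (j + 1)).hp _ y))
    (isLB_mul h1 (isLB_pow (((S.W (j + 1)).hol _ le_rfl).lb h6) N)) (h7 N le_rfl)).2.2

variable {V : CSp} {u : (S.T j).T × El → V.pt} {ν : V.pt → (D.S.X j).pt × El}

theorem kah (hK : KAHP) (h : S.Sm j) (hV : SFac (prodE (D.S.X j)) V (pe ((S.T j).p j)) u ν) :
    St.Kah V := by
  obtain ⟨L, h1, h2⟩ := hV.amp
  refine GH.kproj V _ ν _ L (hK _ _ (GH.kr _ (D.kah j))) hV.hol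
    ((hV.st.surj.denseRange.dense_image hV.st.cont (dense_off _)).mono ?_) h1 h2
  rintro _ ⟨q, hq, rfl⟩
  show IsReg 4 _ (ν (u q)).1
  rw [hV.fac, pe, (S.E j).hp]
  exact (S.res j).emb.isReg (off h hq)

theorem injV (h : S.Sm j) (hV : SFac (prodE (D.S.X j)) V (pe ((S.T j).p j)) u ν) {q}
    (hq : q ∉ ⋃ l, (S.T j).toMf.prodE.G l) (q') (e : u q' = u q) : q' = q := by
  have h1 := (hV.fac q').symm.trans ((congrArg ν e).trans (hV.fac q))
  refine Prod.ext ((S.E j).inj ((S.res j).inj _ _ (off h (by simpa using hq)) ?_))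
    (congrArg Prod.snd h1 :)
  exact ((S.E j).hp j _).symm.trans ((congrArg Prod.fst h1).trans ((S.E j).hp j _))

end tw

theorem sbr (g1 : PROJ) (g2 : LOCQ) (g3 : REMG) (g4 : FINAMP) (g5 : Val.StAmpC) (g6 : StGrel)
    (r1 : STM) (r2 : AMPU) (r3 : DIMF) (r4 : NINJ) (r5 : KAHP) (r6 : DIVE) : StSBr := by
  intro D S J hS h2 h3
  by_contra hn
  set Js := {j | (J ≤ j ∧ 1 ≤ j) ∧ ∃ y, D.Fl j ((S.T j).p j y)}
  have hJ : Js.Infinite := fun a => by
    obtain ⟨b, hb⟩ := a.bddAbove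
    exact hn ⟨J + b + 1, fun j c y e => by
      have := hb (show j ∈ Js from ⟨⟨by omega, by omega⟩, y, e⟩)
      omega⟩
  have hX : ∀ j, ∃ (V : CSp) (u : (S.T j).T × El → V.pt) (ν : V.pt → (D.S.X j).pt × El),
      J ≤ j → SFac (prodE (D.S.X j)) V (pe ((S.T j).p j)) u ν := fun j => by
    by_cases a : J ≤ j
    · obtain ⟨P, -, -, b1, b2, -⟩ := (S.res j).amp
      have b3 := (S.T j).hol j le_rfl
      obtain ⟨V, u, ν, b⟩ := sfac g1 g2 g3 (holTo_prodE ⟨b3.1, b3.2⟩)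
        (gprj r2 (S.E j).sb b3 ((S.E j).hp j) b1 b2).2.2 (dense_imm (pbX (hS j a)))
      exact ⟨V, u, ν, fun _ => b⟩
    · exact ⟨prodE _, pe ((S.T j).p j), id, fun b => absurd b a⟩
  have hZ : ∀ j, ∃ (V : CSp) (u : (S.T (j + 1)).T × El → V.pt) (ν : V.pt → (D.S.Z j).pt × El),
      J ≤ j → SFac (prodE (D.S.Z j)) V (pe fun y => D.S.f' j ((S.T (j + 1)).p (j + 1) y)) u ν :=
    fun j => by
    by_cases a : J ≤ j
    · obtain ⟨V, u, ν, b⟩ := sfac g1 g2 g3 (holTo_prodE ⟨holZ.1, holZ.2⟩) (gprjZ r2 g5)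
        (dense_imm (pbZ (hS (j + 1) (by omega))))
      exact ⟨V, u, ν, fun _ => b⟩
    · exact ⟨prodE _, pe fun y => D.S.f' j ((S.T (j + 1)).p (j + 1) y), id, fun b => absurd b a⟩
  choose V u ν hX using hX
  choose V₁ u₁ ν₁ hZ using hZ
  have hF : ∀ j, ∃ (F : (V j).pt → (V₁ j).pt) (F' : (V (j + 1)).pt → (V₁ j).pt), J ≤ j →
      (∀ v, (ν₁ j (F v)).1 = D.S.f j (ν j v).1) ∧
      (∀ v, (ν₁ j (F' v)).1 = D.S.f' j (ν (j + 1) v).1) ∧
      PF (V j) (V₁ j) (V (j + 1)) F F' {z | (ν₁ j z).1 ∈ Amin (D.S.f j)} (pl (ν j) (D.S.L j))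
        (pl (ν (j + 1)) (D.S.L (j + 1))) (D.S.c j) (D.S.c (j + 1)) D.ρ ∧
      (j ∈ Js → ¬ Function.Injective F ∧ ¬ Function.Injective F') := fun j => by
    by_cases a : J ≤ j
    swap
    · exact ⟨fun _ => u₁ j (Classical.arbitrary _), fun _ => u₁ j (Classical.arbitrary _),
        fun b => absurd b a⟩
    have hj := j.lt_succ_self
    have b1 : SFac (prodE (D.S.X j)) (V j) (pe ((S.T (j + 1)).p j))
        (fun q => u j ((S.h j).π q.1, q.2)) (ν j) :=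
      { hX j a with
        st := r1 _ _ (S.h j).toMd _ _ (hX j a).st
        fac := fun q => ((hX j a).fac _).trans (Prod.ext ((S.h j).hp j le_rfl _) rfl) }
    have b2 := hX (j + 1) (by omega)
    have b3 := dimV' r3 b1 (B := D.S.f j ⁻¹' Amin (D.S.f j)) (fun l c => ((hS j a).2 l c).1)
      fun y c => ((S.T (j + 1)).strict j hj y c).imp fun _ => And.symm
    have b4 := dimV' r3 b2 (B := D.S.f' j ⁻¹' Amin (D.S.f j)) (fun l c => ((hS j a).2 l c).2)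
      fun y c => ((S.T (j + 1)).strict j hj y
        (by rwa [mem_preimage, (S.T (j + 1)).comm j hj] at c)).imp fun _ => And.symm
    obtain ⟨F, F', c1, c2, c3, c4, c5⟩ := pf g4 (flipR_amin (D.S.flip j) (D.S.hc j)) b1 b2 (hZ j a)
      (gprjZ r2 g5) (fun w => Prod.ext ((S.T (j + 1)).comm j hj _) rfl) (fun w => rfl) b3 b4
    refine ⟨F, F', fun _ => ⟨c3, c4, c5, fun ⟨_, y, hy⟩ => ?_⟩⟩
    obtain ⟨y, rfl⟩ := (S.h j).surj y
    have c6 := ninj r4 (S.T (j + 1)) hj b1 b2 b3 b4 ((S.h j).hp j le_rfl y ▸ hy)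
    exact ⟨fun s => c6.1 fun w w' e => s (by rw [c1, c1, ← c2, ← c2, e]),
      fun s => c6.2 fun w w' e => s (by rw [c2, c2, ← c1, ← c1, e])⟩
  choose F F' hF using hF
  obtain ⟨φ, F₂, k1, k2, k3⟩ := skip2 (X := V) (Z := V₁) (f := F) (f' := F') hJ
    (Q := fun j v => Nh D j (ν j v).1) (fun j a => by
      obtain ⟨-, -, b, c⟩ := hF j a.1.1
      exact ⟨b.1, b.2, b.3, b.4, b.5, (c a).1, (c a).2, b.6, b.7, b.8, b.9, b.10⟩)
    (fun i a j b c => by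
      have a1 : J ≤ j := a.1.1.trans c.le
      obtain ⟨a2, -, a3, -⟩ := hF j a1
      have e : {z | (ν₁ j z).1 ∈ Amin (D.S.f j)} = ∅ := eq_empty_of_forall_notMem fun z hz => by
        obtain ⟨v, rfl⟩ := a3.small.surj z
        obtain ⟨q, rfl⟩ := (hX j a1).st.surj v
        rw [mem_ofPred_eq, a2, (hX j a1).fac] at hz
        exact b ⟨⟨a1, by omega⟩, q.1, hz⟩
      rw [e] at a3
      exact ⟨a3.1, a3.3, a3.4, a3.5, a3.6, a3.7, a3.8⟩)
    fun i a j b x x' c e => c.step (by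
      obtain ⟨a2, a3, -⟩ := hF j (a.1.1.trans b)
      rw [← a2, ← a3, e])
  let D' : Dat :=
    { D with
      S := ⟨fun m => V (φ m), fun m => V₁ (φ m), fun m => F (φ m), F₂, _, _, _,
        fun m => D.S.hc (φ m), k2⟩
      kah := fun m => kah r5 (hS _ (k1 m).1.1) (hX _ (k1 m).1.1) }
  have a0 := (k1 0).1.1
  have hV := hX _ a0
  let W : Pm D' 0 4 :=
    { toMf := (S.T (φ 0)).toMf.prodE
      M := fun e => pull Prod.fst ((S.T (φ 0)).M e)
      p := fun i => Nat.casesOn (motive := fun i => (S.T (φ 0)).T × El → (V (φ i)).pt) i (u _)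
        fun _ _ => u _ (Classical.arbitrary _)
      P := fun _ => (S.T (φ 0)).P (φ 0)
      n := fun _ => (S.T (φ 0)).n (φ 0)
      lb := fun e => Pr.lb_prod ((S.T (φ 0)).lb e)
      nef := fun e => Pr.nef_prod ((S.T (φ 0)).nef e)
      hol := fun i a => by
        obtain rfl := Nat.le_zero.1 a
        exact ⟨hV.st.cont, hV.st.hol⟩
      comm := fun _ a => absurd a (Nat.not_lt_zero _)
      hP := fun _ => (S.T (φ 0)).hP _
      cmp := fun i a e => by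
        obtain rfl := Nat.le_zero.1 a
        exact cmpV hV.fac ((S.T (φ 0)).cmp _ le_rfl e)
      lc := (S.T (φ 0)).lc' le_rfl
      mono := fun _ a => absurd a (Nat.not_lt_zero _)
      strict := fun _ a => absurd a (Nat.not_lt_zero _)
      const := fun _ a => absurd a (Nat.not_lt_zero _) }
  refine g6 D' W ⟨hV.st.surj, (oemb_of stb _ _ _ hV.st).mono W.closedU.isOpen_compl
    fun q a => injV (hS _ a0) hV a, fun q q' a => injV (hS _ a0) hV a q', ?_⟩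
    (fun l a => h2 _ (k1 0).1.2 l fun b => a (dimV r3 hV b)) fun l a q b c => ?_
  · obtain ⟨P, c, τ, b1, b2, b3, b4⟩ := (S.res (φ 0)).amp
    obtain ⟨b5, b6, -⟩ := gprj r2 (S.E _).sb ((S.T _).hol _ le_rfl) ((S.E _).hp _) b1 b2
    rw [← funext hV.fac] at b6
    exact ⟨_, _, _, b5, relAmple_mid hV.hol b6,
      r6 _ _ _ _ _ (S.E _) _ τ c b4 fun l a =>
        Nat.eq_zero_of_not_pos fun s => nex (hS _ a0) a ((b3 l).1 s)⟩
  · have key : ∀ m x, Cor ∅ (fun x : (D'.S.X 0).pt => x) D'.S.f D'.S.f' m (u _ q) x →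
        Nh D (φ m) (ν _ x).1 := fun m => by
      induction m with
      | zero =>
        rintro _ ⟨-, rfl⟩
        exact nh_of (by rw [hV.fac]; exact h3 _ l a q.1 b)
      | succ m ih =>
        rintro x' ⟨x, s1, s2, -⟩
        exact k3 m x x' (ih x s1) s2
    obtain ⟨N, m, -, x, s1, y, y', s2, s3, s4⟩ := mem_iUnion.1 c
    refine (key m x s1).not ?_
    obtain ⟨s5, -, s6, -⟩ := hF _ (k1 m).1.1
    by_contra s7
    rw [Dat.Fl, ← s5] at s7
    exact s4 ((s6.small.inj x y s7 s2).trans (s6.small.inj x y' s7 s3).symm)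

end Vale.Agent.P277Z.Glc.SB
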