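import Vale.Agent.P277Z.Glc.BIso

/-!
# P277, block GLC: the steps which are isomorphisms can be dropped
-/

open scoped Manifold ContDiff Topology
open Vale.Agent.P277 Vale.Agent.P277.HD
open Vale.Agent.P272.K Vale.Agent.P285.H281.FD Set Filter

noncomputable section

namespace Vale.Agent.P277Z.Glc

variable {X X' X'' Y Z Z' : CSp}

theorem bd_pow_pow {T : Type} (L : Bd T) (a b : ℕ) : (L.pow a).pow b = L.pow (a * b) := by
  unfold Bd.pow
  congr 1
  funext i j x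
  exact (pow_mul _ _ _).symm

theorem isIso_pow {f : X.pt → Z.pt} {f' : X'.pt → Z.pt} {A : Set Z.pt} {M : Bd X.pt}
    {M' : Bd X'.pt} {t : M.ι → M'.ι → Z.pt → ℂ} (h : IsIso f f' A M M' t) (a : ℕ) :
    IsIso f f' A (M.pow a) (M'.pow a) fun i j z => t i j z ^ a where
  holo x x' i j hx e hi hj :=
    ⟨hol_pow (h.holo x x' i j hx e hi hj).1 a, pow_ne_zero _ (h.holo x x' i j hx e hi hj).2⟩
  change x x' i i₁ j j₁ hx e hi hi₁ hj hj₁ := by
    change t i₁ j₁ (f x) ^ a = M.g i i₁ x ^ a * t i j (f x) ^ a * M'.g j₁ j x' ^ a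
    rw [h.change x x' i i₁ j j₁ hx e hi hi₁ hj hj₁, mul_pow, mul_pow]

theorem BIso.pull_pow {φ : Y.pt → X.pt} {M : Bd X.pt} {M' : Bd Y.pt}
    {τ : M.ι → M'.ι → Y.pt → ℂ} (h : BIso Y (pull φ M) M' τ) (a : ℕ) :
    BIso Y (pull φ (M.pow a)) (M'.pow a) fun i j y => τ i j y ^ a where
  holo y i j hi hj := ⟨hol_pow (h.holo y i j hi hj).1 a, pow_ne_zero _ (h.holo y i j hi hj).2⟩
  change y i i₁ j j₁ hi hi₁ hj hj₁ := by
    have := h.change y i i₁ j j₁ hi hi₁ hj hj₁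
    change τ i₁ j₁ y = M.g i i₁ (φ y) * τ i j y * M'.g j₁ j y at this
    change τ i₁ j₁ y ^ a = M.g i i₁ (φ y) ^ a * τ i j y ^ a * M'.g j₁ j y ^ a
    rw [this, mul_pow, mul_pow]

/-- an isomorphism over the whole base -/
theorem bIso_of_isIso {g : X.pt → Z.pt} {g' : Y.pt → Z.pt} (h : IsSmall X Z g ∅)
    (h' : IsSmall Y Z g' ∅) {M : Bd X.pt} {M' : Bd Y.pt} {t : M.ι → M'.ι → Z.pt → ℂ}
    (ht : IsIso g g' ∅ M M' t) :
    BIso Y (pull (h.sec ∘ g') M) M' fun i j y => t i j (g' y) where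
  holo y i j hi hj := by
    have e : g (h.sec (g' y)) = g' y := h.sec_eq _
    have := ht.holo (h.sec (g' y)) y i j (notMem_empty _) e.symm hi hj
    rw [e] at this
    exact ⟨h'.holo y _ this.1, this.2⟩
  change y i i₁ j j₁ hi hi₁ hj hj₁ := by
    have e : g (h.sec (g' y)) = g' y := h.sec_eq _
    have := ht.change (h.sec (g' y)) y i i₁ j j₁ (notMem_empty _) e.symm hi hi₁ hj hj₁
    rw [e] at this
    exact this

/-- composition of an isomorphism over `Z \ A` with an isomorphism -/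
theorem isIso_comp {f : X.pt → Z.pt} {f' : X'.pt → Z.pt} {A : Set Z.pt} (hf : IsSmall X Z f A)
    (hf' : IsSmall X' Z f' A) {M : Bd X.pt} {M' : Bd X'.pt} {M'' : Bd X''.pt} (hM : IsLBx X M)
    (hM' : IsLBx X' M') (hM'' : IsLBx X'' M'') {t : M.ι → M'.ι → Z.pt → ℂ}
    (ht : IsIso f f' A M M' t) {φ : X''.pt → X'.pt} {ψ : X'.pt → X''.pt} (hφ : SpIso X'' X' φ ψ)
    {τ : M'.ι → M''.ι → X''.pt → ℂ} (hτ : BIso X'' (pull φ M') M'' τ) :
    ∃ t'', IsIso f (f' ∘ φ) A M M'' t'' := by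
  choose J hJ using hM'.cover
  have hs : ∀ x y, f x ∉ A → f' (φ y) = f x → hf'.sec (f x) = φ y := by
    intro x y hx e
    rw [← e]
    exact hf'.sec_apply (by rwa [e])
  have key : ∀ x y i j k, f x ∉ A → f' (φ y) = f x → x ∈ M.U i → φ y ∈ M'.U j → y ∈ M''.U k →
      t i (J (φ y)) (f x) * τ (J (φ y)) k y = t i j (f x) * τ j k y := by
    intro x y i j k hx e hi hj hk
    have e1 := ht.change x (φ y) i i j (J (φ y)) hx e hi hi hj (hJ _)
    have e2 := hτ.change y j (J (φ y)) k k hj (hJ _) hk hk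
    change τ (J (φ y)) k y = M'.g j (J (φ y)) (φ y) * τ j k y * M''.g k k y at e2
    rw [e1, e2, lb_self hM hi, lb_self hM'' hk]
    have e3 := lb_symm hM' (hJ (φ y)) hj
    linear_combination (t i j (f x) * τ j k y) * e3
  refine ⟨fun i k z => t i (J (hf'.sec z)) z * τ (J (hf'.sec z)) k (ψ (hf'.sec z)), ?_, ?_⟩
  · intro x y i k hx e hi hk
    have e' : f' (φ y) = f x := e
    have h1 := ht.holo x (φ y) i (J (φ y)) hx e' hi (hJ _)
    have h2 := hτ.holo y (J (φ y)) k (hJ _) hk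
    have hc := hf'.holMap_sec hx
    have hc0 := hf.holMap_sec hx
    have h3 : Z.Hol (fun z => τ (J (φ y)) k (ψ (hf'.sec z))) (f x) := by
      have h4 := hφ.hol_inv h2.1
      rw [← hs x y hx e'] at h4
      have h5 := hc.2 _ h4
      rw [hs x y hx e'] at h5
      exact h5
    refine ⟨hol_congr (hol_mul h1.1 h3) ?_, ?_⟩
    · have a1 : ∀ᶠ z in 𝓝 (f x), z ∉ A := hf.isClosed.isOpen_compl.mem_nhds hx
      have a2 : ∀ᶠ z in 𝓝 (f x), hf.sec z ∈ M.U i :=
        hc0.1.eventually_mem ((hM.isOpen i).mem_nhds (by rwa [hf.sec_apply hx]))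
      have a3 : ∀ᶠ z in 𝓝 (f x), hf'.sec z ∈ M'.U (J (φ y)) :=
        hc.1.eventually_mem ((hM'.isOpen _).mem_nhds (by rw [hs x y hx e']; exact hJ _))
      have a4 : ∀ᶠ z in 𝓝 (f x), ψ (hf'.sec z) ∈ M''.U k := by
        have b : ContinuousAt (fun z => ψ (hf'.sec z)) (f x) :=
          ContinuousAt.comp (g := ψ) (hφ.hol' _).1 hc.1
        exact b.eventually_mem ((hM''.isOpen _).mem_nhds (by rwa [hs x y hx e', hφ.left]))
      filter_upwards [a1, a2, a3, a4] with z b1 b2 b3 b4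
      have := key (hf.sec z) (ψ (hf'.sec z)) i (J (φ y)) k (by rwa [hf.sec_eq])
        (by rw [hφ.right, hf'.sec_eq, hf.sec_eq]) b2 (by rwa [hφ.right]) b4
      rwa [hφ.right, hf.sec_eq] at this
    · simp only [hs x y hx e', hφ.left]
      exact mul_ne_zero h1.2 h2.2
  · intro x y i i₁ k k₁ hx e hi hi₁ hk hk₁
    have e' : f' (φ y) = f x := e
    simp only [hs x y hx e', hφ.left]
    have e1 := ht.change x (φ y) i i₁ (J (φ y)) (J (φ y)) hx e' hi hi₁ (hJ _) (hJ _)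
    have e2 := hτ.change y (J (φ y)) (J (φ y)) k k₁ (hJ _) (hJ _) hk hk₁
    change τ (J (φ y)) k₁ y = M'.g (J (φ y)) (J (φ y)) (φ y) * τ (J (φ y)) k y * M''.g k₁ k y at e2
    rw [e1, e2, lb_self hM' (hJ _)]
    ring

/-- the isomorphism of the integral combinations -/
theorem bIso_lin {k : ℕ} {φ : Y.pt → X.pt} {L : Fin k → Bd X.pt} {L' : Fin k → Bd Y.pt}
    {p q r : Fin k → ℕ} {Q : ℕ} (hQ : ∀ e, q e * r e = Q)
    {τ : ∀ e, (L e).ι → (L' e).ι → Y.pt → ℂ}
    (h : ∀ e, BIso Y (pull φ ((L e).pow (p e))) ((L' e).pow (q e)) (τ e)) (n : Fin k → ℤ) :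
    BIso Y (pull φ (HD.Bd.lin L fun e => n e * r e * p e)) ((HD.Bd.lin L' n).pow Q)
      fun i j y => ∏ e, τ e (i e) (j e) y ^ (n e * r e) where
  holo y i j hi hj :=
    ⟨hol_prod Finset.univ fun e _ =>
      hol_zpow ((h e).holo y _ _ (hi e) (hj e)).1 ((h e).holo y _ _ (hi e) (hj e)).2 _,
    Finset.prod_ne_zero_iff.2 fun e _ => zpow_ne_zero _ ((h e).holo y _ _ (hi e) (hj e)).2⟩
  change y i i₁ j j₁ hi hi₁ hj hj₁ := by
    change ∏ e, τ e (i₁ e) (j₁ e) y ^ (n e * r e) =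
      (∏ e, (L e).g (i e) (i₁ e) (φ y) ^ (n e * r e * p e)) *
        (∏ e, τ e (i e) (j e) y ^ (n e * r e)) * (∏ e, (L' e).g (j₁ e) (j e) y ^ n e) ^ Q
    rw [← Finset.prod_pow, ← Finset.prod_mul_distrib, ← Finset.prod_mul_distrib]
    refine Finset.prod_congr rfl fun e _ => ?_
    have := (h e).change y (i e) (i₁ e) (j e) (j₁ e) (hi e) (hi₁ e) (hj e) (hj₁ e)
    change τ e (i₁ e) (j₁ e) y =
      (L e).g (i e) (i₁ e) (φ y) ^ p e * τ e (i e) (j e) y * (L' e).g (j₁ e) (j e) y ^ q e at this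
    rw [this, mul_zpow, mul_zpow, ← zpow_natCast, ← zpow_natCast, ← zpow_natCast, ← zpow_mul,
      ← zpow_mul, ← zpow_mul, ← hQ e]
    have a1 : (p e : ℤ) * (n e * r e) = n e * r e * p e := by ring
    have a2 : (q e : ℤ) * (n e * r e) = n e * ((q e * r e : ℕ) : ℤ) := by push_cast; ring
    rw [a1, a2]

/-- a flip followed by an isomorphism is a flip -/
theorem flip_step0 {k : ℕ} {f : X.pt → Z.pt} {f' : X'.pt → Z.pt} {A : Set Z.pt}
    {L : Fin k → Bd X.pt} {L' : Fin k → Bd X'.pt} {L'' : Fin k → Bd X''.pt}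
    {c c' c'' : Fin k → ℕ} {ρ : Fin k → ℝ} (H : IsFlipR X Z X' f f' A L L' c c' ρ)
    {g : X'.pt → Z'.pt} {g' : X''.pt → Z'.pt} (S : IsStep0 X' Z' X'' g g' L' L'' c' c'') :
    IsFlipR X Z X'' f (f' ∘ (S.small.sec ∘ g')) A L L'' c c'' ρ := by
  have hφ := spIso_of_small S.small S.small'
  choose p q hp hq hpq t ht using S.iso
  have hB := fun e => bIso_of_isIso S.small S.small' (ht e)
  refine ⟨H.normal, H.normalZ, S.normal', H.small, hφ.isSmall H.small', H.ninj, fun hi => H.ninj' ?_,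
    H.lb, S.lb', fun e => ?_, H.ample, ?_⟩
  · intro x x' e
    rw [← hφ.right x, ← hφ.right x'] at e ⊢
    rw [hi e]
  · obtain ⟨a, b, ha, hb, hab, u, hu⟩ := H.iso e
    refine ⟨a * p e, q e * b, Nat.mul_pos ha (hp e), Nat.mul_pos (hq e) hb, ?_, ?_⟩
    · rw [← mul_assoc, hab, ← mul_assoc, ← hpq e]; ring
    · have h1 : ∃ u, IsIso f f' A ((L e).pow (a * p e)) ((L' e).pow (b * p e)) u := by
        rw [← bd_pow_pow, ← bd_pow_pow]
        exact ⟨_, isIso_pow hu (p e)⟩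
      have h2 : ∃ τ, BIso X'' (pull (S.small.sec ∘ g') ((L' e).pow (b * p e)))
          ((L'' e).pow (q e * b)) τ := by
        rw [mul_comm b, ← bd_pow_pow, ← bd_pow_pow]
        exact ⟨_, (hB e).pull_pow b⟩
      obtain ⟨u, hu⟩ := h1
      obtain ⟨τ, hτ⟩ := h2
      exact isIso_comp H.small H.small' (lb_pow (H.lb e) _) (lb_pow (H.lb' e) _)
        (lb_pow (S.lb' e) _) hu hφ hτ
  · obtain ⟨ε, hε, ha⟩ := H.ample'
    refine ⟨ε, hε, fun n d hd hn => ?_⟩
    have hQ : 0 < ∏ e, q e := Finset.prod_pos fun e _ => hq e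
    choose r hr using fun e => Finset.dvd_prod_of_mem q (Finset.mem_univ e)
    have h1 := ha (fun e => n e * r e * p e) (d * ∏ e, q e) (Nat.mul_pos hd hQ) fun e => by
      have h2 : (((n e * r e * p e : ℤ) : ℝ) * c' e) / ((d * ∏ e, q e : ℕ) : ℝ) =
          (n e * c'' e : ℝ) / d := by
        have a1 : (c' e : ℝ) * p e = c'' e * q e := by exact_mod_cast hpq e
        have a2 : ((∏ e, q e : ℕ) : ℝ) = q e * r e := by exact_mod_cast hr e
        have a3 : ((∏ e, q e : ℕ) : ℝ) ≠ 0 := by exact_mod_cast (Nat.pos_iff_ne_zero.1 hQ)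
        have a4 : (d : ℝ) ≠ 0 := by exact_mod_cast (Nat.pos_iff_ne_zero.1 hd)
        rw [Nat.cast_mul, div_eq_div_iff (mul_ne_zero a4 a3) a4, a2]
        push_cast
        linear_combination (n e * r e * d : ℝ) * a1
      rw [h2]; exact hn e
    refine relAmple_of_pow hQ ((bIso_lin (fun e => (hr e).symm) hB n).relAmple
      (lb_pull (lb_lin H.lb' _) hφ.hol) (lb_pow (lb_lin S.lb' _) _)
      (H.small'.cont.comp hφ.cont) (hφ.relAmple h1))

theorem skip : StSkip := by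
  classical
  intro k ρ X Z f f' A L c J hc h0 hJ hflip hstep
  have key : ∀ j ∈ J, ∀ n, j + 1 ≤ n → (∀ i, j < i → i < n → i ∉ J) →
      ∃ F : (X n).pt → (Z j).pt,
        IsFlipR (X j) (Z j) (X n) (f j) F (A j) (L j) (L n) (c j) (c n) ρ := by
    intro j hj n hn
    induction n, hn using Nat.le_induction with
    | base => exact fun _ => ⟨f' j, hflip j hj⟩
    | succ n hn ih =>
      intro h
      obtain ⟨F, hF⟩ := ih fun i a b => h i a (by omega)
      exact ⟨_, flip_step0 hF (hstep n (h n (by omega) (by omega)))⟩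
  have hJ' : {j | j ∈ J}.Infinite := hJ
  have hm := Nat.nth_strictMono hJ'
  have hmem : ∀ m, Nat.nth (fun j => j ∈ J) m ∈ J := Nat.nth_mem_of_infinite hJ'
  have h00 : Nat.nth (fun j => j ∈ J) 0 = 0 := Nat.nth_zero_of_zero h0
  have key2 := fun m => key _ (hmem m) (Nat.nth (fun j => j ∈ J) (m + 1))
    (hm (Nat.lt_succ_self m)) fun i a b hi => by
      obtain ⟨l, rfl⟩ : i ∈ range (Nat.nth fun j => j ∈ J) := by
        rw [Nat.range_nth_of_infinite hJ']; exact hi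
      have a' := hm.lt_iff_lt.1 a
      have b' := hm.lt_iff_lt.1 b
      omega
  choose F hF using key2
  refine ⟨⟨fun m => X (Nat.nth (fun j => j ∈ J) m), fun m => Z (Nat.nth (fun j => j ∈ J) m),
    fun m => f _, F, fun m => A _, fun m => L _, fun m => c _, fun m => hc _, hF⟩, ?_, ?_⟩
  · change (⟨X (Nat.nth (fun j => j ∈ J) 0), L (Nat.nth (fun j => j ∈ J) 0)⟩ :
      Σ X : CSp, Fin k → Bd X.pt) = ⟨X 0, L 0⟩
    rw [h00]
  · change c (Nat.nth (fun j => j ∈ J) 0) = c 0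
    rw [h00]

end Vale.Agent.P277Z.Glc
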