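import Vale.Agent.P277Z.Glc.SBrSk
import Vale.Agent.P277Z.Glc.Skip
import Vale.Agent.P277Z.Glc.Lift1
import Vale.Agent.P277Z.Pj.Nrm
import Vale.Agent.P277Z.Pj.Stb

/-!
# P277, block GLC, threefold strata: Stein factorisations and flips
-/

open scoped Manifold ContDiff Topology
open Vale.Agent.P277 hiding Amin IsFlipR
open Vale.Agent.P277.HD Vale.Agent.P277.PH
open Vale.Agent.P272.K Vale.Agent.P285.H281.FD Set Filter
open Vale.Agent.P277.H60.Z (XH)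
open Vale.Agent.P277Z.Pj

noncomputable section

namespace Vale.Agent.P277Z.Glc.SB

open Pr (El prodE relAmple_prod lbx_prod holMap_prod holMap_fst isAn_prod)

theorem eq_of_fin {A B : Type} [TopologicalSpace A] [TopologicalSpace B] [T1Space B] {S : Set A}
    (hS : IsPreconnected S) {g : A → B} (hg : Continuous g) {F : Set B} (hF : F.Finite)
    (h : ∀ a ∈ S, g a ∈ F) {a b : A} (ha : a ∈ S) (hb : b ∈ S) : g a = g b := by
  by_contra hne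
  exact (hS.image g hg.continuousOn).infinite_of_nontrivial ⟨_, ⟨a, ha, rfl⟩, _, ⟨b, hb, rfl⟩, hne⟩
    (hF.subset fun _ ⟨c, hc, e⟩ => e ▸ h c hc)

theorem exists_nd {k : ℕ} (ρ : Fin k → ℝ) {c : Fin k → ℕ} (hc : ∀ e, 1 ≤ c e) {ε : ℝ}
    (hε : 0 < ε) : ∃ (n : Fin k → ℤ) (d : ℕ), 1 ≤ d ∧ ∀ e, |(n e * c e : ℝ) / d - ρ e| < ε := by
  obtain ⟨d, hd⟩ := exists_nat_gt ((∑ e, (c e : ℝ)) / ε)
  have h0 : (0 : ℝ) < d := (by positivity : (0 : ℝ) ≤ _).trans_lt hd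
  refine ⟨fun e => ⌊ρ e * d / c e⌋, d, by exact_mod_cast h0, fun e => ?_⟩
  have h1 : (0 : ℝ) < c e := by exact_mod_cast hc e
  have h2 : (c e : ℝ) < d * ε := (Finset.single_le_sum (f := fun e => (c e : ℝ))
    (fun _ _ => by positivity) (Finset.mem_univ e)).trans_lt ((div_lt_iff₀ hε).1 hd)
  have h3 := (le_div_iff₀ h1).1 (Int.floor_le (ρ e * d / c e))
  have h4 := (div_lt_iff₀ h1).1 (Int.lt_floor_add_one (ρ e * d / c e))
  rw [abs_sub_lt_iff, sub_lt_iff_lt_add, div_lt_iff₀ h0, sub_lt_comm, lt_div_iff₀ h0]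
  constructor <;> nlinarith

/-- ampleness over an intermediate space -/
theorem relAmple_mid {Y V X : CSp} {u : Y.pt → V.pt} {ν : V.pt → X.pt} {P : Bd Y.pt}
    (hν : ∀ v, HolMap V X ν v) (h : RelAmple Y X (fun y => ν (u y)) P) : RelAmple Y V u P := by
  intro v
  obtain ⟨O, k, N, s, h1, h2, h3, h4, h5, h6, h7⟩ := h (ν v)
  refine ⟨ν ⁻¹' O, k, N, s, h1.preimage (continuous_iff_continuousAt.2 fun y => (hν y).1), h2, h3,
    h4, h5, fun x x' i j a e => h6 x x' i j a (congrArg ν e), fun x i l a b c g hg => ?_⟩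
  obtain ⟨M, g', G, c1, c2, c3⟩ := h7 x i l a b c g hg
  exact ⟨M, fun a y => g' a (ν y), G, fun a => (hν _).2 _ (c1 a), c2, c3⟩

section man

variable {W : Type} [TopologicalSpace W] [T2Space W] [CompactSpace W] [ChartedSpace (Cm 4) W]
  {V V' V₁ X X' Z : CSp}

theorem small {u : W → V.pt} {u₁ : W → V₁.pt} {ν : V.pt → X.pt} {ν₁ : V₁.pt → Z.pt}
    {f : X.pt → Z.pt} {A : Set Z.pt} (hu : Stein 4 V u) (hu₁ : Stein 4 V₁ u₁)
    (hν : ∀ x, (ν ⁻¹' {x}).Finite) (hν₁ : ∀ z, (ν₁ ⁻¹' {z}).Finite) (h₁ : ∀ v, HolMap V₁ Z ν₁ v)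
    (hc : ∀ w, ν₁ (u₁ w) = f (ν (u w))) (hA : IsAn Z univ A)
    (hf : ∀ x x', f x ∉ A → f x' = f x → x' = x) (hd : DimLe V 2 {v | f (ν v) ∈ A}) :
    ∃ F : V.pt → V₁.pt, (∀ w, F (u w) = u₁ w) ∧ (∀ v, ν₁ (F v) = f (ν v)) ∧
      IsSmall V V₁ F (ν₁ ⁻¹' A) := by
  obtain ⟨F, h1, h2⟩ := Stb.fact hu V₁ u₁ hu₁.toHolTo fun w w' e =>
    eq_of_fin (Stb.conn hu (u w)).2 hu₁.cont (hν₁ (f (ν (u w))))
      (fun a ha => (hc a).trans (congrArg (fun v => f (ν v)) ha)) e rfl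
  have h3 : ∀ v, ν₁ (F v) = f (ν v) := fun v => by
    obtain ⟨w, rfl⟩ := hu.surj v
    rw [h2, hc]
  have h4 : ∀ w w', F (u w) ∉ ν₁ ⁻¹' A → u₁ w' = F (u w) → u w' = u w := fun w w' a e =>
    eq_of_fin (Stb.conn hu₁ (F (u w))).2 hu.cont (hν (ν (u w))) (fun b hb =>
      hf _ _ (h3 _ ▸ a) ((hc b).symm.trans ((congrArg ν₁ hb).trans (h3 _)))) e (h2 w).symm
  refine ⟨F, h2, h3, continuous_iff_continuousAt.2 fun v => (h1 v).1, fun v => (h1 v).2,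
    fun z => ?_, hA.preimage h₁, hd.mono fun v hv => (h3 v ▸ hv : f (ν v) ∈ A), fun v v' a e => ?_,
    fun v g a hg => ?_⟩
  · obtain ⟨w, rfl⟩ := hu₁.surj z
    exact ⟨_, h2 w⟩
  · obtain ⟨w, rfl⟩ := hu.surj v
    obtain ⟨w', rfl⟩ := hu.surj v'
    exact h4 w w' a ((h2 w').symm.trans e)
  · obtain ⟨w, rfl⟩ := hu.surj v
    obtain ⟨h, k1, k2⟩ := hu₁.desc (F (u w)) (fun w => g (u w)) fun w' e =>
      hu.hol w' g (h4 w w' a e ▸ hg)
    refine ⟨h, k1, ?_⟩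
    filter_upwards [Stb.tube hu.cont (y := u w) (P := fun w' => g (u w') = h (u₁ w'))
      fun w' e => k2 w' ((h2 w').symm.trans (congrArg F e))] with v hv
    obtain ⟨w', rfl⟩ := hu.surj v
    exact (hv w' rfl).trans (congrArg h (h2 w').symm)

variable [IsManifold 𝓘(ℂ, Cm 4) ω W]

theorem sfac (h1 : PROJ) (h2 : LOCQ) (h3 : REMG) [Nonempty W] {p : W → X.pt} (hp : HolTo 4 X p)
    (hP : GPrj 4 X p) (hI : Dense {w | ImmTo 4 X p w}) : ∃ V u ν, SFac X V p u ν := by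
  have hM : IsLB 4 (Coh.triv W) := ⟨fun _ => isOpen_univ, fun _ => ⟨(), trivial⟩,
    fun _ _ _ _ _ _ _ => contDiffAt_const, fun _ _ _ _ _ => one_ne_zero,
    fun _ _ _ _ _ _ _ => mul_one _⟩
  have hT : FreeOn 4 (Coh.triv W) (p ⁻¹' univ) (r := 0) fun _ _ _ => 1 :=
    ⟨fun _ _ _ _ _ => ⟨HolF.const 1, fun _ _ => (mul_one _).symm⟩, fun _ _ _ _ => ⟨0, one_ne_zero⟩⟩
  have hF : Free 4 p (Coh.triv W) := fun x => ⟨univ, 0, _, isOpen_univ, trivial, hT⟩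
  obtain ⟨Y, φ, q, L, u, hS, hq, hqp, hL, -, hA, hφ⟩ := h1 3 W X p _ hp hP hI hM hF
  have hC : ∀ w, φ ⁻¹' {φ w} = connectedComponentIn (p ⁻¹' {p w}) w := fun w => by
    have e : Fib p (Coh.triv W) (fun (_ : Fin (0 + 1)) _ _ => (1 : ℂ)) w = p ⁻¹' {p w} :=
      Set.ext fun v => ⟨fun h => h.1, fun h => ⟨h, fun _ _ _ _ _ _ => rfl⟩⟩
    rw [← e, ← (h2 3 W X p _ hp hP hI hM hF).2 univ 0 _ isOpen_univ hT w trivial]
    exact Set.ext fun w' => hφ w w'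
  refine ⟨Y, φ, q, hS, hq, hqp, fun x => ?_, (nrm_of stb 2 W Y φ hS (hI.mono ?_)).1, L, hL, hA⟩
  · refine (((h3 3 W X p hp hP).2 x).preimage (f := fun y => φ ⁻¹' {y})
      ((hS.surj.preimage_injective.comp singleton_injective).injOn)).subset fun y hy => ?_
    obtain ⟨w, rfl⟩ := hS.surj y
    have e : p w = x := (hqp w).symm.trans hy
    exact ⟨w, e, e ▸ hC w⟩
  · rintro w ⟨k, g, a1, a2⟩
    refine ⟨k, fun y => g (q y), fun a => (hq (φ w)).2 (fun x => g x a) (by rw [hqp]; exact a1 a),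
      a2.congr (.of_forall fun v => congrArg g (hqp v).symm)⟩

/-- a flip, or an isomorphism -/
structure PF {k : ℕ} (X Z X' : CSp) (f : X.pt → Z.pt) (f' : X'.pt → Z.pt) (A : Set Z.pt)
    (L : Fin k → Bd X.pt) (L' : Fin k → Bd X'.pt) (c c' : Fin k → ℕ) (ρ : Fin k → ℝ) : Prop where
  normal : IsNormal 4 X
  normalZ : IsNormal 4 Z
  normal' : IsNormal 4 X'
  small : IsSmall X Z f A
  small' : IsSmall X' Z f' A
  lb : ∀ e, IsLBx X (L e)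
  lb' : ∀ e, IsLBx X' (L' e)
  iso : ∀ e, ∃ p q : ℕ, 1 ≤ p ∧ 1 ≤ q ∧ c e * p = c' e * q ∧
    ∃ t, IsIso f f' A ((L e).pow p) ((L' e).pow q) t
  ample : ∃ ε > 0, ∀ (n : Fin k → ℤ) (d : ℕ), 1 ≤ d → (∀ e, |(n e * c e : ℝ) / d - ρ e| < ε) →
    RelAmple X Z f (Bd.inv (HD.Bd.lin L n))
  ample' : ∃ ε > 0, ∀ (n : Fin k → ℤ) (d : ℕ), 1 ≤ d → (∀ e, |(n e * c' e : ℝ) / d - ρ e| < ε) →
    RelAmple X' Z f' (HD.Bd.lin L' n)

/-- the line bundles on the Stein factorisation -/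
def pl {k : ℕ} (ν : V.pt → X.pt × El) (L : Fin k → Bd X.pt) : Fin k → Bd V.pt :=
  fun e => pull (fun v => (ν v).1) (L e)

theorem pf (hF : FINAMP) {k : ℕ} {f : X.pt → Z.pt} {f' : X'.pt → Z.pt} {A : Set Z.pt}
    {L : Fin k → Bd X.pt} {L' : Fin k → Bd X'.pt} {c c' : Fin k → ℕ} {ρ : Fin k → ℝ}
    (H : IsFlipR X Z X' f f' A L L' c c' ρ) {a : W → X.pt × El} {a' : W → X'.pt × El}
    {b : W → Z.pt × El} {u : W → V.pt} {u' : W → V'.pt} {u₁ : W → V₁.pt} {ν : V.pt → X.pt × El}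
    {ν' : V'.pt → X'.pt × El} {ν₁ : V₁.pt → Z.pt × El} (h : SFac (prodE X) V a u ν)
    (h' : SFac (prodE X') V' a' u' ν') (h₁ : SFac (prodE Z) V₁ b u₁ ν₁) (hP : GPrj 4 (prodE Z) b)
    (e : ∀ w, b w = Prod.map f id (a w)) (e' : ∀ w, b w = Prod.map f' id (a' w))
    (hd : DimLe V 2 {v | f (ν v).1 ∈ A}) (hd' : DimLe V' 2 {v | f' (ν' v).1 ∈ A}) :
    ∃ (F : V.pt → V₁.pt) (F' : V'.pt → V₁.pt), (∀ w, F (u w) = u₁ w) ∧ (∀ w, F' (u' w) = u₁ w) ∧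
      (∀ v, (ν₁ (F v)).1 = f (ν v).1) ∧ (∀ v, (ν₁ (F' v)).1 = f' (ν' v).1) ∧
      PF V V₁ V' F F' {z | (ν₁ z).1 ∈ A} (pl ν L) (pl ν' L') c c' ρ := by
  have c1 : ∀ w, ν₁ (u₁ w) = Prod.map f id (ν (u w)) := fun w => by rw [h₁.fac, h.fac, e]
  have c2 : ∀ w, ν₁ (u₁ w) = Prod.map f' id (ν' (u' w)) := fun w => by rw [h₁.fac, h'.fac, e']
  obtain ⟨F, a1, a2, a3⟩ := small (X := prodE X) (Z := prodE Z) (f := Prod.map f id) h.st h₁.st
    h.fin h₁.fin h₁.hol c1 (isAn_prod H.small.an) (fun x x' s t => Prod.ext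
      (H.small.inj _ _ s (congrArg Prod.fst t)) (congrArg Prod.snd t :)) hd
  obtain ⟨F', b1, b2, b3⟩ := small (X := prodE X') (Z := prodE Z) (f := Prod.map f' id) h'.st h₁.st
    h'.fin h₁.fin h₁.hol c2 (isAn_prod H.small'.an) (fun x x' s t => Prod.ext
      (H.small'.inj _ _ s (congrArg Prod.fst t)) (congrArg Prod.snd t :)) hd'
  have a4 : ∀ v, (ν₁ (F v)).1 = f (ν v).1 := fun v => congrArg Prod.fst (a2 v)
  have b4 : ∀ v, (ν₁ (F' v)).1 = f' (ν' v).1 := fun v => congrArg Prod.fst (b2 v)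
  refine ⟨F, F', a1, b1, a4, b4, h.normal, h₁.normal, h'.normal, a3, b3,
    fun e => lb_pull (lbx_prod (H.lb e)) h.hol, fun e => lb_pull (lbx_prod (H.lb' e)) h'.hol,
    fun e => ?_, ?_, ?_⟩
  · obtain ⟨p, q, k1, k2, k3, t, ht⟩ := H.iso e
    have k4 : ∀ x x', F' x' = F x → f' (ν' x').1 = f (ν x).1 := fun x x' s => by
      rw [← a4, ← b4, s]
    refine ⟨p, q, k1, k2, k3, fun i j z => t i j (ν₁ z).1, fun x x' i j s1 s2 s3 s4 => ?_,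
      fun x x' i i₁ j j₁ s1 s2 s3 s4 s5 s6 => ?_⟩
    · have := ht.holo _ _ i j (a4 x ▸ s1) (k4 x x' s2) s3 s4
      rw [← a4] at this
      exact ⟨(h₁.hol _).2 _ (Pr.hol_fst this.1), this.2⟩
    · have := ht.change _ _ i i₁ j j₁ (a4 x ▸ s1) (k4 x x' s2) s3 s4 s5 s6
      rwa [← a4] at this
  · obtain ⟨ε, hε, k1⟩ := H.ample
    exact ⟨ε, hε, fun n d s1 s2 => hF 3 W V (prodE X) (prodE Z) V₁ u ν (Prod.map f id) F ν₁ _ h.st
      (by simpa only [← c1, h₁.fac] using hP) h.hol h.fin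
      (fun x => holMap_prod (H.small.holMap _)) a3.holMap h₁.hol a2
      (lbx_prod (lb_inv (lb_lin H.lb n))) (relAmple_prod (k1 n d s1 s2))⟩
  · obtain ⟨ε, hε, k1⟩ := H.ample'
    exact ⟨ε, hε, fun n d s1 s2 => hF 3 W V' (prodE X') (prodE Z) V₁ u' ν' (Prod.map f' id) F' ν₁ _
      h'.st (by simpa only [← c2, h₁.fac] using hP) h'.hol h'.fin
      (fun x => holMap_prod (H.small'.holMap _)) b3.holMap h₁.hol b2
      (lbx_prod (lb_lin H.lb' n)) (relAmple_prod (k1 n d s1 s2))⟩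

end man

/-- drop the isomorphisms; `Q` is a property of points which is preserved by the steps -/
theorem skip2 {k : ℕ} {ρ : Fin k → ℝ} {X Z : ℕ → CSp} {f : ∀ j, (X j).pt → (Z j).pt}
    {f' : ∀ j, (X (j + 1)).pt → (Z j).pt} {A : ∀ j, Set (Z j).pt} {L : ∀ j, Fin k → Bd (X j).pt}
    {c : ℕ → Fin k → ℕ} {J : Set ℕ} (hJ : J.Infinite) {Q : ∀ j, (X j).pt → Prop}
    (hflip : ∀ j ∈ J, IsFlipR (X j) (Z j) (X (j + 1)) (f j) (f' j) (A j) (L j) (L (j + 1)) (c j)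
      (c (j + 1)) ρ)
    (hstep : ∀ i ∈ J, ∀ j ∉ J, i < j →
      IsStep0 (X j) (Z j) (X (j + 1)) (f j) (f' j) (L j) (L (j + 1)) (c j) (c (j + 1)))
    (hQ : ∀ i ∈ J, ∀ j, i ≤ j → ∀ x x', Q j x → f j x = f' j x' → Q (j + 1) x') :
    ∃ (φ : ℕ → ℕ) (F : ∀ m, (X (φ (m + 1))).pt → (Z (φ m)).pt), (∀ m, φ m ∈ J) ∧
      (∀ m, IsFlipR (X (φ m)) (Z (φ m)) (X (φ (m + 1))) (f _) (F m) (A _) (L _) (L _) (c (φ m))
        (c (φ (m + 1))) ρ) ∧ ∀ m x x', Q (φ m) x → f _ x = F m x' → Q (φ (m + 1)) x' := by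
  classical
  have key : ∀ j ∈ J, ∀ n, j + 1 ≤ n → (∀ i, j < i → i < n → i ∉ J) →
      ∃ F : (X n).pt → (Z j).pt,
        IsFlipR (X j) (Z j) (X n) (f j) F (A j) (L j) (L n) (c j) (c n) ρ ∧
        ∀ x x', Q j x → f j x = F x' → Q n x' := by
    intro j hj n hn
    induction n, hn using Nat.le_induction with
    | base => exact fun _ => ⟨f' j, hflip j hj, hQ j hj j le_rfl⟩
    | succ n hn ih =>
      intro h
      obtain ⟨F, hF, hF'⟩ := ih fun i a b => h i a (by omega)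
      have S := hstep j hj n (h n (by omega) (by omega)) hn
      exact ⟨_, flip_step0 hF S, fun x x' a b =>
        hQ j hj n (by omega) _ _ (hF' x _ a b) (S.small.sec_eq _)⟩
  have hJ' : {j | j ∈ J}.Infinite := hJ
  have hm := Nat.nth_strictMono hJ'
  have hmem : ∀ m, Nat.nth (fun j => j ∈ J) m ∈ J := Nat.nth_mem_of_infinite hJ'
  have key2 := fun m => key _ (hmem m) (Nat.nth (fun j => j ∈ J) (m + 1))
    (hm (Nat.lt_succ_self m)) fun i a b hi => by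
      obtain ⟨l, rfl⟩ : i ∈ range (Nat.nth fun j => j ∈ J) := by
        rw [Nat.range_nth_of_infinite hJ']; exact hi
      have a' := hm.lt_iff_lt.1 a
      have b' := hm.lt_iff_lt.1 b
      omega
  choose F hF hF' using key2
  exact ⟨_, F, hmem, hF, hF'⟩

/-- one step away from the flipping locus -/
def St (D : Dat) (a b : Σ j, (D.S.X j).pt) : Prop :=
  ∃ x', b = ⟨a.1 + 1, x'⟩ ∧ D.S.f a.1 a.2 = D.S.f' a.1 x' ∧ ¬ D.Fl a.1 a.2

/-- the point is never hit -/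
def Nh (D : Dat) (j : ℕ) (x : (D.S.X j).pt) : Prop :=
  ∀ b, Relation.ReflTransGen (St D) ⟨j, x⟩ b → ¬ D.Fl b.1 b.2

theorem Nh.not {D : Dat} {j : ℕ} {x : (D.S.X j).pt} (h : Nh D j x) : ¬ D.Fl j x := h _ .refl

theorem Nh.step {D : Dat} {j : ℕ} {x : (D.S.X j).pt} (h : Nh D j x) {x' : (D.S.X (j + 1)).pt}
    (e : D.S.f j x = D.S.f' j x') : Nh D (j + 1) x' :=
  fun b hb => h b (.head ⟨x', rfl, e, h.not⟩ hb)

theorem nh_of {D : Dat} {j : ℕ} {x : (D.S.X j).pt} (h : x ∉ (D.shift j).hit) : Nh D j x := by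
  have key : ∀ b, Relation.ReflTransGen (St D) ⟨j, x⟩ b → ∃ i x', b = ⟨j + i, x'⟩ ∧
      Cor ∅ (fun x : ((D.shift j).S.X 0).pt => x) (D.shift j).S.f (D.shift j).S.f' i x x' := by
    intro b hb
    induction hb with
    | refl => exact ⟨0, x, rfl, notMem_empty _, rfl⟩
    | tail _ h2 ih =>
      obtain ⟨i, x', rfl, h3⟩ := ih
      obtain ⟨x'', rfl, h4, h5⟩ := h2
      exact ⟨i + 1, x'', rfl, x', h3, h4, h5⟩
  intro b hb hf
  obtain ⟨i, x', rfl, h3⟩ := key b hb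
  exact h (mem_iUnion.2 ⟨i + 1, i, Nat.lt_succ_self i, x', h3, hf⟩)

end Vale.Agent.P277Z.Glc.SB
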