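import Vale.Agent.P277Z.Glc.Api
import Vale.Agent.P277Z.Glc.ProdT
import Vale.Agent.P277Z.Pj.Sk2
import Vale.Agent.P277Z.Pj.Imm
import Vale.Agent.P277Z.GH.Sk

/-!
# P277, block GLC, threefold strata: the product with `E`, and the statements
-/

open scoped Manifold ContDiff Topology ComplexOrder
open Vale.Agent.P277 hiding Amin IsFlipR
open Vale.Agent.P277.HD Vale.Agent.P277.PH
open Vale.Agent.P272.K Vale.Agent.P272.K.Prod Vale.Agent.P285.H281.FD Set Filter
open Vale.Agent.P277.H60.Z (XH)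
open Vale.Agent.P277Z.Pj (Stein HolTo ImmTo GPrj)

noncomputable section

namespace Vale.Agent.P277Z.Glc

open Pr

section prod

variable {n : ℕ} {Y : Type} [TopologicalSpace Y] [ChartedSpace (Cm n) Y]

theorem holTo_prodE {X : CSp} {v : Y → X.pt} (h : HolTo n X v) :
    HolTo (n + 1) (prodE X) fun q : Y × El => (v q.1, q.2) :=
  ⟨(h.cont.comp continuous_fst).prodMk continuous_snd, fun p g hg E hE =>
    (holTo_prod (v := v) (p := p) ⟨h.cont.continuousAt, fun e he g hg => h.hol _ g hg e he⟩).2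
      E hE g hg⟩

variable [IsManifold 𝓘(ℂ, Cm n) ω Y]

/-- the two notions of holomorphic functions on the product agree -/
theorem holE_iff [T2Space Y] [CompactSpace Y] {g : Y × El → ℂ} {p : Y × El} :
    (prodE (XH n Y)).Hol g p ↔ HolF (n + 1) g p := by
  have h0 : HolTo n (XH n Y) fun y : Y => y := ⟨continuous_id, fun _ _ a => a⟩
  refine ⟨(holTo_prodE h0).hol p g, fun h => ?_⟩
  have he := at_chartAt (n := n) p.1
  have he' := at_chartAt (n := 1) p.2
  refine ⟨n, fun a (y : Y) => chartAt (Cm n) p.1 y a, _,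
    fun u => g ((pc _ _).symm (glue u.1 u.2)), fun a => Pj.holV_pi.1 (Pj.holV_chart he) a, he',
    AnalyticAt.fun_comp (g := fun z => g ((pc _ _).symm z)) (h _ (atE he he')) (an_glue _), ?_⟩
  filter_upwards [(pc _ _).open_source.mem_nhds (atE he he').2] with q hq
  exact congrArg g ((pc _ _).left_inv hq).symm

end prod

/-- `p = ν ∘ u` is the Stein factorisation of a generically finite projective map -/
structure SFac {W : Type} [TopologicalSpace W] [ChartedSpace (Cm 4) W] (X V : CSp) (p : W → X.pt)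
    (u : W → V.pt) (ν : V.pt → X.pt) : Prop where
  st : Stein 4 V u
  hol : ∀ v, HolMap V X ν v
  fac : ∀ w, ν (u w) = p w
  fin : ∀ x, (ν ⁻¹' {x}).Finite
  normal : IsNormal 4 V
  amp : ∃ L, IsLBx V L ∧ RelAmple V X ν L

/-- (STM) holomorphic functions descend along a modification -/
def STM : Prop := ∀ (T' T : Mf 3) (h : Md T' T) (V : CSp) (u : T.T × El → V.pt), Stein 4 V u →
  Stein 4 V fun q : T'.T × El => u (h.π q.1, q.2)

/-- (AMPU) restriction of an ample line bundle to a hypersurface, times `E` -/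
def AMPU : Prop := ∀ (T : Mf 3) (W : Mf 4) (ι : T.T → W.T) (X : CSp) (p : W.T → X.pt) (P : Bd W.T),
  Val.Sb 3 4 ι → RelAmple W.lg.X X p P →
  RelAmple T.prodE.lg.X (prodE X) (fun q : T.T × El => (p (ι q.1), q.2))
    (pull (fun q : T.T × El => ι q.1) P)

/-- (DIMF) finite maps do not lower the dimension -/
def DIMF : Prop := ∀ (W : Mf 4) (V X : CSp) (φ : W.T → V.pt) (ν : V.pt → X.pt) (l : Fin W.r),
  HolTo 4 V φ → (∀ v, HolMap V X ν v) → (∀ x, (ν ⁻¹' {x}).Finite) →
  DimLe X 2 ((fun w => ν (φ w)) '' W.G l) → DimLe V 2 (φ '' W.G l)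

/-- (NINJ) if `u` factors through `u'`, the discrepancies are the same -/
def NINJ : Prop := ∀ (W : Mf 4) (V V' : CSp) (u : W.T → V.pt) (u' : W.T → V'.pt) (E : Set V'.pt)
  (L : Bd V.pt) (L' : Bd V'.pt) (N : Bd W.T) (A B : ℕ) (n n' : Fin W.r → ℤ)
  (t : L.ι → (N.pow A).ι → W.T → ℂ) (t' : L'.ι → (N.pow B).ι → W.T → ℂ),
  Continuous u → Stein 4 V' u' → IsNormal 4 V' → (∀ w w', u' w' = u' w → u w' = u w) →
  IsAn V' univ E → DimLe V' 2 E → (∀ w, u' w ∈ E → w ∈ ⋃ l, W.G l) → IsLBx V L → IsLBx V' L' →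
  IsLB 4 N → Cmp 4 u L (N.pow A) W.G n t → Cmp 4 u' L' (N.pow B) W.G n' t' →
  (∀ l, ∀ w ∈ W.G l, u' w ∉ E → B * n l = A * n' l) → ∀ l, B * n l = A * n' l

/-- (KAHP) Kaehler forms on the product -/
def KAHP : Prop := ∀ (X : CSp) (R : Set X.pt), GH.KahR X R → GH.KahR (prodE X) (Prod.fst ⁻¹' R)

/-- (DIVE) restriction of a divisor to a stratum, times `E` -/
def DIVE : Prop := ∀ (D : Dat) (N : ℕ) (T : Pm D N 3) (W : Pm D N 4) (I : Finset (Fin W.r))
  (E : Emb T W I) (L : Bd W.T) (τ : L.ι → W.T → ℂ) (c : Fin W.r → ℕ), Val.IsDiv W.toMf.lg L τ c →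
  (∀ l ∈ I, c l = 0) → Val.IsDiv T.toMf.prodE.lg (pull (fun q : T.T × El => E.ι q.1) L)
    (fun i q => τ i (E.ι q.1)) fun l => c (E.par l)

end Vale.Agent.P277Z.Glc
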