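import Vale.Agent.P277Z.Glc.Num
import Vale.Agent.P277Z.GH.Sk

/-!
# P277, block GLC: separation of components, good models
-/

open scoped Topology
open Vale.Agent.P277 hiding Amin IsFlipR
open Vale.Agent.P277.HD Set Filter

noncomputable section

namespace Vale.Agent.P277Z.Glc

namespace SepH

theorem mono_iff {X : CSp} {I : GH.Fam X} {V : Val.Lg} {p : V.W → X.pt} {a : Fin V.r → ℕ}
    (h : I.Mono V p a) (y : V.W) : p y ∈ I.Z ↔ ∃ l, y ∈ V.G l ∧ a l ≠ 0 := by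
  obtain ⟨ζ, hζ⟩ := V.exEq y
  have h1 : ∏ l, ζ l y ^ a l = 0 ↔ ∃ l, y ∈ V.G l ∧ a l ≠ 0 := by
    simp only [Finset.prod_eq_zero_iff, Finset.mem_univ, true_and, pow_eq_zero_iff',
      hζ.iff.self_of_nhds]
  rw [← h1]
  constructor
  · rintro ⟨γ, h2, h3⟩
    obtain ⟨u, -, ⟨k, hk⟩, h4⟩ := h y γ ζ h2 hζ
    exact (mul_eq_zero.1 ((h4.self_of_nhds k).symm.trans (h3 k))).resolve_left hk
  · intro h2
    obtain ⟨γ, h3⟩ := I.cover (p y)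
    obtain ⟨u, -, -, h4⟩ := h y γ ζ h3 hζ
    exact ⟨γ, h3, fun k => by rw [h4.self_of_nhds k, h2, mul_zero]⟩

theorem an_inter (V : Val.Lg) (l k : Fin V.r) : IsAn V.X univ (V.G l ∩ V.G k) := by
  intro y _
  obtain ⟨ζ, hζ⟩ := V.exEq y
  exact ⟨2, ![ζ l, ζ k], Fin.forall_fin_two.2 ⟨hζ.hol l, hζ.hol k⟩, hζ.iff.mono fun x hx =>
    (Fin.forall_fin_two.trans (and_congr (hx l) (hx k))).symm⟩

theorem o_ne (hP : StPre) {d : ℕ} {V' V : Mf d} (h : Md V' V) {l' : Fin V'.r} {z : V'.T}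
    (hz : ∀ k, z ∈ V'.G k ↔ k = l') {l : Fin V.r} (hl : h.π z ∈ V.G l) : h.o l l' ≠ 0 :=
  let ⟨k, a, b⟩ := (hP d V' V h z l).1 hl
  (hz k).1 a ▸ b

theorem le_a (hJ : StJac) {D : Dat} {N' N d : ℕ} {W' : Pm D N' d} {W : Pm D N d} (h : Hom₀ W' W)
    {l' : Fin W'.r} {l₁ l₂ : Fin W.r} (hne : l₁ ≠ l₂) (h1 : h.o l₁ l' ≠ 0) (h2 : h.o l₂ l' ≠ 0) :
    (1 + W.a N l₁) + (1 + W.a N l₂) ≤ 1 + W'.a N l' := by
  have a0 : ∀ l, 0 ≤ 1 + W.a N l := fun l => by linarith [W.lc' le_rfl l]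
  have a1 : ((∑ l, h.o l l' : ℕ) : ℝ) ≤ (h.J l' + 1 : ℕ) := Nat.cast_le.2 (hJ d _ _ h.toMd l').1
  have a2 := Finset.sum_le_sum_of_subset_of_nonneg (f := fun l => h.o l l' * (1 + W.a N l))
    (Finset.subset_univ {l₁, l₂}) fun l _ _ => mul_nonneg (Nat.cast_nonneg _) (a0 l)
  have a3 : ∀ l, h.o l l' ≠ 0 → 1 + W.a N l ≤ h.o l l' * (1 + W.a N l) := fun l hl =>
    le_mul_of_one_le_left (a0 l) (Nat.one_le_cast.2 (Nat.pos_of_ne_zero hl))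
  rw [Finset.sum_pair hne] at a2
  simp only [mul_add (h.o _ l' : ℝ), mul_one, Finset.sum_add_distrib] at a2 a3
  push_cast at a1
  rw [h.a_eq le_rfl]
  linarith [a3 l₁ h1, a3 l₂ h2]

end SepH

open SepH

theorem sep_of (hF : GH.StFam) (hR : GH.StPrin) (hC : GH.StComp) (hM : StMd) (hL : StPull)
    (hP : StPre) (hJ : StJac) : StSep := by
  intro D N W exc S hW hS
  let e := Fintype.equivFin {c : Fin W.r × Fin W.r // c.1 ∈ S ∧ c.2 ∈ S ∧ c.1 ≠ c.2}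
  choose I hI using fun j => hF _ _ (an_inter W.toMf.lg (e.symm j).1.1 (e.symm j).1.2)
  have h0 : ∀ j, (I j).Z ⊆ W.toMf.lg.E := fun j y hy => mem_iUnion.2 ⟨_, (hI j ▸ hy).1⟩
  obtain ⟨V', π, new, r1, r2, r3, r4⟩ := hR W.toMf.lg inferInstance _ I fun j =>
    W.toMf.lg.dense.mono (compl_subset_compl.2 (h0 j))
  obtain ⟨exc', c1, -⟩ := hC V' _ _ π _ new exc (D.S.flip N).normal r1 hW
    fun y hy => (r2 y).2 (.inl hy)
  obtain ⟨U, B, new', e1, hn⟩ := hM W.toMf V' π new r1 fun y hy => (r2 y).2 (.inl hy)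
  cases e1
  obtain ⟨W', h, e2⟩ := hL D N 4 W U B
  cases e2
  have k1 : ∀ l', h.J l' ≠ 0 →
      ∃ l₁ ∈ S, ∃ l₂ ∈ S, l₁ ≠ l₂ ∧ h.o l₁ l' ≠ 0 ∧ h.o l₂ l' ≠ 0 := fun l' hl => by
    obtain ⟨z, hz⟩ := W'.gen_one l'
    obtain ⟨j, hj⟩ := r3 l' (by_contra fun c => hl ((hn l').2 c)) z ((hz l').2 rfl)
    rw [hI j] at hj
    exact ⟨_, (e.symm j).2.1, _, (e.symm j).2.2.1, (e.symm j).2.2.2, o_ne hP h.toMd hz hj.1,
      o_ne hP h.toMd hz hj.2⟩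
  have k2 : ∀ l', W'.a N l' = -1 → h.J l' = 0 := fun l' hl => by_contra fun c =>
    let ⟨l, a, _, _, _, b, _⟩ := k1 l' c
    hS l a ((h.lc_up hJ le_rfl hl).1 l b)
  refine ⟨W', exc', ⟨h, fun y hy y' => r1.inj y y' fun c => ?_, k2, fun y hy _ l' hl => ?_⟩,
    by rwa [Pm.Res, ← funext (h.hp N le_rfl)], k1,
    fun l₁ a₁ l₂ a₂ hne l₁' l₂' s₁ s₂ => disjoint_left.2 fun y b₁ b₂ => ?_⟩
  · obtain ⟨l, a, b⟩ := mem_iUnion₂.1 c
    exact (hn l).1 (k2 l (hy l b)) a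
  · have a1 : h.J l' = 0 := by_contra fun c =>
      let ⟨l, a, _, _, _, b, _⟩ := k1 l' c
      hS l a (hy l (h.sub hP b hl))
    obtain ⟨z, hz⟩ := W'.gen_one l'
    obtain ⟨l, a2⟩ := mem_iUnion.1 (((r2 z).1 (mem_iUnion.2 ⟨l', (hz l').2 rfl⟩)).elim id
      fun ⟨j, hj⟩ => h0 j hj)
    have a3 := o_ne hP h.toMd hz a2
    exact (h.a_st hJ ⟨a1, a3⟩ le_rfl).trans (hy l (h.sub hP a3 hl))
  · obtain ⟨a, ha⟩ := r4 (e ⟨(l₁, l₂), a₁, a₂, hne⟩)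
    have a1 := mono_iff ha
    simp only [hI, Equiv.symm_apply_apply] at a1
    obtain ⟨z, -, hz⟩ := W'.gen_ex (I := {l₁', l₂'}) (y := y) (by simpa using ⟨b₁, b₂⟩)
    obtain ⟨l', a2, a3⟩ := (a1 z).1 ⟨h.sub hP s₁.2 ((hz _).2 (by simp)),
      h.sub hP s₂.2 ((hz _).2 (by simp))⟩
    obtain ⟨w, hw⟩ := W'.gen_one l'
    have a4 := (a1 w).2 ⟨l', (hw l').2 rfl, a3⟩
    rcases Finset.mem_insert.1 ((hz l').1 a2) with rfl | c
    · exact hne (s₁.left hJ (o_ne hP h.toMd hw a4.2)).symm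
    · rw [Finset.mem_singleton.1 c] at hw
      exact hne (s₂.left hJ (o_ne hP h.toMd hw a4.1))

theorem good_of (hS : StSep) (hC : StComp) (hI : StId) (hP : StPre) (hJ : StJac) (hU : StUniq) :
    StGood := by
  classical
  intro D N W exc hW
  obtain ⟨ε, h0, h1⟩ : ∃ ε : ℝ, 0 < ε ∧ ∀ l, -1 < W.a N l → ε ≤ 1 + W.a N l := by
    refine (Eventually.and (f := 𝓝[>] 0) self_mem_nhdsWithin (eventually_all.2 fun l => ?_)).exists
    by_cases hl : -1 < W.a N l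
    · filter_upwards [Ioc_mem_nhdsGT (show 0 < 1 + W.a N l by linarith)] with ε a _ using a.2
    · exact .of_forall fun _ a => absurd a hl
  have key : ∀ n : ℕ, ∃ (W' : Pm D N 4) (exc' : Finset (Fin W'.r)), W'.Res exc' ∧
      Nonempty (Hom W' W) ∧ (∀ l, -1 < W'.a N l → W'.a N l < 0 → ε ≤ 1 + W'.a N l) ∧
      ∀ l l', l ≠ l' → -1 < W'.a N l → W'.a N l < 0 → -1 < W'.a N l' → W'.a N l' < 0 →
        ∀ y ∈ W'.G l, y ∈ W'.G l' → n * ε ≤ (1 + W'.a N l) + (1 + W'.a N l') := by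
    intro n
    induction n with
    | zero => exact ⟨W, exc, hW, ⟨(hI D N 4 W).choose⟩, fun l a _ => h1 l a,
        fun l l' _ a _ b _ _ _ _ => by push_cast; linarith⟩
    | succ n ih =>
      obtain ⟨W₁, exc₁, a1, ⟨k₁⟩, a2, a3⟩ := ih
      obtain ⟨W₂, exc₂, h, b1, b2, b3⟩ := hS D N W₁ exc₁
        (Finset.univ.filter fun l => -1 < W₁.a N l ∧ W₁.a N l < 0) a1
        fun l hl => (Finset.mem_filter.1 hl).2.1.ne'
      simp only [Finset.mem_filter, Finset.mem_univ, true_and] at b2 b3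
      have c1 : ∀ l', h.J l' ≠ 0 → ε ≤ 1 + W₂.a N l' ∧ n * ε ≤ 1 + W₂.a N l' := fun l' hl => by
        obtain ⟨l₁, d₁, l₂, d₂, hne, o₁, o₂⟩ := b2 l' hl
        obtain ⟨y, hy⟩ := (W₂.connG l').nonempty
        have := le_a hJ h.toHom₀ hne o₁ o₂
        exact ⟨by linarith [a2 l₁ d₁.1 d₁.2, d₂.1], (a3 l₁ l₂ hne d₁.1 d₁.2 d₂.1 d₂.2 _
          (h.sub hP o₁ hy) (h.sub hP o₂ hy)).trans this⟩
      have c2 : ∀ l', h.J l' = 0 → W₂.a N l' < 0 → ∃ l, h.ST l l' ∧ W₂.a N l' = W₁.a N l :=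
        fun l' hl a => ((h.a_J0 hl le_rfl).resolve_left a.ne).imp fun l s =>
          ⟨s, h.a_st hJ s le_rfl⟩
      have c3 : ∀ l', -1 < W₂.a N l' → W₂.a N l' < 0 → ε ≤ 1 + W₂.a N l' := fun l' a b => by
        by_cases hl : h.J l' = 0
        · obtain ⟨l, -, e⟩ := c2 l' hl b
          rw [e] at a b ⊢
          exact a2 l a b
        · exact (c1 l' hl).1
      refine ⟨W₂, exc₂, b1, ⟨(hC D _ _ _ _ _ _ _ h k₁).choose⟩, c3,
        fun l l' hne d₁ d₂ d₃ d₄ y y₁ y₂ => ?_⟩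
      push_cast
      by_cases hl : h.J l = 0
      · by_cases hl' : h.J l' = 0
        · obtain ⟨k, s, e⟩ := c2 l hl d₂
          obtain ⟨k', s', e'⟩ := c2 l' hl' d₄
          refine (disjoint_left.1 (b3 k ⟨e ▸ d₁, e ▸ d₂⟩ k' ⟨e' ▸ d₃, e' ▸ d₄⟩ ?_ l l' s s')
            y₁ y₂).elim
          rintro rfl
          exact hne ((hU 4 _ _ h.toMd k).unique s s')
        · linarith [(c1 l' hl').2, c3 l d₁ d₂]
      · linarith [(c1 l hl).2, c3 l' d₃ d₄]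
  obtain ⟨n, hn⟩ := exists_nat_ge (2 / ε)
  obtain ⟨W', exc', a1, a2, -, a3⟩ := key n
  refine ⟨W', exc', a1, a2, fun l l' hne d₁ d₂ d₃ d₄ => disjoint_left.2 fun y y₁ y₂ => ?_⟩
  rw [div_le_iff₀ h0] at hn
  linarith [a3 l l' hne d₁ d₂ d₃ d₄ y y₁ y₂]

end Vale.Agent.P277Z.Glc
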