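import Vale.Agent.P277Z.Glc.Skip

/-!
# P277, block GLC: dropping the isomorphisms does not change the points which are hit
-/

open scoped Manifold ContDiff Topology
open Vale.Agent.P277 Vale.Agent.P277.HD
open Vale.Agent.P272.K Vale.Agent.P285.H281.FD Set Filter

noncomputable section

namespace Vale.Agent.P277Z.Glc

/-- the enumeration of `J` -/
def nx (J : Set ℕ) : ℕ → ℕ
  | 0 => 0
  | m + 1 => sInf {j | j ∈ J ∧ nx J m < j}

section nx
variable {J : Set ℕ}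

theorem nx_succ (hJ : J.Infinite) (m : ℕ) : nx J (m + 1) ∈ J ∧ nx J m < nx J (m + 1) :=
  Nat.sInf_mem (s := {j | j ∈ J ∧ nx J m < j}) (hJ.exists_gt _)

theorem nx_mem (h0 : 0 ∈ J) (hJ : J.Infinite) : ∀ m, nx J m ∈ J
  | 0 => h0
  | m + 1 => (nx_succ hJ m).1

theorem nx_mono (hJ : J.Infinite) : StrictMono (nx J) :=
  strictMono_nat_of_lt_succ fun m => (nx_succ hJ m).2

theorem nx_gap {m i : ℕ} (a : nx J m < i) (b : i < nx J (m + 1)) : i ∉ J := fun c =>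
  Nat.notMem_of_lt_sInf b ⟨c, a⟩

theorem nx_surj (hJ : J.Infinite) {j : ℕ} (hj : j ∈ J) : ∃ m, nx J m = j := by
  have h : ∃ m, j < nx J (m + 1) := ⟨j, (nx_mono hJ).le_apply⟩
  refine ⟨Nat.find h, by_contra fun a => nx_gap (lt_of_le_of_ne ?_ a) (Nat.find_spec h) hj⟩
  rcases e : Nat.find h with _ | m
  · exact Nat.zero_le _
  · exact not_lt.1 (Nat.find_min h (e ▸ Nat.lt_succ_self m))

end nx

theorem not_amin {X Z : CSp} {f : X.pt → Z.pt} (h : IsSmall X Z f ∅) (z : Z.pt) : z ∉ HD.Amin f :=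
  fun ⟨x, x', a, b, c⟩ => c (h.inj x x' (notMem_empty _) (b.trans a.symm)).symm

/-- (SKIP₂) -/
theorem skip₂ {k : ℕ} {ρ : Fin k → ℝ} {X Z : ℕ → CSp} {f : ∀ j, (X j).pt → (Z j).pt}
    {f' : ∀ j, (X (j + 1)).pt → (Z j).pt} {A : ∀ j, Set (Z j).pt} {L : ∀ j, Fin k → Bd (X j).pt}
    {c : ℕ → Fin k → ℕ} {J : Set ℕ} (h0 : 0 ∈ J) (hJ : J.Infinite)
    (hflip : ∀ j ∈ J, HD.IsFlipR (X j) (Z j) (X (j + 1)) (f j) (f' j) (A j) (L j) (L (j + 1)) (c j)
      (c (j + 1)) ρ)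
    (hstep : ∀ j ∉ J, IsStep0 (X j) (Z j) (X (j + 1)) (f j) (f' j) (L j) (L (j + 1)) (c j)
      (c (j + 1))) :
    ∃ F : ∀ m, (X (nx J (m + 1))).pt → (Z (nx J m)).pt,
      (∀ m, HD.IsFlipR (X (nx J m)) (Z (nx J m)) (X (nx J (m + 1))) (f _) (F m) (A _) (L _) (L _)
        (c (nx J m)) (c (nx J (m + 1))) ρ) ∧
      HD.hit (X := fun m => X (nx J m)) (Z := fun m => Z (nx J m)) (fun _ => f _) F =
        HD.hit f f' := by
  have key : ∀ j ∈ J, ∀ n, j + 1 ≤ n → (∀ i, j < i → i < n → i ∉ J) →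
      ∃ F : (X n).pt → (Z j).pt,
        HD.IsFlipR (X j) (Z j) (X n) (f j) F (A j) (L j) (L n) (c j) (c n) ρ ∧
        ∀ y x', HD.Cor ∅ (fun x : (X 0).pt => x) f f' n y x' ↔
          ∃ x, HD.Cor ∅ (fun x : (X 0).pt => x) f f' j y x ∧ f j x = F x' ∧ f j x ∉ HD.Amin (f j) := by
    intro j hj n hn
    induction n, hn using Nat.le_induction with
    | base => exact fun _ => ⟨f' j, hflip j hj, fun _ _ => Iff.rfl⟩
    | succ n hn ih =>
      intro h
      obtain ⟨F, hF, hC⟩ := ih fun i a b => h i a (by omega)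
      have S := hstep n (h n (by omega) (by omega))
      refine ⟨_, flip_step0 hF S, fun y x' => Iff.trans ⟨?_, fun a => ?_⟩ (hC y _)⟩
      · rintro ⟨x, a, b, -⟩
        rwa [Function.comp_apply, ← b, S.small.sec_apply (notMem_empty _)]
      · exact ⟨_, a, S.small.sec_eq _, not_amin S.small _⟩
  choose F hF hC using fun m => key _ (nx_mem h0 hJ m) _ (nx_succ hJ m).2 fun _ => nx_gap
  have h1 : ∀ m y x, HD.Cor (X := fun m => X (nx J m)) (Z := fun m => Z (nx J m)) ∅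
      (fun x : (X 0).pt => x) (fun _ => f _) F m y x ↔
      HD.Cor ∅ (fun x : (X 0).pt => x) f f' (nx J m) y x := by
    intro m
    induction m with
    | zero => exact fun _ _ => Iff.rfl
    | succ m ih =>
      exact fun y x => (exists_congr fun x => and_congr_left' (ih y x)).trans (hC m y x).symm
  refine ⟨F, hF, Set.ext fun y => ⟨fun ⟨m, x, a, b⟩ => ⟨_, x, (h1 m y x).1 a, b⟩, ?_⟩⟩
  rintro ⟨j, x, a, b⟩
  obtain ⟨m, rfl⟩ := nx_surj hJ (by_contra fun e => not_amin (hstep j e).small _ b)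
  exact ⟨m, x, (h1 m y x).2 a, b⟩

end Vale.Agent.P277Z.Glc
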