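import Vale.Agent.P277Z.Glc.Num

/-!
# P277, block GLC: strata and towers (section 1)
-/

open scoped Topology
open Vale.Agent.P277 hiding Amin IsFlipR
open Vale.Agent.P277.HD Set Filter

noncomputable section

namespace Vale.Agent.P277Z.Glc

/-- the facts about modifications -/
structure HM : Prop where
  pre : StPre
  jac : StJac
  thin : StThin
  surj : StSurj
  uniq : StUniq
  id : StId
  comp : StComp
  exc : StExc

variable {D : Dat} {N'' N' N d : ℕ} {W'' : Pm D N'' d} {W' : Pm D N' d} {W : Pm D N d}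

/-- the log canonical strata -/
def Pm.Str (W : Pm D N d) : Set (Finset (Fin W.r) × Set W.T) := {c | W.IsSt c.1 c.2}

theorem Pm.str_fin (W : Pm D N d) : W.Str.Finite := by
  refine (finite_iUnion fun I => (W.fin_cc I).image fun C => (I, C)).subset ?_
  rintro ⟨I, C⟩ ⟨-, h⟩
  exact mem_iUnion.2 ⟨I, C, h, rfl⟩

theorem Pm.str_gen {c} (hc : c ∈ W.Str) : ∃ z ∈ c.2, z ∈ W.U := by
  obtain ⟨h1, y, h2, h3⟩ := hc
  obtain ⟨z, h4, h5⟩ := W.gen_ex h2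
  exact ⟨z, h3 ▸ h4, fun l hl => h1 l ((h5 l).1 hl)⟩

theorem Pm.str_eq {c} (hc : c ∈ W.Str) {z : W.T} (hz : z ∈ c.2) :
    (∀ l ∈ c.1, z ∈ W.G l) ∧ c.2 = W.cc c.1 z := by
  obtain ⟨-, y, -, h3⟩ := hc
  have h4 : z ∈ W.cc c.1 y := by rwa [h3] at hz
  exact ⟨W.cc_sub h4, h3.trans (W.cc_eq h4)⟩

open Classical in
/-- the image of a stratum -/
def Md.dn {V' V : Mf d} (h : Md V' V) (c : Finset (Fin V'.r) × Set V'.T) :
    Finset (Fin V.r) × Set V.T :=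
  (Finset.univ.filter fun l => ∃ l' ∈ c.1, h.ST l l', h.π '' c.2)

theorem Md.mem_dn {V' V : Mf d} {h : Md V' V} {c} {l : Fin V.r} :
    l ∈ (h.dn c).1 ↔ ∃ l' ∈ c.1, h.ST l l' := by simp [Md.dn]

theorem Md.Over.card (H : HM) {V' V : Mf d} {h : Md V' V} {I I'} (o : h.Over I I') :
    I.card = I'.card := by
  choose s hs hs' using o.1
  choose t ht ht' using o.2
  refine Finset.card_bij' s t hs ht (fun l hl => ?_) fun l' hl' => ?_
  · exact (hs' l hl).left H.jac (ht' _ _).2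
  · exact (H.uniq _ _ _ h _).unique (hs' _ _) (ht' l' hl')

theorem Hom.st_of_lc (H : HM) (h : Hom W' W) {l' : Fin W'.r} (hl : W'.a N' l' = -1) :
    ∃ l, h.ST l l' ∧ W.a N l = -1 :=
  (h.lc_ex H.jac le_rfl (W'.lc_of h.le le_rfl hl)).imp fun _ e => ⟨⟨h.J0 l' hl, e.1⟩, e.2⟩

theorem Hom.over_dn (H : HM) (h : Hom W' W) {c} (hc : c ∈ W'.Str) : h.Over (h.dn c).1 c.1 :=
  ⟨fun _ => Md.mem_dn.1, fun l' hl' => (h.st_of_lc H (hc.1 l' hl')).imp fun _ e =>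
    ⟨Md.mem_dn.2 ⟨l', hl', e.1⟩, e.1⟩⟩

theorem Hom.dn_mem (H : HM) (h : Hom W' W) {c} (hc : c ∈ W'.Str) : h.dn c ∈ W.Str := by
  have ho := h.over_dn H hc
  obtain ⟨h1, y, h2, h3⟩ := hc
  refine ⟨fun l hl => ?_, h.π y, fun l hl => ?_, ?_⟩
  · obtain ⟨l', h4, h5⟩ := Md.mem_dn.1 hl
    rw [← h.a_st H.jac h5 le_rfl]
    exact W'.lc_of h.le le_rfl (h1 l' h4)
  · obtain ⟨l', h4, h5⟩ := Md.mem_dn.1 hl
    exact h.sub H.pre h5.2 (h2 l' h4)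
  · exact (congrArg (image h.π) h3).trans (H.surj _ _ _ h.toMd _ _ ho y h2)

theorem Hom.dn_inj (H : HM) (h : Hom W' W) : InjOn h.dn W'.Str := by
  have key : ∀ c ∈ W'.Str, ∀ c' ∈ W'.Str, h.dn c = h.dn c' → c.1 ⊆ c'.1 := by
    intro c hc c' _ e l' hl'
    obtain ⟨l, h1, h2⟩ := (h.over_dn H hc).2 l' hl'
    obtain ⟨k, h3, h4⟩ := Md.mem_dn.1 (e ▸ h1)
    exact (H.uniq _ _ _ h.toMd l).unique h4 h2 ▸ h3
  intro c hc c' hc' e
  have h1 : c.1 = c'.1 := (key c hc c' hc' e).antisymm (key c' hc' c hc e.symm)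
  obtain ⟨z, h2, h3⟩ := W'.str_gen hc
  obtain ⟨z', h4, h5⟩ : h.π z ∈ (h.dn c').2 := e ▸ mem_image_of_mem h.π h2
  obtain rfl := h.inj z h3 z' h5
  exact Prod.ext h1 (by rw [(W'.str_eq hc h2).2, (W'.str_eq hc' h4).2, h1])

theorem Hom.lift (H : HM) (h : Hom W' W) {c} (hc : c ∈ W.Str) {y : W'.T} (hy : y ∈ W'.U)
    (hy' : h.π y ∈ c.2) : ∃ c' ∈ W'.Str, h.dn c' = c := by
  classical
  set I' : Finset (Fin W'.r) := Finset.univ.filter fun l' => ∃ l ∈ c.1, h.ST l l' with hI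
  have h0 : ∀ l', l' ∈ I' ↔ ∃ l ∈ c.1, h.ST l l' := fun l' => by simp [hI]
  have h1 : ∀ l' ∈ I', y ∈ W'.G l' := fun l' hl' => by
    obtain ⟨l, h2, h3⟩ := (h0 l').1 hl'
    obtain ⟨k, h4, h5⟩ := (H.pre _ _ _ h.toMd y l).1 ((W.str_eq hc hy').1 l h2)
    exact (H.uniq _ _ _ h.toMd l).unique ⟨h.J0 k (hy k h4), h5⟩ h3 ▸ h4
  have h2 : h.Over c.1 I' := ⟨fun l hl => (H.uniq _ _ _ h.toMd l).exists.imp fun l' e =>
    ⟨(h0 l').2 ⟨l, hl, e⟩, e⟩, fun l' => (h0 l').1⟩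
  refine ⟨(I', W'.cc I' y), ⟨fun l' hl' => hy l' (h1 l' hl'), y, h1, rfl⟩, Prod.ext ?_ ?_⟩
  · ext l
    refine Md.mem_dn.trans ⟨fun ⟨l', h3, h4⟩ => ?_, h2.1 l⟩
    obtain ⟨k, h5, h6⟩ := (h0 l').1 h3
    exact h6.left H.jac h4.2 ▸ h5
  · exact (H.surj _ _ _ h.toMd _ _ h2 y h1).trans (W.str_eq hc hy').2.symm

/-- `k` is the composition of `h'` and `h` -/
structure IsC {V'' V' V : Mf d} (k : Md V'' V) (h' : Md V'' V') (h : Md V' V) : Prop where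
  π : ∀ y, k.π y = h.π (h'.π y)
  o : ∀ l l'', k.o l l'' = ∑ l', h.o l l' * h'.o l' l''
  J : ∀ l'', k.J l'' = h'.J l'' + ∑ l', h.J l' * h'.o l' l''

theorem IsC.dn (H : HM) {V'' V' V : Mf d} {k : Md V'' V} {h' : Md V'' V'} {h : Md V' V}
    (e : IsC k h' h) (c) : k.dn c = h.dn (h'.dn c) := by
  refine Prod.ext ?_ ?_
  · ext l
    simp only [Md.mem_dn, st_comp H.jac e.o e.J]
    exact ⟨fun ⟨a, b, x, y, z⟩ => ⟨x, ⟨a, b, z⟩, y⟩, fun ⟨x, ⟨a, b, z⟩, y⟩ => ⟨a, b, x, y, z⟩⟩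
  · simp only [Md.dn, image_image, e.π]

theorem exists_comp (H : HM) {ν : ℕ → ℕ} (T : ∀ j, Pm D (ν j) d) (h : ∀ j, Hom (T (j + 1)) (T j)) :
    ∃ K : ∀ j, Hom (T j) (T 0), (∀ y, (K 0).π y = y) ∧ (∀ l l', (K 0).ST l l' ↔ l = l') ∧
      ∀ j, IsC (K (j + 1)).toMd (h j).toMd (K j).toMd := by
  obtain ⟨k0, a1, a2, a3⟩ := H.id D _ d (T 0)
  choose cp c1 c2 c3 using fun j (k : Hom (T j) (T 0)) => H.comp D _ _ _ d _ _ _ (h j) k
  refine ⟨fun j => Nat.rec (motive := fun j => Hom (T j) (T 0)) k0 cp j, a1, fun l l' => ?_,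
    fun j => ⟨c1 j _, c2 j _, c3 j _⟩⟩
  change k0.J l' = 0 ∧ k0.o l l' ≠ 0 ↔ _
  simp [a2, a3]

theorem exists_tw (P : ∀ j, Pm D j d → Prop)
    (hP : ∀ j W, P j W → ∃ W', P (j + 1) W' ∧ Nonempty (Hom W' W)) (W : Pm D 0 d) (h0 : P 0 W) :
    ∃ S : Tw D d, S.T 0 = W ∧ ∀ j, P j (S.T j) := by
  choose nx h1 h2 using hP
  let F : ∀ j, {W : Pm D j d // P j W} := fun j =>
    Nat.rec (motive := fun j => {W : Pm D j d // P j W}) ⟨W, h0⟩
      (fun j W => ⟨nx j W.1 W.2, h1 j W.1 W.2⟩) j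
  exact ⟨⟨fun j => (F j).1, fun j => (h2 j (F j).1 (F j).2).some⟩, rfl, fun j => (F j).2⟩

/-- section 1 -/
theorem Tw.alive (H : HM) (S : Tw D d) : ∃ J, (S.T J).sh.Alive := by
  obtain ⟨J, hJ⟩ : ∃ J, ∀ j, (S.T J).Str.ncard ≤ (S.T j).Str.ncard :=
    ⟨Function.argmin fun j => (S.T j).Str.ncard, 
      fun j => Function.argmin_le (fun j => (S.T j).Str.ncard) j⟩
  obtain ⟨K, -⟩ := exists_comp H (ν := fun j => J + j) (fun j => S.T (J + j)) fun j => S.h (J + j)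
  refine ⟨J, fun I C hC N => ?_⟩
  have h1 : (K N).dn '' (S.T (J + N)).Str = (S.T J).Str := by
    refine eq_of_subset_of_ncard_le ?_ ?_ (S.T J).str_fin
    · rintro _ ⟨c, hc, rfl⟩
      exact (K N).dn_mem H hc
    · rw [((K N).dn_inj H).ncard_image]
      exact hJ _
  obtain ⟨c, hc, e⟩ : (I, C) ∈ (K N).dn '' (S.T (J + N)).Str := h1 ▸ hC
  obtain ⟨z, h2, h3⟩ := Pm.str_gen hc
  have h4 : (K N).π z ∈ C := (congrArg Prod.snd e).subset (mem_image_of_mem _ h2)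
  refine ⟨(K N).π z, h4, (K N).U_down H.pre H.jac h3, ?_⟩
  have h5 := (Pm.shift J (S.T (J + N))).not_hitLt (y := z) le_rfl fun j hj =>
    (S.T (J + N)).U_not_fl h3 (Nat.add_lt_add_left hj J)
  have h6 := (K N).hp J le_rfl z
  exact fun h7 => h5 (mem_of_eq_of_mem h6.symm h7)

theorem Hom.alive (H : HM) {W' W : Pm D 0 d} (h : Hom W' W) (hW : W.Alive) : W'.Alive := by
  intro I C hC N
  obtain ⟨_, ⟨y, h1, rfl⟩, h2, h3⟩ := hW _ _ (h.dn_mem H (c := (I, C)) hC) N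
  exact ⟨y, h1, h.back y h2 fun j _ hj => absurd hj (Nat.not_lt_zero j), h.hp 0 le_rfl y ▸ h3⟩

/-- all strata survive -/
theorem Hom.surj_str (H : HM) {W : Pm D 0 d} (h : Hom W' W) (hW : W.Alive) {c} (hc : c ∈ W.Str) :
    ∃ c' ∈ W'.Str, h.dn c' = c := by
  obtain ⟨y, h1, h2, h3⟩ := hW _ _ hc N'
  obtain ⟨y, rfl⟩ := h.surj y
  rw [h.hp 0 le_rfl] at h3
  exact h.lift H hc (h.back y h2 fun j _ hj => W'.not_fl h3 j hj hj.le) h1

theorem Tw.Off.unhit (H : HM) {S : Tw D d} {J : ℕ} (h : S.Off J) (y : (S.T J).T) :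
    (S.T J).p J y ∉ (D.shift J).hit := by
  obtain ⟨K, k0, -, hK⟩ :=
    exists_comp H (ν := fun j => J + j) (fun j => S.T (J + j)) fun j => S.h (J + j)
  have key : ∀ N, ∃ z, (K N).π z = y ∧ ∀ j < N, ¬ D.Fl (J + j) ((S.T (J + N)).p (J + j) z) := by
    intro N
    induction N with
    | zero => exact ⟨y, k0 y, fun j hj => absurd hj (Nat.not_lt_zero j)⟩
    | succ N ih =>
      obtain ⟨z, h1, h2⟩ := ih
      obtain ⟨z, rfl⟩ := (S.h (J + N)).surj z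
      refine ⟨z, ((hK N).π z).trans h1, fun j hj => ?_⟩
      have h3 := (S.h (J + N)).hp (J + j) (by omega) z
      refine fun h4 => ?_
      have h5 : D.Fl (J + j) ((S.T (J + N)).p (J + j) ((S.h (J + N)).π z)) := by
        rw [h3]
        exact h4
      rcases Nat.lt_succ_iff_lt_or_eq.1 hj with h6 | rfl
      · exact h2 j h6 h5
      · exact h _ (Nat.le_add_right J j) _ h5
  refine Dat.not_hit.2 fun N => ?_
  obtain ⟨z, rfl, h2⟩ := key N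
  have h5 := (Pm.shift J (S.T (J + N))).not_hitLt (y := z) le_rfl h2
  exact fun h7 => h5 (mem_of_eq_of_mem ((K N).hp J le_rfl z).symm h7)

end Vale.Agent.P277Z.Glc
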