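import Vale.Agent.P277Z.Glc.Num
import Vale.Agent.P277Z.Val.Jz0

/-!
# P277, block GLC: strata outside thin sets
-/

set_option linter.unusedSectionVars false

open scoped Manifold ContDiff Topology
open Vale.Agent.P272.K Set Filter Metric
open Vale.Agent.P277.PH (HolF at_chartAt)
open Vale.Agent.P277.T3 (ThinM thinM_of_local thinM_empty)
open Vale.Agent.P277.H762 (Cv not_cv_nhds)
open Vale.Agent.P277Z.Val (AnM Crd holF_cont holF_ev conn_cv)
open Vale.Agent.P277Z.Val.U (conn_prop thinM_single)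

noncomputable section

namespace Vale.Agent.P277Z.Glc.Sj

/-- coordinate subspaces -/
theorem exists_pq {d k : ℕ} (K : Finset (Fin d)) (hk : k + K.card = d) :
    ∃ (P : Cm d →L[ℂ] Cm k) (Q : Cm k →L[ℂ] Cm d), (∀ u, P (Q u) = u) ∧
      (∀ u, ∀ i ∈ K, Q u i = 0) ∧ ∀ w, (∀ i ∈ K, w i = 0) → Q (P w) = w := by
  classical
  have h1 : Fintype.card {i // i ∉ K} = k := by
    rw [Fintype.card_subtype_compl, Fintype.card_fin, Fintype.card_coe]
    omega
  let ε := Fintype.equivFinOfCardEq h1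
  let Q : Cm k →L[ℂ] Cm d := ContinuousLinearMap.pi fun i =>
    if h : i ∈ K then 0 else ContinuousLinearMap.proj (ε ⟨i, h⟩)
  have h2 : ∀ u, ∀ i ∈ K, Q u i = 0 := fun u i h => by simp [Q, h]
  have h3 : ∀ u i (h : i ∉ K), Q u i = u (ε ⟨i, h⟩) := fun u i h => by simp [Q, h]
  refine ⟨ContinuousLinearMap.pi fun j => ContinuousLinearMap.proj (ε.symm j).1, Q,
    fun u => funext fun j => ?_, h2, fun w hw => funext fun i => ?_⟩
  · exact (h3 u _ (ε.symm j).2).trans (congrArg u (ε.apply_symm_apply j))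
  · by_cases h : i ∈ K
    · rw [h2 _ i h, hw i h]
    · rw [h3 _ i h]
      exact congrArg (fun a : {i // i ∉ K} => w a.1) (ε.symm_apply_apply ⟨i, h⟩)

section par
variable {M : Type} [TopologicalSpace M] {n k m : ℕ} [ChartedSpace (Cm n) M]
  [IsManifold 𝓘(ℂ, Cm n) ω M]

/-- `S` is near `x` a submanifold, with the coordinates `c` and the parametrisation `γ` -/
structure Par (n : ℕ) [ChartedSpace (Cm n) M] (S : Set M) (x : M) (c : M → Cm k) (γ : Cm k → M) :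
    Prop where
  hol : ∀ i, HolF n (fun y => c y i) x
  an : AnM n γ (c x)
  left : ∀ᶠ y in 𝓝 x, y ∈ S → γ (c y) = y
  right : ∀ᶠ u in 𝓝 (c x), γ u ∈ S ∧ c (γ u) = u

variable {S S' A B : Set M} {x : M} {c : M → Cm k} {γ : Cm k → M}

theorem Par.cont (h : Par n S x c γ) : ContinuousAt c x :=
  continuousAt_pi.2 fun i => holF_cont (h.hol i)

theorem Par.tend (h : Par n S x c γ) (hx : x ∈ S) : Tendsto γ (𝓝 (c x)) (𝓝 x) := by
  have := h.an.1
  rwa [ContinuousAt, h.left.self_of_nhds hx] at this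

theorem Par.eventually (h : Par n S x c γ) : ∀ᶠ y in 𝓝 x, Par n S y c γ := by
  filter_upwards [eventually_all.2 fun i => holF_ev (h.hol i), h.cont.eventually h.an.eventually,
    h.left.eventually_nhds, h.cont.eventually h.right.eventually_nhds] with y e1 e2 e3 e4
  exact ⟨e1, e2, e3, e4⟩

theorem Par.congr (h : Par n S x c γ) (hx : x ∈ S) (e : ∀ᶠ y in 𝓝 x, y ∈ S' ↔ y ∈ S) :
    Par n S' x c γ :=
  ⟨h.hol, h.an, (h.left.and e).mono fun _ a b => a.1 (a.2.1 b),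
    (h.right.and ((h.tend hx).eventually e)).mono fun _ a => ⟨a.2.2 a.1.1, a.1.2⟩⟩

theorem Par.ev_iff (h : Par n S x c γ) (hx : x ∈ S) {p : M → Prop} :
    (∀ᶠ y in 𝓝 x, y ∈ S → p y) ↔ ∀ᶠ u in 𝓝 (c x), p (γ u) := by
  constructor
  · intro h1
    filter_upwards [(h.tend hx).eventually h1, h.right] with u e1 e2 using e1 e2.1
  · intro h1
    filter_upwards [h.cont.eventually h1, h.left] with y e1 e2 e3
    rwa [e2 e3] at e1

/-- thin sets in coordinates -/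
theorem cv_of (hB : ThinM n m B) (hc : ∀ i, HolF n (fun y => c y i) x) :
    ∃ T : Set (Cm k), Cv m T ∧ ∀ᶠ y in 𝓝 x, y ∈ B → c y ∈ T := by
  obtain ⟨Ω, g, h1, h2, h3⟩ := hB
  obtain ⟨N, hN, hNo, hzN⟩ := _root_.eventually_nhds_iff.1
    (eventually_all.2 fun i => holF_ev (hc i))
  refine ⟨⋃ l, (fun p => c (g l p)) '' {p | p ∈ Ω l ∧ g l p ∈ N},
    ⟨fun l => {p | p ∈ Ω l ∧ g l p ∈ N}, fun l p => c (g l p), fun l => ?_, fun l p hp => ?_,
      Subset.rfl⟩, ?_⟩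
  · rw [isOpen_iff_mem_nhds]
    intro p hp
    filter_upwards [(h1 l).mem_nhds hp.1, (h2 l p hp.1).1.eventually (hNo.mem_nhds hp.2)] with
      q hq hq' using ⟨hq, hq'⟩
  · exact analyticAt_pi_iff.2 fun i => AnM.hol (h2 l p hp.1) (hN _ hp.2 i)
  · filter_upwards [hNo.mem_nhds hzN] with y e1 e2
    obtain ⟨l, p, hp, rfl⟩ := mem_iUnion.1 (h3 e2)
    exact mem_iUnion.2 ⟨l, p, ⟨hp, e1⟩, rfl⟩

theorem thin_of [Nonempty M] [SecondCountableTopology M]
    (h : ∀ x ∈ S, ∃ (c : M → Cm k) (γ : Cm k → M), Par n S x c γ) : ThinM n k S := by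
  refine thinM_of_local fun x hx => ?_
  obtain ⟨c, γ, h⟩ := h x hx
  obtain ⟨Ω, o1, o2, o3⟩ := _root_.eventually_nhds_iff.1 h.an.eventually
  refine ⟨_, (h.cont.eventually (o2.mem_nhds o3)).and h.left, (thinM_single o2 o1).mono ?_⟩
  rintro y ⟨⟨e1, e2⟩, e3⟩
  exact ⟨c y, e1, e2 e3⟩

/-- an open part of a submanifold is not thin -/
theorem Par.not_thin (h : Par n S x c γ) (hx : x ∈ S) (hB : ThinM n m B) (hm : m < k) :
    ∃ y ∈ S, y ∉ B := by
  by_contra hcon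
  obtain ⟨T, t1, t2⟩ := cv_of hB h.hol
  refine not_cv_nhds (S := T) (x := c x) (by simpa using hm) ?_ t1
  filter_upwards [(h.tend hx).eventually t2, h.right] with u e1 e2
  exact e2.2 ▸ e1 (by_contra fun e => hcon ⟨_, e2.1, e⟩)

/-- connectedness outside a thin set -/
theorem conn_thin (hS : IsPreconnected S)
    (hp : ∀ x ∈ S, ∃ (c : M → Cm (m + 1)) (γ : Cm (m + 1) → M), Par n S x c γ)
    (hB : ThinM n m B) (hA : IsClosed A)
    (h : ∀ z ∈ S, z ∈ A → z ∉ B → ∀ᶠ z' in 𝓝 z, z' ∈ S → z' ∈ A) {z₀ : M}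
    (h0 : z₀ ∈ S) (h0' : ∀ᶠ z' in 𝓝 z₀, z' ∈ S → z' ∈ A) : S ⊆ A := by
  have h1 := conn_prop hS (p := fun y => ∀ᶠ y' in 𝓝 y, y' ∈ S → y' ∈ A)
    (fun x _ hp => hp.eventually_nhds.mono fun _ h _ => h) (fun x hx hq => ?_) h0 h0'
  · exact fun y hy => (h1 y hy).self_of_nhds hy
  obtain ⟨c, γ, hc⟩ := hp x hx
  obtain ⟨T, t1, t2⟩ := cv_of hB hc.hol
  rw [hc.ev_iff hx]
  have h2 : ∀ᶠ u in 𝓝 (c x), ContinuousAt γ u ∧ γ u ∈ S ∧ (γ u ∈ B → u ∈ T) := by
    filter_upwards [hc.an.eventually, hc.right, (hc.tend hx).eventually t2] with u e1 e2 e3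
    exact ⟨e1.1, e2.1, fun e => e2.2 ▸ e3 e⟩
  obtain ⟨r, hr, hb⟩ := Metric.eventually_nhds_iff_ball.1 h2
  obtain ⟨k1, k2⟩ := conn_cv (isOpen_ball (x := c x) (ε := r)) (convex_ball _ _) t1
  have hcl : ∀ u ∈ ball (c x) r, (∃ᶠ u' in 𝓝 u, γ u' ∈ A) → γ u ∈ A :=
    fun u hu h' => hA.mem_of_frequently_of_tendsto h' (hb u hu).1
  obtain ⟨y, ⟨e1, e2⟩, e3, e4⟩ := (hq.and_eventually (hc.eventually.and
    (hc.cont.eventually (ball_mem_nhds _ hr)))).exists
  rw [e3.ev_iff e1] at e2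
  obtain ⟨u₀, f1, f2⟩ := mem_closure_iff_nhds.1 (k2 e4) _ e2
  have h3 := conn_prop k1 (p := fun u => γ u ∈ A) (fun u hu hp => ?_)
    (fun u hu hp => hcl u hu.1 (hp.mono fun _ h => h.2)) f2 f1
  · filter_upwards [ball_mem_nhds _ hr] with u hu
    exact hcl u hu ((mem_closure_iff_frequently.1 (k2 hu)).mono h3)
  · have g1 := h _ (hb u hu.1).2.1 hp fun e => hu.2 ((hb u hu.1).2.2 e)
    filter_upwards [(hb u hu.1).1.eventually g1] with u' g2 g3
    exact g2 (hb u' g3.1).2.1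

end par

variable {d k : ℕ} (V : Mf d)

theorem par_st {I : Finset (Fin V.r)} (hk : k + I.card = d) {x : V.T} (hx : ∀ l ∈ I, x ∈ V.G l) :
    ∃ (c : V.T → Cm k) (γ : Cm k → V.T), Par d {z | ∀ l ∈ I, z ∈ V.G l} x c γ := by
  classical
  obtain ⟨Φ, ρ, lab, h, -⟩ := V.snc.nch x (Eventually.of_forall fun _ => trivial)
  choose i hi using fun l : I => h.mem.1 (hx l l.2)
  have h1 : (Finset.univ.image i).card = I.card := by
    rw [Finset.card_image_of_injective (f := i) _ fun l l' e =>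
      Subtype.ext (h.inj _ _ _ (hi l) (e ▸ hi l')), Finset.card_univ, Fintype.card_coe]
  obtain ⟨P, Q, a1, a2, a3⟩ := exists_pq (Finset.univ.image i) (h1 ▸ hk)
  have h2 : ∀ y ∈ Φ.source, (∀ l ∈ I, y ∈ V.G l) ↔ ∀ j ∈ Finset.univ.image i, Φ y j = 0 :=
    fun y hy => by
      simp only [Finset.forall_mem_image, Finset.mem_univ, forall_const, ← h.iff1 (hi _) hy,
        Subtype.forall]
  have h3 := h.crd x h.src
  have h4 : Q (P (Φ x)) = Φ x := a3 _ ((h2 x h.src).1 hx)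
  have h5 : Tendsto Q (𝓝 (P (Φ x))) (𝓝 (Φ x)) := Q.continuous.tendsto' _ _ h4
  refine ⟨fun y => P (Φ y), fun u => Φ.symm (Q u),
    fun j => h3.holF (analyticAt_pi_iff.1 (P.analyticAt _) j),
    AnM.comp (F := Q) (h4.symm ▸ h3.an) (Q.analyticAt _), ?_, ?_⟩
  · filter_upwards [h.nhds] with y e1 e2
    rw [a3 _ ((h2 y e1).1 e2), Φ.left_inv e1]
  · filter_upwards [h5.eventually (h3.right.and (h3.tend.eventually h.nhds))] with u e
    exact ⟨(h2 _ e.2).2 (e.1.symm ▸ a2 u), by rw [e.1, a1]⟩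

theorem par_cc {I : Finset (Fin V.r)} (hk : k + I.card = d) {x y : V.T} (hx : x ∈ V.cc I y) :
    ∃ (c : V.T → Cm k) (γ : Cm k → V.T), Par d (V.cc I y) x c γ := by
  obtain ⟨c, γ, h⟩ := par_st V hk (V.cc_sub hx)
  exact ⟨c, γ, h.congr (V.cc_sub hx) ((V.near_cc (V.cc_sub hx)).mono fun z hz =>
    ⟨V.cc_sub, V.cc_eq hx ▸ hz⟩)⟩

theorem thin_st {I : Finset (Fin V.r)} (hk : d ≤ k + I.card) :
    ThinM d k {z | ∀ l ∈ I, z ∈ V.G l} := by
  have := ChartedSpace.secondCountable_of_sigmaCompact (Cm d) V.T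
  by_cases h : I.card ≤ d
  · exact (thin_of (k := d - I.card) fun x hx => par_st V (by omega) hx).le (by omega)
  · exact thinM_empty.mono fun x hx => h (V.card_le' hx)

theorem closed_cc (I : Finset (Fin V.r)) (y : V.T) : IsClosed (V.cc I y) := by
  refine isClosed_of_closure_subset fun z hz => ?_
  have h1 : ∀ l ∈ I, z ∈ V.G l := fun l hl =>
    (V.snc.closed' l).closure_subset_iff.2 (fun _ a => V.cc_sub a l hl) hz
  obtain ⟨x, a, b⟩ := ((mem_closure_iff_frequently.1 hz).and_eventually (V.near_cc h1)).exists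
  rw [V.cc_eq a, ← V.cc_eq (b (V.cc_sub a))]
  exact V.mem_cc h1

end Vale.Agent.P277Z.Glc.Sj
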